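import Crest.Agent.R75.Defs

/-!
# Row 75, module E: the de la Vallée-Poussin type truncation
-/

set_option autoImplicit false

open Finset MeasureTheory

namespace Crest.Agent.R75

namespace Kernel

/-- the Dirichlet sum -/
noncomputable def D (n : ℕ) (s : ℝ) : ℂ := ∑ j ∈ range n, ee (j * s)

theorem four_abs_le {s : ℝ} (hs : |s| ≤ 1 / 2) : 4 * |s| ≤ ‖ee s - 1‖ := by
  have h1 : ee s = Complex.exp (Complex.I * ((2 * Real.pi * s : ℝ) : ℂ)) := by
    rw [ee]; congr 1; push_cast; ring
  rw [h1, Complex.norm_exp_I_mul_ofReal_sub_one, Real.norm_eq_abs, abs_mul, abs_two]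
  have h2 : 2 * Real.pi * s / 2 = Real.pi * s := by ring
  rw [h2]
  have h3 : |Real.pi * s| ≤ Real.pi / 2 := by
    rw [abs_mul, abs_of_pos Real.pi_pos]
    nlinarith [Real.pi_pos]
  have h4 := Real.mul_abs_le_abs_sin h3
  rw [abs_mul, abs_of_pos Real.pi_pos] at h4
  have h5 : 2 / Real.pi * (Real.pi * |s|) = 2 * |s| := by field_simp
  linarith

theorem norm_D_le (n : ℕ) {s : ℝ} (hs : |s| ≤ 1 / 2) (hs0 : s ≠ 0) : ‖D n s‖ ≤ 1 / (2 * |s|) := by
  have h1 : D n s * (ee s - 1) = ee s ^ n - 1 := by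
    simp only [D, ee_nat_mul]
    exact geom_sum_mul _ _
  have h2 : ‖D n s‖ * ‖ee s - 1‖ ≤ 2 := by
    rw [← norm_mul, h1]
    refine (norm_sub_le _ _).trans ?_
    rw [norm_pow, norm_ee, one_pow, norm_one]
    norm_num
  have h3 := four_abs_le hs
  have h4 : 0 < |s| := abs_pos.2 hs0
  rw [le_div_iff₀ (by positivity)]
  nlinarith [norm_nonneg (D n s)]

/-- the multipliers -/
noncomputable def mult (b c k : ℕ) : ℝ :=
  (((range b ×ˢ range c).filter fun p => p.1 + p.2 = k).card : ℝ) / b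

theorem mult_nonneg (b c k : ℕ) : 0 ≤ mult b c k := by unfold mult; positivity

theorem mult_le_one (b c k : ℕ) : mult b c k ≤ 1 := by
  unfold mult
  apply div_le_one_of_le₀ _ (Nat.cast_nonneg _)
  have : ((range b ×ˢ range c).filter fun p => p.1 + p.2 = k).card ≤ (range b).card := by
    apply Finset.card_le_card_of_injOn Prod.fst
    · intro p hp
      simp only [coe_filter, mem_product, Set.mem_ofPred_eq] at hp
      exact hp.1.1
    · intro p hp q hq h
      simp only [coe_filter, mem_product, Set.mem_ofPred_eq] at hp hq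
      ext
      · exact h
      · have := hp.2; have := hq.2; omega
  rw [card_range] at this
  exact_mod_cast this

theorem mult_eq_one {b c k : ℕ} (hb : 0 < b) (h1 : b ≤ k + 1) (h2 : k < c) : mult b c k = 1 := by
  unfold mult
  have : ((range b ×ˢ range c).filter fun p => p.1 + p.2 = k).card = (range b).card := by
    symm
    apply Finset.card_bij (fun j _ => (j, k - j))
    · intro j hj
      simp only [mem_range] at hj
      simp only [mem_filter, mem_product, mem_range]
      omega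
    · intro j _ j' _ h
      exact (Prod.ext_iff.1 h).1
    · intro p hp
      simp only [mem_filter, mem_product, mem_range] at hp
      refine ⟨p.1, mem_range.2 hp.1.1, ?_⟩
      ext
      · rfl
      · simp only; omega
  rw [this, card_range, div_self (by positivity)]

/-- the kernel -/
noncomputable def V (b c N : ℕ) (s : ℝ) : ℂ := ∑ k ∈ range N, (mult b c k : ℂ) * ee (k * s)

theorem V_eq {b c N : ℕ} (h : b + c ≤ N + 1) (s : ℝ) : V b c N s = D b s * D c s / b := by
  unfold V D
  rw [Finset.sum_mul_sum, ← Finset.sum_product',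
    ← Finset.sum_fiberwise_of_maps_to (s := range b ×ˢ range c) (t := range N)
      (g := fun p => p.1 + p.2) (fun p hp => by
        simp only [mem_product, mem_range] at hp ⊢
        omega), Finset.sum_div]
  refine Finset.sum_congr rfl fun k _ => ?_
  rw [Finset.sum_congr rfl (g := fun _ => ee (k * s)) (fun p hp => by
    rw [← ee_add, ← (mem_filter.1 hp).2]
    congr 1; push_cast; ring), Finset.sum_const, nsmul_eq_mul, mult]
  push_cast
  ring

theorem norm_V_le (b c N : ℕ) (s : ℝ) : ‖V b c N s‖ ≤ N := by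
  refine (norm_sum_le _ _).trans ?_
  calc ∑ k ∈ range N, ‖(mult b c k : ℂ) * ee (k * s)‖ ≤ ∑ k ∈ range N, (1 : ℝ) := by
        refine Finset.sum_le_sum fun k _ => ?_
        rw [norm_mul, norm_ee, mul_one, Complex.norm_real, Real.norm_eq_abs,
          abs_of_nonneg (mult_nonneg _ _ _)]
        exact mult_le_one _ _ _
    _ = N := by simp

theorem norm_V_le' {b c N : ℕ} (h : b + c ≤ N + 1) (hb : 0 < b) {s : ℝ} (hs : |s| ≤ 1 / 2)
    (hs0 : s ≠ 0) : ‖V b c N s‖ ≤ 1 / (4 * b) * (s ^ 2)⁻¹ := by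
  rw [V_eq h, norm_div, norm_mul, Complex.norm_natCast]
  have h1 := norm_D_le b hs hs0
  have h2 := norm_D_le c hs hs0
  have h3 : 0 < |s| := abs_pos.2 hs0
  have h4 : ‖D b s‖ * ‖D c s‖ ≤ 1 / (2 * |s|) * (1 / (2 * |s|)) :=
    mul_le_mul h1 h2 (norm_nonneg _) (by positivity)
  have hb' : (0 : ℝ) < b := by exact_mod_cast hb
  calc ‖D b s‖ * ‖D c s‖ / b ≤ 1 / (2 * |s|) * (1 / (2 * |s|)) / b := by gcongr
    _ = 1 / (4 * b) * (s ^ 2)⁻¹ := by
        rw [← sq_abs s]; field_simp; ring

@[fun_prop] theorem continuous_V (b c N : ℕ) : Continuous (V b c N) := by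
  unfold V; fun_prop

theorem periodic_V (b c N : ℕ) (s : ℝ) : V b c N (s - 1) = V b c N s := by
  unfold V
  refine Finset.sum_congr rfl fun k _ => ?_
  have : (k : ℝ) * (s - 1) = k * s + ((-(k : ℤ) : ℤ) : ℝ) := by push_cast; ring
  rw [this, ee_add_intCast]

theorem integrable_of_bdd {w : ℝ → ℂ} (hw : Measurable w) (hb : ∀ t, ‖w t‖ ≤ 1) (a b : ℝ) :
    IntervalIntegrable w volume a b :=
  (intervalIntegrable_const (c := (1 : ℝ))).mono_fun' hw.aestronglyMeasurable
    (Filter.Eventually.of_forall hb)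

theorem conv_eq {w : ℝ → ℂ} (hw : Measurable w) (hp : Function.Periodic w 1)
    (hb : ∀ t, ‖w t‖ ≤ 1) (b c N : ℕ) (t : ℝ) :
    ∑ k ∈ range N, (mult b c k : ℂ) * (∫ u in (0 : ℝ)..1, w u * ee (-(k * u))) * ee (k * t) =
      ∫ s in (-(1 / 2) : ℝ)..(1 / 2), w (t + s) * V b c N (-s) := by
  have h1 : ∑ k ∈ range N, (mult b c k : ℂ) * (∫ u in (0 : ℝ)..1, w u * ee (-(k * u))) *
      ee (k * t) = ∫ u in (0 : ℝ)..1, w u * V b c N (t - u) := by
    unfold V
    simp only [Finset.mul_sum]
    rw [intervalIntegral.integral_finsetSum]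
    · refine Finset.sum_congr rfl fun k _ => ?_
      rw [← intervalIntegral.integral_const_mul, ← intervalIntegral.integral_mul_const]
      congr 1
      ext u
      have : (k : ℝ) * (t - u) = -(k * u) + k * t := by ring
      rw [this, ee_add]; ring
    · intro k _
      exact (integrable_of_bdd hw hb _ _).mul_continuousOn (by fun_prop)
  have h2 : Function.Periodic (fun u => w u * V b c N (t - u)) 1 := by
    intro u
    have : t - (u + 1) = (t - u) - 1 := by ring
    simp only [hp u, this, periodic_V]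
  have h3 := h2.intervalIntegral_add_eq 0 (t + -(1 / 2))
  rw [zero_add] at h3
  rw [h1, h3]
  have h4 := intervalIntegral.integral_comp_add_left (fun u => w u * V b c N (t - u)) t
    (a := -(1 / 2)) (b := 1 / 2)
  have h5 : t + -(1 / 2) + 1 = t + 1 / 2 := by ring
  rw [h5, ← h4]
  simp

theorem integral_ee_mul_V (b c N k : ℕ) (hk : k < N) :
    ∫ s in (-(1 / 2) : ℝ)..(1 / 2), ee (k * s) * V b c N (-s) = mult b c k := by
  have hp : Function.Periodic (fun s : ℝ => ee (k * s)) 1 := by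
    intro s
    have : (k : ℝ) * (s + 1) = k * s + ((k : ℤ) : ℝ) := by push_cast; ring
    simp only [this, ee_add_intCast]
  have h := conv_eq (w := fun s => ee (k * s)) (by fun_prop) hp (fun t => by simp) b c N 0
  simp only [zero_add, mul_zero, ee_zero, mul_one] at h
  rw [← h]
  have h2 : ∀ l ∈ range N, (mult b c l : ℂ) * ∫ u in (0 : ℝ)..1, ee (k * u) * ee (-(l * u)) =
      if l = k then (mult b c k : ℂ) else 0 := by
    intro l _
    have h3 : ∀ u : ℝ, ee (k * u) * ee (-(l * u)) = ee ((((k : ℤ) - l : ℤ) : ℝ) * u) := by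
      intro u; rw [← ee_add]; congr 1; push_cast; ring
    simp only [h3, integral_ee_int]
    by_cases e : l = k
    · simp [e]
    · have : (k : ℤ) - l ≠ 0 := by omega
      simp [e, this]
  rw [Finset.sum_congr rfl h2, Finset.sum_ite_eq' (range N) k, if_pos (mem_range.2 hk)]

theorem integral_inv_sq {a b : ℝ} (ha : 0 < a) (hab : a ≤ b) :
    ∫ s in a..b, (s ^ 2)⁻¹ ≤ a⁻¹ := by
  have h1 : ∫ s in a..b, (s ^ 2)⁻¹ = -b⁻¹ - -a⁻¹ := by
    apply intervalIntegral.integral_eq_sub_of_hasDerivAt (f := fun s => -s⁻¹)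
    · intro s hs
      rw [Set.uIcc_of_le hab] at hs
      have := (hasDerivAt_inv (ha.trans_le hs.1).ne').fun_neg
      simpa using this
    · apply ContinuousOn.intervalIntegrable
      rw [Set.uIcc_of_le hab]
      exact ContinuousOn.inv₀ (by fun_prop) fun s hs => pow_ne_zero _ (ha.trans_le hs.1).ne'
  rw [h1]
  have : 0 < b⁻¹ := inv_pos.2 (ha.trans_le hab)
  linarith

theorem tail_bound {F : ℝ → ℂ} {a M : ℝ} (ha : 0 < a) (ha' : a ≤ 1 / 2) (hM : 0 ≤ M)
    (hF : ∀ s, a ≤ s → s ≤ 1 / 2 → ‖F s‖ ≤ M * (s ^ 2)⁻¹) :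
    ‖∫ s in a..(1 / 2), F s‖ ≤ M * a⁻¹ := by
  have h1 : IntervalIntegrable (fun s : ℝ => M * (s ^ 2)⁻¹) volume a (1 / 2) := by
    apply ContinuousOn.intervalIntegrable
    rw [Set.uIcc_of_le ha']
    exact continuousOn_const.mul
      (ContinuousOn.inv₀ (by fun_prop) fun s hs => pow_ne_zero _ (ha.trans_le hs.1).ne')
  refine (intervalIntegral.norm_integral_le_of_norm_le ha'
    (Filter.Eventually.of_forall fun s hs => hF s hs.1.le hs.2) h1).trans ?_
  rw [intervalIntegral.integral_const_mul]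
  exact mul_le_mul_of_nonneg_left (integral_inv_sq ha ha') hM

end Kernel

open Kernel in
theorem kernel : KernelStmt := by
  intro δ ε hδ hδ' hε
  set K : ℝ := 6 / (δ * ε) with hK
  have hK0 : 0 < K := by positivity
  refine ⟨ε / (6 * K), K, by positivity, hK0, ⌈2 / δ + 2 * K + 12 * Real.pi * K ^ 2 / ε⌉₊,
    fun N hN => ?_⟩
  have hN' : 2 / δ + 2 * K + 12 * Real.pi * K ^ 2 / ε ≤ N := Nat.ceil_le.1 hN
  have hp1 : 0 < 2 / δ := by positivity
  have hp2 : 0 ≤ 12 * Real.pi * K ^ 2 / ε := by positivity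
  have hN0 : (0 : ℝ) < N := by linarith
  have hδN : 2 ≤ δ * N := by
    have : 2 / δ ≤ N := by linarith
    rw [div_le_iff₀ hδ] at this
    linarith
  have hKN : K / N ≤ 1 / 2 := by
    rw [div_le_iff₀ hN0]; linarith
  have hKN0 : 0 < K / N := by positivity
  set b := ⌈δ * N / 2⌉₊ with hb
  have hb1 : δ * N / 2 ≤ b := Nat.le_ceil _
  have hb2 : (b : ℝ) < δ * N / 2 + 1 := Nat.ceil_lt_add_one (by positivity)
  have hb0' : (0 : ℝ) < b := by linarith
  have hb0 : 0 < b := by exact_mod_cast hb0'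
  have hbN : b ≤ N := by
    have : (b : ℝ) ≤ N := by nlinarith
    exact_mod_cast this
  set c := N - b + 1 with hc
  have hbc : b + c ≤ N + 1 := by omega
  refine ⟨mult b c, fun k => ⟨mult_nonneg _ _ _, mult_le_one _ _ _⟩,
    fun w hw hp hbd hloc t => ?_⟩
  obtain ⟨x, hx1, hx2, hx⟩ := hloc t
  have hx0 : 0 ≤ x := by linarith
  set k := ⌊x⌋₊ with hk
  have hk1 : (k : ℝ) ≤ x := Nat.floor_le hx0
  have hk2 : x < k + 1 := Nat.lt_floor_add_one x
  have hk3 : b ≤ k + 1 := by
    have : (b : ℝ) ≤ k + 1 := by linarith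
    exact_mod_cast this
  have hk4 : k + b ≤ N := by
    have : (k : ℝ) + b ≤ N := by linarith
    exact_mod_cast this
  have hone := integral_ee_mul_V b c N k (by omega)
  rw [mult_eq_one hb0 hk3 (by omega)] at hone
  rw [conv_eq hw hp hbd]
  set F : ℝ → ℂ := fun s => (w (t + s) - w t * ee (k * s)) * V b c N (-s) with hF
  have hwi : ∀ a a' : ℝ, IntervalIntegrable (fun s => w (t + s) * V b c N (-s)) volume a a' :=
    fun a a' => (integrable_of_bdd (w := fun s => w (t + s)) (by fun_prop) (fun s => hbd _)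
      a a').mul_continuousOn (by fun_prop)
  have hei : ∀ a a' : ℝ,
      IntervalIntegrable (fun s => w t * (ee (k * s) * V b c N (-s))) volume a a' :=
    fun a a' => Continuous.intervalIntegrable (by fun_prop) _ _
  have hFi : ∀ a a' : ℝ, IntervalIntegrable F volume a a' := by
    intro a a'
    have := (hwi a a').sub (hei a a')
    convert this using 2
    simp only [hF]; ring
  have h1 : (∫ s in (-(1 / 2) : ℝ)..(1 / 2), w (t + s) * V b c N (-s)) - w t =
      ∫ s in (-(1 / 2) : ℝ)..(1 / 2), F s := by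
    have h2 : w t = ∫ s in (-(1 / 2) : ℝ)..(1 / 2), w t * (ee (k * s) * V b c N (-s)) := by
      rw [intervalIntegral.integral_const_mul, hone]; simp
    conv_lhs => rw [h2]
    rw [← intervalIntegral.integral_sub (hwi _ _) (hei _ _)]
    congr 1
    ext s
    simp only [hF]; ring
  rw [h1, ← intervalIntegral.integral_add_adjacent_intervals (hFi _ (-(K / N))) (hFi _ _),
    ← intervalIntegral.integral_add_adjacent_intervals (hFi (-(K / N)) (K / N)) (hFi _ _)]
  have hfar : ∀ s, |s| ≤ 1 / 2 → s ≠ 0 → ‖F s‖ ≤ 1 / (2 * b) * (s ^ 2)⁻¹ := by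
    intro s hs hs0
    have h2 : ‖w (t + s) - w t * ee (k * s)‖ ≤ 2 := by
      refine (norm_sub_le _ _).trans ?_
      rw [norm_mul, norm_ee, mul_one]
      linarith [hbd (t + s), hbd t]
    have h3 := norm_V_le' hbc hb0 (s := -s) (by rwa [abs_neg]) (neg_ne_zero.2 hs0)
    rw [neg_sq] at h3
    simp only [hF, norm_mul]
    calc _ ≤ 2 * (1 / (4 * b) * (s ^ 2)⁻¹) := mul_le_mul h2 h3 (norm_nonneg _) (by norm_num)
      _ = _ := by ring
  have htail : 1 / (2 * (b : ℝ)) * (K / N)⁻¹ ≤ ε / 6 := by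
    rw [inv_div, div_mul_div_comm, one_mul, div_le_div_iff₀ (by positivity) (by norm_num)]
    have h2 : ε * K * δ = 6 := by rw [hK]; field_simp
    nlinarith [mul_le_mul_of_nonneg_left hb1 (by positivity : 0 ≤ ε * K)]
  have hA : ‖∫ s in (K / N)..(1 / 2), F s‖ ≤ ε / 6 :=
    (tail_bound hKN0 hKN (by positivity) fun s h1 h2 =>
      hfar s (by rw [abs_of_pos (by linarith)]; exact h2) (by linarith)).trans htail
  have hB : ‖∫ s in (-(1 / 2) : ℝ)..(-(K / N)), F s‖ ≤ ε / 6 := by
    rw [← intervalIntegral.integral_comp_neg]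
    refine (tail_bound hKN0 hKN (by positivity) fun s h1 h2 => ?_).trans htail
    have := hfar (-s) (by rw [abs_neg, abs_of_pos (by linarith)]; exact h2) (by linarith)
    rwa [neg_sq] at this
  have hC : ‖∫ s in (-(K / N))..(K / N), F s‖ ≤ 2 * ε / 3 := by
    have h2 : ∀ s ∈ Set.uIoc (-(K / N)) (K / N),
        ‖F s‖ ≤ (ε / (6 * K) + 2 * Real.pi * (K / N)) * N := by
      intro s hs
      rw [Set.uIoc_of_le (by linarith)] at hs
      have hs' : |s| ≤ K / N := abs_le.2 ⟨hs.1.le, hs.2⟩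
      have h3 : ‖w t * ee (x * s) - w t * ee (k * s)‖ ≤ 2 * Real.pi * (K / N) := by
        rw [← mul_sub, norm_mul]
        have h4 := norm_ee_sub_ee_le (x * s) (k * s)
        have h5 : |x * s - k * s| ≤ K / N := by
          rw [← sub_mul, abs_mul]
          have : |x - k| ≤ 1 := abs_le.2 ⟨by linarith, by linarith⟩
          nlinarith [abs_nonneg s, abs_nonneg (x - k)]
        calc _ ≤ 1 * (2 * Real.pi * |x * s - k * s|) :=
              mul_le_mul (hbd t) h4 (norm_nonneg _) zero_le_one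
          _ ≤ _ := by rw [one_mul]; gcongr
      have h4 : ‖w (t + s) - w t * ee (k * s)‖ ≤ ε / (6 * K) + 2 * Real.pi * (K / N) :=
        (norm_sub_le_norm_sub_add_norm_sub _ (w t * ee (x * s)) _).trans
          (add_le_add (hx s hs') h3)
      simp only [hF, norm_mul]
      exact mul_le_mul h4 (norm_V_le _ _ _ _) (norm_nonneg _) (by positivity)
    refine (intervalIntegral.norm_integral_le_of_norm_le_const h2).trans ?_
    have h3 : |K / N - -(K / N)| = 2 * (K / N) := by
      rw [abs_of_pos (by linarith)]; ring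
    rw [h3]
    have h4 : (ε / (6 * K) + 2 * Real.pi * (K / N)) * N * (2 * (K / N)) =
        ε / 3 + 4 * Real.pi * K ^ 2 / N := by field_simp; ring
    have h5 : 4 * Real.pi * K ^ 2 / N ≤ ε / 3 := by
      have h6 : 12 * Real.pi * K ^ 2 / ε ≤ N := by linarith
      rw [div_le_iff₀ hε] at h6
      rw [div_le_iff₀ hN0]
      linarith
    linarith
  calc _ ≤ ‖∫ s in (-(1 / 2) : ℝ)..(-(K / N)), F s‖ + (‖∫ s in (-(K / N))..(K / N), F s‖ +
        ‖∫ s in (K / N)..(1 / 2), F s‖) :=
        (norm_add_le _ _).trans (add_le_add_right (norm_add_le _ _) _)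
    _ ≤ ε := by linarith

end Crest.Agent.R75
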