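import Crest.Agent.R75.Defs

/-! # Row 75, module B: Spencer's bound for trigonometric polynomials, and flattening -/

set_option autoImplicit false

open Finset

namespace Crest.Agent.R75

namespace TrigSpencer

/-- Dirichlet-type kernel. -/
noncomputable def Dk (n : ℕ) (u : ℝ) : ℂ := ∑ a ∈ range n, ee (a * u)

lemma sum_ee_small (R : ℕ) (hR : 0 < R) (n : ℤ) (h1 : -(R : ℤ) < n) (h2 : n < R) :
    ∑ j ∈ range R, ee (n * j / R) = if n = 0 then (R : ℂ) else 0 := by
  rw [sum_ee_div R hR n]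
  by_cases h : n = 0
  · simp [h]
  · rw [if_neg h, if_neg]
    intro hd
    exact h (Int.eq_zero_of_abs_lt_dvd hd (abs_lt.2 ⟨h1, h2⟩))

lemma parseval (R n : ℕ) (hR : 0 < R) (hn : n ≤ R) (t : ℝ) :
    ∑ j ∈ range R, ‖Dk n (t - j / R)‖ ^ 2 = R * n := by
  apply Complex.ofReal_injective
  have h1 : ∀ j : ℕ, ((‖Dk n (t - j / R)‖ ^ 2 : ℝ) : ℂ) =
      ∑ a ∈ range n, ∑ b ∈ range n, ee ((a - b) * t) * ee (((b : ℤ) - (a : ℤ) : ℤ) * j / R) := by
    intro j
    rw [← Complex.normSq_eq_norm_sq, ← Complex.mul_conj, Dk, map_sum, Finset.sum_mul_sum]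
    refine Finset.sum_congr rfl fun a _ => Finset.sum_congr rfl fun b _ => ?_
    rw [← ee_neg, ← ee_add, ← ee_add]
    congr 1
    push_cast
    ring
  rw [Complex.ofReal_sum]
  simp only [h1]
  rw [Finset.sum_comm]
  have h2 : ∀ a ∈ range n, ∑ j ∈ range R, ∑ b ∈ range n,
      ee ((a - b) * t) * ee (((b : ℤ) - (a : ℤ) : ℤ) * j / R) = R := by
    intro a ha
    rw [Finset.sum_comm]
    have h3 : ∀ b ∈ range n, ∑ j ∈ range R,
        ee ((a - b) * t) * ee (((b : ℤ) - (a : ℤ) : ℤ) * j / R) = if b = a then (R : ℂ) else 0 := by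
      intro b hb
      have ha' := mem_range.1 ha
      have hb' := mem_range.1 hb
      rw [← Finset.mul_sum, sum_ee_small R hR _ (by omega) (by omega)]
      by_cases h : b = a
      · simp [h]
      · rw [if_neg (by omega), if_neg h, mul_zero]
    rw [Finset.sum_congr rfl h3, Finset.sum_ite_eq' _ a, if_pos ha]
  rw [Finset.sum_congr rfl h2]
  simp [mul_comm]

lemma reproduce (N k : ℕ) (hk : k < N) (t : ℝ) :
    ∑ j ∈ range (2 * N), ee (k * (j / (2 * N : ℕ))) *
      ((starRingEnd ℂ) (Dk N (t - j / (2 * N : ℕ))) * Dk (2 * N) (t - j / (2 * N : ℕ))) =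
      (2 * N : ℕ) * N * ee (k * t) := by
  have h1 : ∀ j : ℕ, ee (k * (j / (2 * N : ℕ))) *
      ((starRingEnd ℂ) (Dk N (t - j / (2 * N : ℕ))) * Dk (2 * N) (t - j / (2 * N : ℕ))) =
      ∑ a ∈ range N, ∑ b ∈ range (2 * N),
        ee ((b - a) * t) * ee (((k : ℤ) + (a : ℤ) - (b : ℤ) : ℤ) * j / (2 * N : ℕ)) := by
    intro j
    rw [Dk, Dk, map_sum, Finset.sum_mul_sum, Finset.mul_sum]
    refine Finset.sum_congr rfl fun a _ => ?_
    rw [Finset.mul_sum]
    refine Finset.sum_congr rfl fun b _ => ?_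
    rw [← ee_neg, ← ee_add, ← ee_add, ← ee_add]
    congr 1
    push_cast
    ring
  simp only [h1]
  rw [Finset.sum_comm]
  have h2 : ∀ a ∈ range N, ∑ j ∈ range (2 * N), ∑ b ∈ range (2 * N),
      ee ((b - a) * t) * ee (((k : ℤ) + (a : ℤ) - (b : ℤ) : ℤ) * j / (2 * N : ℕ)) =
      (2 * N : ℕ) * ee (k * t) := by
    intro a ha
    rw [Finset.sum_comm]
    have ha' := mem_range.1 ha
    have h3 : ∀ b ∈ range (2 * N), ∑ j ∈ range (2 * N),
        ee ((b - a) * t) * ee (((k : ℤ) + (a : ℤ) - (b : ℤ) : ℤ) * j / (2 * N : ℕ)) =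
        if b = k + a then ((2 * N : ℕ) : ℂ) * ee (k * t) else 0 := by
      intro b hb
      have hb' := mem_range.1 hb
      rw [← Finset.mul_sum, sum_ee_small (2 * N) (by omega) _ (by omega) (by omega)]
      by_cases h : b = k + a
      · rw [if_pos (by omega), if_pos h, mul_comm, h]
        congr 2
        push_cast
        ring
      · rw [if_neg (by omega), if_neg h, mul_zero]
    rw [Finset.sum_congr rfl h3, Finset.sum_ite_eq' _ (k + a), if_pos (mem_range.2 (by omega))]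
  rw [Finset.sum_congr rfl h2, Finset.sum_const, card_range, nsmul_eq_mul]
  ring

/-- Grid lemma. -/
lemma grid (N : ℕ) (hN : 0 < N) (S : Finset ℕ) (hS : S ⊆ range N) (c : ℕ → ℂ) (X : ℝ)
    (hX : ∀ j < 2 * N, ‖∑ k ∈ S, c k * ee (k * (j / (2 * N : ℕ)))‖ ≤ X) (t : ℝ) :
    ‖∑ k ∈ S, c k * ee (k * t)‖ ≤ 2 * X := by
  have hX0 : 0 ≤ X := (norm_nonneg _).trans (hX 0 (by omega))
  have h1 : ((2 * N : ℕ) : ℂ) * N * ∑ k ∈ S, c k * ee (k * t) =
      ∑ j ∈ range (2 * N), (∑ k ∈ S, c k * ee (k * (j / (2 * N : ℕ)))) *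
        ((starRingEnd ℂ) (Dk N (t - j / (2 * N : ℕ))) * Dk (2 * N) (t - j / (2 * N : ℕ))) := by
    simp only [Finset.sum_mul]
    rw [Finset.sum_comm, Finset.mul_sum]
    refine Finset.sum_congr rfl fun k hk => ?_
    simp only [mul_assoc (c k)]
    rw [← Finset.mul_sum, reproduce N k (mem_range.1 (hS hk)) t]
    ring
  have h2 : ‖((2 * N : ℕ) : ℂ) * N * ∑ k ∈ S, c k * ee (k * t)‖ ≤
      ∑ j ∈ range (2 * N), X * ((‖Dk N (t - j / (2 * N : ℕ))‖ ^ 2 +
        ‖Dk (2 * N) (t - j / (2 * N : ℕ))‖ ^ 2) / 2) := by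
    rw [h1]
    refine (norm_sum_le _ _).trans (Finset.sum_le_sum fun j hj => ?_)
    rw [norm_mul, norm_mul, Complex.norm_conj]
    refine mul_le_mul (hX j (mem_range.1 hj)) ?_ (by positivity) hX0
    nlinarith [sq_nonneg (‖Dk N (t - j / (2 * N : ℕ))‖ - ‖Dk (2 * N) (t - j / (2 * N : ℕ))‖)]
  rw [← Finset.mul_sum, ← Finset.sum_div, Finset.sum_add_distrib,
    parseval (2 * N) N (by omega) (by omega), parseval (2 * N) (2 * N) (by omega) le_rfl,
    norm_mul, norm_mul, Complex.norm_natCast, Complex.norm_natCast] at h2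
  have hN' : (0 : ℝ) < N := by exact_mod_cast hN
  push_cast at h2
  have h3 : (0 : ℝ) < 2 * N * N := by positivity
  refine le_of_mul_le_mul_left (h2.trans ?_) h3
  nlinarith [mul_nonneg hX0 h3.le]

end TrigSpencer

open TrigSpencer in
theorem trigSpencer_of (h : SpencerStmt) : TrigSpencerStmt := by
  classical
  obtain ⟨C, hC, h⟩ := h
  refine ⟨8 * C, by positivity, fun N S b d x hS hd hb hx hN => ?_⟩
  rcases Nat.eq_zero_or_pos N with rfl | hN0
  · refine ⟨fun _ => 1, fun _ => Or.inl rfl, fun t => ?_⟩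
    have : S = ∅ := by simpa using hS
    rw [this, Finset.sum_empty, norm_zero]
    positivity
  rcases hd.eq_or_lt with rfl | hd0
  · refine ⟨fun _ => 1, fun _ => Or.inl rfl, fun t => ?_⟩
    rw [Finset.sum_eq_zero, norm_zero]
    · positivity
    · intro k hk
      have : b k = 0 := norm_le_zero_iff.1 (hb k hk)
      simp [this]
  set z : ℕ → ℕ → ℂ := fun j k => b k * ee (k * (j / (2 * N : ℕ))) with hz
  have hzn : ∀ j, ∀ k ∈ S, ‖z j k‖ ≤ d := by
    intro j k hk
    simp only [hz, norm_mul, norm_ee, mul_one]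
    exact hb k hk
  set a : ℕ → ℕ → ℝ := fun i k =>
    if k ∈ S then (if i < 2 * N then (z i k).re / d else (z (i - 2 * N) k).im / d) else 0 with ha
  have ha1 : ∀ i k, |a i k| ≤ 1 := by
    intro i k
    simp only [ha]
    split_ifs with h1 h2
    · rw [abs_div, abs_of_pos hd0, div_le_one hd0]
      exact (Complex.abs_re_le_norm _).trans (hzn _ _ h1)
    · rw [abs_div, abs_of_pos hd0, div_le_one hd0]
      exact (Complex.abs_im_le_norm _).trans (hzn _ _ h1)
    · simp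
  have hcard : S.card ≤ 4 * N := by
    have := Finset.card_le_card hS
    rw [card_range] at this
    omega
  obtain ⟨s, hs, hsum⟩ := h (4 * N) S a (2 * x) ha1 hcard (by positivity) (by
    push_cast
    have : (0 : ℝ) ≤ S.card * (N : ℝ) ^ 2 := by positivity
    nlinarith)
  refine ⟨s, hs, fun t => ?_⟩
  have key := grid N hN0 S hS (fun k => (s k : ℂ) * b k) (4 * C * d * x) (fun j hj => ?_) t
  · refine key.trans (le_of_eq ?_)
    ring
  · have e : ∑ k ∈ S, (s k : ℂ) * b k * ee (k * (j / (2 * N : ℕ))) = ∑ k ∈ S, (s k : ℂ) * z j k :=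
      Finset.sum_congr rfl fun k _ => by simp only [hz]; ring
    rw [e]
    have hre : (∑ k ∈ S, (s k : ℂ) * z j k).re = d * ∑ k ∈ S, s k * a j k := by
      rw [Complex.re_sum, Finset.mul_sum]
      refine Finset.sum_congr rfl fun k hk => ?_
      simp only [ha, if_pos hk, if_pos hj, Complex.re_ofReal_mul]
      field_simp
    have him : (∑ k ∈ S, (s k : ℂ) * z j k).im = d * ∑ k ∈ S, s k * a (j + 2 * N) k := by
      rw [Complex.im_sum, Finset.mul_sum]
      refine Finset.sum_congr rfl fun k hk => ?_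
      have : ¬ j + 2 * N < 2 * N := by omega
      simp only [ha, if_pos hk, if_neg this, Complex.im_ofReal_mul, Nat.add_sub_cancel]
      field_simp
    refine (Complex.norm_le_abs_re_add_abs_im _).trans ?_
    rw [hre, him, abs_mul, abs_mul, abs_of_pos hd0]
    have b1 := mul_le_mul_of_nonneg_left (hsum j (by omega)) hd0.le
    have b2 := mul_le_mul_of_nonneg_left (hsum (j + 2 * N) (by omega)) hd0.le
    linarith

theorem flatten_of (h : TrigSpencerStmt) : FlattenStmt := by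
  classical
  obtain ⟨C, hC, h⟩ := h
  intro D ε hD hε
  set θ : ℝ := ε / (2 * C * (D + 1)) with hθ
  have hθ0 : 0 < θ := by positivity
  refine ⟨θ ^ 8, by positivity, fun N S β hS hne hN hβ hmass => ?_⟩
  set n : ℝ := (S.card : ℝ) with hn
  have hn0 : 0 < n := by rw [hn]; exact_mod_cast hne.card_pos
  set r : ℝ := √n with hr
  have hr0 : 0 < r := Real.sqrt_pos.2 hn0
  have hr2 : r ^ 2 = n := Real.sq_sqrt hn0.le
  set dd : ℕ → ℝ := fun k => √(1 / n - ‖β k‖ ^ 2) with hdd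
  have hdd0 : ∀ k, 0 ≤ dd k := fun k => Real.sqrt_nonneg _
  have hdd2 : ∀ k ∈ S, dd k ^ 2 = 1 / n - ‖β k‖ ^ 2 := fun k hk =>
    Real.sq_sqrt (sub_nonneg.2 (hβ k hk))
  set u : ℕ → ℂ := fun k => if β k = 0 then 1 else β k / (‖β k‖ : ℂ) with hu
  have hu1 : ∀ k, ‖u k‖ = 1 := by
    intro k
    simp only [hu]
    split_ifs with h0
    · simp
    · rw [norm_div, Complex.norm_real, norm_norm, div_self (norm_ne_zero_iff.2 h0)]
  have hu2 : ∀ k, (‖β k‖ : ℂ) * u k = β k := by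
    intro k
    simp only [hu]
    split_ifs with h0
    · simp [h0]
    · have : (‖β k‖ : ℂ) ≠ 0 := by exact_mod_cast norm_ne_zero_iff.2 h0
      field_simp
  set b : ℕ → ℂ := fun k => Complex.I * dd k * u k with hb
  have hbn : ∀ k, ‖b k‖ = dd k := by
    intro k
    simp only [hb, norm_mul, Complex.norm_I, hu1, Complex.norm_real, Real.norm_eq_abs,
      abs_of_nonneg (hdd0 k), one_mul, mul_one]
  clear_value n
  set S₁ := S.filter fun k => dd k ≤ θ / r with hS₁
  set S₂ := S.filter fun k => ¬ dd k ≤ θ / r with hS₂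
  have hN2 : (N : ℝ) ^ 2 ≤ (D + 1) ^ 6 * n ^ 2 := by
    have h1 : (N : ℝ) ^ 2 ≤ (D * n) ^ 2 := pow_le_pow_left₀ (Nat.cast_nonneg _) hN 2
    have h2 : D ^ 2 ≤ (D + 1) ^ 6 :=
      (pow_le_pow_left₀ hD.le (by linarith) 2).trans
        (pow_le_pow_right₀ (by linarith) (by norm_num))
    rw [mul_pow] at h1
    exact h1.trans (by gcongr)
  have hc1 : (S₁.card : ℝ) ≤ n := by
    rw [hn]; exact_mod_cast Finset.card_filter_le _ _
  have hc2 : (S₂.card : ℝ) ≤ θ ^ 6 * n := by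
    have h1 : ∑ k ∈ S, dd k ^ 2 ≤ θ ^ 8 := by
      rw [Finset.sum_congr rfl hdd2, Finset.sum_sub_distrib, Finset.sum_const, nsmul_eq_mul, ← hn,
        mul_one_div_cancel hn0.ne']
      linarith
    have h2 : ∑ k ∈ S₂, dd k ^ 2 ≤ ∑ k ∈ S, dd k ^ 2 :=
      Finset.sum_le_sum_of_subset_of_nonneg (Finset.filter_subset _ _) fun _ _ _ => sq_nonneg _
    have h3 : S₂.card • (θ / r) ^ 2 ≤ ∑ k ∈ S₂, dd k ^ 2 :=
      Finset.card_nsmul_le_sum _ _ _ fun k hk =>
        pow_le_pow_left₀ (by positivity) (not_le.1 (Finset.mem_filter.1 hk).2).le 2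
    rw [nsmul_eq_mul, div_pow, hr2, ← mul_div_assoc, div_le_iff₀ hn0] at h3
    have h4 : (S₂.card : ℝ) * θ ^ 2 ≤ θ ^ 6 * n * θ ^ 2 := by
      refine h3.trans ?_
      calc (∑ k ∈ S₂, dd k ^ 2) * n ≤ θ ^ 8 * n := by gcongr; exact h2.trans h1
        _ = _ := by ring
    exact le_of_mul_le_mul_right h4 (by positivity)
  obtain ⟨s₁, hs₁, hb₁⟩ := h N S₁ b (θ / r) ((D + 1) * r) ((Finset.filter_subset _ _).trans hS)
    (by positivity) (fun k hk => by rw [hbn]; exact (Finset.mem_filter.1 hk).2) (by positivity) (by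
      calc (S₁.card : ℝ) * (N : ℝ) ^ 2 ≤ n * ((D + 1) ^ 6 * n ^ 2) := by gcongr
        _ = ((D + 1) * r) ^ 6 := by rw [← hr2]; ring)
  obtain ⟨s₂, hs₂, hb₂⟩ := h N S₂ b (1 / r) (θ * (D + 1) * r) ((Finset.filter_subset _ _).trans hS)
    (by positivity) (fun k hk => by
      rw [hbn]
      refine (sq_le_sq₀ (hdd0 k) (by positivity)).1 ?_
      rw [hdd2 k (Finset.mem_filter.1 hk).1, div_pow, hr2, one_pow]
      linarith [sq_nonneg ‖β k‖]) (by positivity) (by
      calc (S₂.card : ℝ) * (N : ℝ) ^ 2 ≤ θ ^ 6 * n * ((D + 1) ^ 6 * n ^ 2) := by gcongr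
        _ = (θ * (D + 1) * r) ^ 6 := by rw [← hr2]; ring)
  set s : ℕ → ℝ := fun k => if dd k ≤ θ / r then s₁ k else s₂ k with hs
  have hs1 : ∀ k, s k ^ 2 = 1 := by
    intro k
    simp only [hs]
    split_ifs
    · rcases hs₁ k with h | h <;> simp [h]
    · rcases hs₂ k with h | h <;> simp [h]
  refine ⟨fun k => β k + (s k : ℂ) * b k, fun k hk => ?_, fun t => ?_⟩
  · have e : β k + (s k : ℂ) * b k = ((‖β k‖ : ℂ) + ((s k * dd k : ℝ) : ℂ) * Complex.I) * u k := by
      conv_lhs => rw [← hu2 k]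
      simp only [hb]
      push_cast
      ring
    beta_reduce
    rw [e, norm_mul, hu1, mul_one, ← Complex.normSq_eq_norm_sq, Complex.normSq_add_mul_I,
      mul_pow, hs1, hdd2 k hk]
    ring
  · simp only [add_sub_cancel_left]
    rw [← Finset.sum_filter_add_sum_filter_not S (fun k => dd k ≤ θ / r)]
    have e1 : ∑ k ∈ S₁, (s k : ℂ) * b k * ee (k * t) = ∑ k ∈ S₁, (s₁ k : ℂ) * b k * ee (k * t) :=
      Finset.sum_congr rfl fun k hk => by simp only [hs, if_pos (Finset.mem_filter.1 hk).2]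
    have e2 : ∑ k ∈ S₂, (s k : ℂ) * b k * ee (k * t) = ∑ k ∈ S₂, (s₂ k : ℂ) * b k * ee (k * t) :=
      Finset.sum_congr rfl fun k hk => by simp only [hs, if_neg (Finset.mem_filter.1 hk).2]
    rw [← hS₁, ← hS₂, e1, e2]
    refine (norm_add_le _ _).trans ((add_le_add (hb₁ t) (hb₂ t)).trans (le_of_eq ?_))
    rw [hθ]
    field_simp
    ring

end Crest.Agent.R75
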