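import Crest.Agent.R75.Defs

/-!
# Module G: a perfect sequence times a chirp gives a flat system
-/

set_option autoImplicit false

open Finset MeasureTheory

namespace Crest.Agent.R75

namespace Base

theorem exists_bump (d : ℝ) (hd : 0 < d) : ∃ g : ℝ → ℝ, ContDiff ℝ 1 g ∧ (∀ s, 0 ≤ g s ∧ g s ≤ 1) ∧
    (∀ s, s ≤ d ∨ 1 - d ≤ s → g s = 0) ∧ ∀ s, 2 * d ≤ s → s ≤ 1 - 2 * d → g s = 1 := by
  refine ⟨fun s => Real.smoothTransition ((s - d) / d) * Real.smoothTransition ((1 - d - s) / d),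
    ?_, fun s => ⟨?_, ?_⟩, ?_, ?_⟩
  · exact (Real.smoothTransition.contDiff.comp (by fun_prop)).mul
      (Real.smoothTransition.contDiff.comp (by fun_prop))
  · exact mul_nonneg (Real.smoothTransition.nonneg _) (Real.smoothTransition.nonneg _)
  · exact mul_le_one₀ (Real.smoothTransition.le_one _) (Real.smoothTransition.nonneg _)
      (Real.smoothTransition.le_one _)
  · rintro s (h | h)
    · simp only
      rw [Real.smoothTransition.zero_of_nonpos (div_nonpos_of_nonpos_of_nonneg (by linarith) hd.le),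
        zero_mul]
    · simp only
      rw [Real.smoothTransition.zero_of_nonpos (x := (1 - d - s) / d)
        (div_nonpos_of_nonpos_of_nonneg (by linarith) hd.le), mul_zero]
  · intro s h1 h2
    simp only
    rw [Real.smoothTransition.one_of_one_le ((one_le_div hd).2 (by linarith)),
      Real.smoothTransition.one_of_one_le ((one_le_div hd).2 (by linarith)), mul_one]

theorem piece_ae {E : Type*} (F : ℤ → ℝ → E) (j : ℕ) :
    ∀ᵐ v : ℝ, v ∈ Set.uIoc (j : ℝ) ((j + 1 : ℕ) : ℝ) → F ⌊v⌋ (Int.fract v) = F j (v - j) := by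
  filter_upwards [Measure.ae_ne volume (((j + 1 : ℕ) : ℝ))] with v hv h
  rw [Set.uIoc_of_le (by push_cast; linarith)] at h
  have h1 : ⌊v⌋ = j := by
    rw [Int.floor_eq_iff]
    have := lt_of_le_of_ne h.2 hv
    push_cast at this ⊢
    exact ⟨h.1.le, this⟩
  rw [Int.fract, h1]
  simp

theorem piece_integrable {E : Type*} [NormedAddCommGroup E] (F : ℤ → ℝ → E)
    (hF : ∀ j, Continuous (F j)) (j : ℕ) :
    IntervalIntegrable (fun v : ℝ => F ⌊v⌋ (Int.fract v)) volume (j : ℝ) ((j + 1 : ℕ) : ℝ) := by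
  have h : IntervalIntegrable (fun v : ℝ => F j (v - j)) volume (j : ℝ) ((j + 1 : ℕ) : ℝ) :=
    Continuous.intervalIntegrable ((hF j).comp (by fun_prop)) _ _
  refine h.congr_ae ?_
  refine (ae_restrict_iff' measurableSet_uIoc).2 ?_
  filter_upwards [piece_ae F j] with v hv h using (hv h).symm

theorem integral_split {E : Type*} [NormedAddCommGroup E] [NormedSpace ℝ E] (q : ℕ) (hq : 0 < q)
    (F : ℤ → ℝ → E) (hF : ∀ j, Continuous (F j)) :
    ∫ u in (0 : ℝ)..1, F ⌊(q : ℝ) * u⌋ (Int.fract ((q : ℝ) * u)) =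
      (q : ℝ)⁻¹ • ∑ j ∈ range q, ∫ s in (0 : ℝ)..1, F j s := by
  have hq' : (q : ℝ) ≠ 0 := by positivity
  rw [intervalIntegral.integral_comp_mul_left (fun v : ℝ => F ⌊v⌋ (Int.fract v)) hq', mul_zero,
    mul_one]
  congr 1
  have := intervalIntegral.sum_integral_adjacent_intervals
    (f := fun v : ℝ => F ⌊v⌋ (Int.fract v)) (μ := volume) (a := fun k : ℕ => (k : ℝ)) (n := q)
    (fun k _ => piece_integrable F hF k)
  simp only [Nat.cast_zero] at this
  rw [← this]
  refine sum_congr rfl fun j _ => ?_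
  rw [intervalIntegral.integral_congr_ae (piece_ae F j),
    intervalIntegral.integral_comp_sub_right (fun s => F j s)]
  simp

theorem integrable_split {E : Type*} [NormedAddCommGroup E] [NormedSpace ℝ E] (q : ℕ) (hq : 0 < q)
    (F : ℤ → ℝ → E) (hF : ∀ j, Continuous (F j)) :
    IntervalIntegrable (fun u : ℝ => F ⌊(q : ℝ) * u⌋ (Int.fract ((q : ℝ) * u))) volume 0 1 := by
  have hq' : (q : ℝ) ≠ 0 := by positivity
  have h := IntervalIntegrable.trans_iterate (f := fun v : ℝ => F ⌊v⌋ (Int.fract v)) (μ := volume)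
    (a := fun k : ℕ => (k : ℝ)) (n := q) (fun k _ => piece_integrable F hF k)
  have := h.comp_mul_left (c := (q : ℝ))
  simpa [hq'] using this

/-- the phase -/
noncomputable def Psi (q B : ℕ) (ψ : ℕ → ℝ) (y : ℝ) : ℝ :=
  ψ (⌊(q : ℝ) * y⌋ % q).toNat + B * Int.fract ((q : ℝ) * y) ^ 2 / 2

/-- the chirped step function -/
noncomputable def w (g : ℝ → ℝ) (q B m : ℕ) (ψ : ℕ → ℝ) (y : ℝ) : ℂ :=
  (g (Int.fract ((q : ℝ) * y)) : ℂ) * ee (m * Psi q B ψ y)

theorem w_measurable {g : ℝ → ℝ} (hg : Continuous g) (q B m : ℕ) (ψ : ℕ → ℝ) :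
    Measurable (w g q B m ψ) := by
  have h1 : Measurable fun y : ℝ => Int.fract ((q : ℝ) * y) := by fun_prop
  have h2 : Measurable fun y : ℝ => ψ (⌊(q : ℝ) * y⌋ % q).toNat :=
    (measurable_of_countable fun j : ℤ => ψ (j % q).toNat).comp
      (Int.measurable_floor.comp (by fun_prop))
  unfold w Psi
  refine Measurable.mul (Complex.measurable_ofReal.comp (hg.measurable.comp h1)) ?_
  exact measurable_ee.comp (measurable_const.mul (h2.add (by fun_prop)))

theorem w_periodic (g : ℝ → ℝ) (q B m : ℕ) (ψ : ℕ → ℝ) : Function.Periodic (w g q B m ψ) 1 := by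
  intro y
  unfold w Psi
  rw [mul_add, mul_one, Int.fract_add_natCast, Int.floor_add_natCast, Int.add_emod_right]

theorem norm_w {g : ℝ → ℝ} (hg : ∀ s, 0 ≤ g s ∧ g s ≤ 1) (q B m : ℕ) (ψ : ℕ → ℝ) (y : ℝ) :
    ‖w g q B m ψ y‖ = g (Int.fract ((q : ℝ) * y)) := by
  unfold w
  rw [norm_mul, norm_ee, mul_one, Complex.norm_real, Real.norm_eq_abs, abs_of_nonneg (hg _).1]

theorem w_coeff {g : ℝ → ℝ} (hg : Continuous g) (q B m : ℕ) (hq : 0 < q) (ψ : ℕ → ℝ) (k : ℕ) :
    ∫ u in (0 : ℝ)..1, w g q B m ψ u * ee (-(k * u)) =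
      (q : ℂ)⁻¹ * (∑ j ∈ range q, ee (m * ψ j) * ee (-((k : ℤ) * j / q))) *
        ∫ s in (0 : ℝ)..1, (g s : ℂ) * ee (m * B * s ^ 2 / 2 - k * s / q) := by
  have hq' : (q : ℝ) ≠ 0 := by positivity
  have := integral_split q hq (fun j s => (g s : ℂ) * ee (m * (ψ (j % q).toNat + B * s ^ 2 / 2)) *
    ee (-(k * ((j + s) / q)))) (fun j => by fun_prop)
  have e : ∀ u : ℝ, ((⌊(q : ℝ) * u⌋ : ℝ) + Int.fract ((q : ℝ) * u)) / q = u := by
    intro u; rw [Int.floor_add_fract]; field_simp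
  simp only [e] at this
  unfold w Psi
  rw [this, Complex.real_smul, mul_assoc, sum_mul]
  push_cast
  congr 1
  refine sum_congr rfl fun j hj => ?_
  rw [← intervalIntegral.integral_const_mul]
  refine intervalIntegral.integral_congr fun s _ => ?_
  have h1 : ((j : ℤ) % q).toNat = j := by
    rw [Int.emod_eq_of_lt (by positivity) (by exact_mod_cast mem_range.1 hj)]; simp
  simp only [h1]
  rw [mul_left_comm, mul_assoc, ← ee_add, ← ee_add, ← ee_add]
  congr 2
  ring

theorem w_local {g : ℝ → ℝ} {d τ ρ K : ℝ} (hd : d < 1 / 10) (hg : ∀ s, 0 ≤ g s ∧ g s ≤ 1)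
    (hg0 : ∀ s, s ≤ d ∨ 1 - d ≤ s → g s = 0) (hρ : 0 < ρ) (hK : 0 < K)
    (hτ : ∀ a ∈ Set.Icc (0 : ℝ) 1, ∀ b ∈ Set.Icc (0 : ℝ) 1, |a - b| ≤ τ → |g a - g b| ≤ ρ / 2)
    (q B m : ℕ) (hq : 0 < q) (hB : 0 < B) (hm : 0 < m) (h1 : K / B < d / 2) (h2 : K / B ≤ τ)
    (h3 : Real.pi * K ^ 2 / B ≤ ρ / 2) (ψ : ℕ → ℝ) (t : ℝ) :
    ∃ x : ℝ, d / 2 * (q * m * B : ℕ) ≤ x ∧ x ≤ (1 - d / 2) * (q * m * B : ℕ) ∧
      ∀ s : ℝ, |s| ≤ K / (q * m * B : ℕ) →
        ‖w g q B m ψ (t + s) - w g q B m ψ t * ee (x * s)‖ ≤ ρ := by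
  have hq' : (0 : ℝ) < q := by positivity
  have hB' : (0 : ℝ) < B := by positivity
  have hm' : (1 : ℝ) ≤ m := by exact_mod_cast hm
  have hu : ∀ s : ℝ, |s| ≤ K / (q * m * B : ℕ) → |q * s| ≤ K / (m * B) := by
    intro s hs
    rw [abs_mul, abs_of_pos hq']
    calc q * |s| ≤ q * (K / (q * m * B : ℕ)) := mul_le_mul_of_nonneg_left hs hq'.le
      _ = _ := by push_cast; field_simp
  have hu' : K / (m * B) ≤ K / B :=
    div_le_div_of_nonneg_left hK.le hB' (by nlinarith)
  obtain ⟨σ, hσ⟩ : ∃ σ, σ = Int.fract ((q : ℝ) * t) := ⟨_, rfl⟩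
  have hσ0 : 0 ≤ σ := hσ ▸ Int.fract_nonneg _
  have hσ1 : σ < 1 := hσ ▸ Int.fract_lt_one _
  have hN : (0 : ℝ) ≤ (q * m * B : ℕ) := by positivity
  have hdec : ∀ s : ℝ, (q : ℝ) * (t + s) = (σ + q * s) + (⌊(q : ℝ) * t⌋ : ℤ) := by
    intro s; rw [hσ, Int.fract]; ring
  by_cases hc : d / 2 ≤ σ ∧ σ ≤ 1 - d / 2
  · refine ⟨σ * (q * m * B : ℕ), mul_le_mul_of_nonneg_right hc.1 hN,
      mul_le_mul_of_nonneg_right hc.2 hN, fun s hs => ?_⟩
    have h4 := hu s hs
    have h5 := abs_le.1 (h4.trans hu')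
    have h6 : 0 ≤ σ + q * s := by linarith [h5.1, hc.1]
    have h7 : σ + q * s < 1 := by linarith [h5.2, hc.2]
    have e1 : Int.fract ((q : ℝ) * (t + s)) = σ + q * s := by
      rw [hdec, Int.fract_add_intCast, Int.fract_eq_self.2 ⟨h6, h7⟩]
    have e2 : ⌊(q : ℝ) * (t + s)⌋ = ⌊(q : ℝ) * t⌋ := by
      rw [hdec s, Int.floor_add_intCast, Int.floor_eq_zero_iff.2 ⟨h6, h7⟩, zero_add]
    unfold w Psi
    rw [e1, e2, ← hσ, mul_assoc, ← ee_add]
    obtain ⟨p, hp⟩ : ∃ p, p = ψ (⌊(q : ℝ) * t⌋ % q).toNat := ⟨_, rfl⟩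
    rw [← hp]
    obtain ⟨A, hA⟩ : ∃ A : ℝ, A = m * (p + B * (σ + q * s) ^ 2 / 2) := ⟨_, rfl⟩
    obtain ⟨A', hA'⟩ : ∃ A' : ℝ, A' = m * (p + B * σ ^ 2 / 2) + σ * (q * m * B : ℕ) * s := ⟨_, rfl⟩
    rw [← hA, ← hA']
    have e3 : (g (σ + q * s) : ℂ) * ee A - g σ * ee A' =
        ((g (σ + q * s) - g σ : ℝ) : ℂ) * ee A + g σ * (ee A - ee A') := by push_cast; ring
    rw [e3]
    refine (norm_add_le _ _).trans ?_
    rw [norm_mul, norm_mul, norm_ee, mul_one, Complex.norm_real, Complex.norm_real,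
      Real.norm_eq_abs, Real.norm_eq_abs, abs_of_nonneg (hg σ).1]
    have k1 := hτ (σ + q * s) ⟨h6, h7.le⟩ σ ⟨hσ0, hσ1.le⟩
      (by rw [add_sub_cancel_left]; exact (h4.trans hu').trans h2)
    have k2 : ‖ee A - ee A'‖ ≤ ρ / 2 := by
      refine (norm_ee_sub_ee_le _ _).trans (le_trans ?_ h3)
      have : A - A' = m * B * |q * s| ^ 2 / 2 := by rw [hA, hA', sq_abs]; push_cast; ring
      rw [this, abs_of_nonneg (by positivity)]
      have k3 : |q * s| ^ 2 ≤ (K / (m * B)) ^ 2 := pow_le_pow_left₀ (abs_nonneg _) h4 2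
      calc 2 * Real.pi * (m * B * |q * s| ^ 2 / 2) = Real.pi * (m * B) * |q * s| ^ 2 := by ring
        _ ≤ Real.pi * (m * B) * (K / (m * B)) ^ 2 :=
          mul_le_mul_of_nonneg_left k3 (by positivity)
        _ = Real.pi * K * (K / (m * B)) := by field_simp
        _ ≤ Real.pi * K * (K / B) := mul_le_mul_of_nonneg_left hu' (by positivity)
        _ = _ := by ring
    have k4 : g σ * ‖ee A - ee A'‖ ≤ 1 * (ρ / 2) :=
      mul_le_mul (hg σ).2 k2 (norm_nonneg _) zero_le_one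
    linarith
  · have hd0 : 0 < d := by
      have : 0 < K / B := by positivity
      linarith
    refine ⟨1 / 2 * (q * m * B : ℕ), mul_le_mul_of_nonneg_right (by linarith) hN,
      mul_le_mul_of_nonneg_right (by linarith) hN, fun s hs => ?_⟩
    have h5 := abs_le.1 ((hu s hs).trans hu')
    have k1 : g σ = 0 := hg0 σ (by
      rcases not_and_or.1 hc with h | h
      · left; linarith [not_le.1 h]
      · right; linarith [not_le.1 h])
    have k2 : g (Int.fract ((q : ℝ) * (t + s))) = 0 := by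
      rw [hdec, Int.fract_add_intCast]
      apply hg0
      rcases not_and_or.1 hc with h | h
      · have h := not_le.1 h
        by_cases h6 : 0 ≤ σ + q * s
        · left
          rw [Int.fract_eq_self.2 ⟨h6, by linarith [h5.2]⟩]
          linarith [h5.2]
        · right
          rw [← Int.fract_add_one, Int.fract_eq_self.2 ⟨by linarith [h5.1], by linarith⟩]
          linarith [h5.1]
      · have h := not_le.1 h
        by_cases h6 : σ + q * s < 1
        · right
          rw [Int.fract_eq_self.2 ⟨by linarith [h5.1], h6⟩]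
          linarith [h5.1]
        · left
          rw [← Int.fract_sub_one, Int.fract_eq_self.2 ⟨by linarith, by linarith [h5.2]⟩]
          linarith [h5.2]
    unfold w
    rw [k2, ← hσ, k1]
    simpa using hρ.le

theorem mass {g : ℝ → ℝ} {d : ℝ} (hd0 : 0 < d) (hd : d < 1 / 10) (hc : Continuous g)
    (hg1 : ∀ s, 2 * d ≤ s → s ≤ 1 - 2 * d → g s = 1) :
    1 - 4 * d ≤ ∫ s in (0 : ℝ)..1, g s ^ 2 := by
  have h1 : ∫ s in (2 * d)..(1 - 2 * d), g s ^ 2 = 1 - 4 * d := by
    rw [intervalIntegral.integral_congr (g := fun _ => (1 : ℝ))]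
    · simp; ring
    · intro s hs
      rw [Set.uIcc_of_le (by linarith)] at hs
      simp [hg1 s hs.1 hs.2]
  rw [← h1]
  exact intervalIntegral.integral_mono_interval (by linarith) (by linarith) (by linarith)
    (Filter.Eventually.of_forall fun s => sq_nonneg _)
    (Continuous.intervalIntegrable (by fun_prop) _ _)

end Base

open Base in
theorem base_of (h1 : StatPhaseStmt) (h2 : KernelStmt) (h3 : FlattenStmt) : BaseStmt := by
  classical
  intro M q ψ D hq hflat ε hε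
  have hq' : (0 : ℝ) < q := by positivity
  obtain ⟨ε₁, hε₁, hfl⟩ := h3 q (ε / 3) hq' (by positivity)
  obtain ⟨η, hη0, hη1, hη2, hη3⟩ : ∃ η : ℝ, 0 < η ∧ η < 1 / 10 ∧ η ≤ ε₁ / 8 ∧ η ≤ ε / 3 :=
    ⟨min (1 / 20) (min (ε₁ / 8) (ε / 3)), by positivity,
      (min_le_left _ _).trans_lt (by norm_num), (min_le_right _ _).trans (min_le_left _ _),
      (min_le_right _ _).trans (min_le_right _ _)⟩
  obtain ⟨g, hgc, hg, hg0, hg1⟩ := exists_bump η hη0
  have hgcont : Continuous g := hgc.continuous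
  obtain ⟨ρ, K, hρ, hK, N₀, hker⟩ := h2 (η / 2) η (by positivity) (by linarith) hη0
  obtain ⟨γ, hγ, hsp⟩ := h1
  obtain ⟨N₁, hN₁⟩ := hsp (fun t => t ^ 2 / 2) (fun t => t) (fun _ => 1) g (deriv g) 0 1 1
    zero_le_one one_pos (fun t => by simpa using (hasDerivAt_pow 2 t).div_const 2)
    (fun t => hasDerivAt_id t) continuous_const (fun _ => le_rfl)
    (fun t => (hgc.differentiable (by norm_num) t).hasDerivAt) (hgc.continuous_deriv le_rfl)
    (fun t ht => hg0 t (by
      simp only [Set.mem_Ioo, not_and_or, not_lt] at ht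
      rcases ht with h | h
      · left; linarith
      · right; linarith)) η hη0
  obtain ⟨τ, hτ0, hτ⟩ : ∃ τ : ℝ, 0 < τ ∧ ∀ a ∈ Set.Icc (0 : ℝ) 1, ∀ b ∈ Set.Icc (0 : ℝ) 1,
      |a - b| ≤ τ → |g a - g b| ≤ ρ / 2 := by
    have := isCompact_Icc.uniformContinuousOn_of_continuous (s := Set.Icc (0 : ℝ) 1)
      hgcont.continuousOn
    obtain ⟨τ, h, h'⟩ := Metric.uniformContinuousOn_iff_le.1 this (ρ / 2) (by positivity)
    exact ⟨τ, h, fun a ha b hb hab => h' a ha b hb hab⟩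
  obtain ⟨B, hB, hB0, hB1, hB2, hB3, hB4⟩ : ∃ B : ℕ, 0 < B ∧ N₀ ≤ B ∧ N₁ ≤ B ∧ K / B < η / 2 ∧
      K / B ≤ τ ∧ Real.pi * K ^ 2 / B ≤ ρ / 2 := by
    have t1 := tendsto_const_div_atTop_nhds_zero_nat K
    have t2 := tendsto_const_div_atTop_nhds_zero_nat (Real.pi * K ^ 2)
    have e1 := t1.eventually (gt_mem_nhds (show (0 : ℝ) < η / 2 by positivity))
    have e2 := t1.eventually (ge_mem_nhds hτ0)
    have e3 := t2.eventually (ge_mem_nhds (show (0 : ℝ) < ρ / 2 by positivity))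
    have e4 := tendsto_natCast_atTop_atTop.eventually (Filter.eventually_ge_atTop N₁)
    exact ((Filter.eventually_gt_atTop 0).and ((Filter.eventually_ge_atTop N₀).and
      (e4.and (e1.and (e2.and e3))))).exists
  have hB' : (0 : ℝ) < B := by positivity
  have key : ∀ m : ℕ, ∃ (S : Finset ℕ) (β : ℕ → ℂ), Odd m → m ≤ M →
      ((S.card : ℝ) = q * B * (m / D m) ∧ ∀ ξ ∈ S, ‖β ξ‖ ^ 2 = 1 / (S.card : ℝ)) ∧
      ∀ y : ℝ, ‖∑ ξ ∈ S, β ξ * ee (ξ * y) - w g q B m ψ y‖ ≤ ε := by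
    intro m
    by_cases hm : Odd m ∧ m ≤ M
    swap
    · exact ⟨∅, 0, fun a b => absurd ⟨a, b⟩ hm⟩
    obtain ⟨hD0, ⟨r, hr⟩, hD⟩ := hflat m hm.1 hm.2
    have hm0 : 0 < m := hm.1.pos
    have hm1 : (1 : ℝ) ≤ m := by exact_mod_cast hm0
    have hr0 : 0 < r := Nat.pos_of_ne_zero (by rintro rfl; omega)
    have hD' : (0 : ℝ) < D m := by positivity
    have hqr : (q : ℝ) = D m * r := by exact_mod_cast hr
    let S : Finset ℕ := (range (r * m * B)).image (D m * ·)
    have hS : S.card = r * m * B := by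
      rw [card_image_of_injective _ (mul_right_injective₀ hD0.ne'), card_range]
    have hS' : (S.card : ℝ) = r * m * B := by exact_mod_cast hS
    have hSmem : ∀ k, k ∈ S ↔ k < q * m * B ∧ D m ∣ k := by
      intro k
      simp only [S, mem_image, mem_range]
      have e : q * m * B = D m * (r * m * B) := by rw [hr]; ring
      constructor
      · rintro ⟨a, ha, rfl⟩
        exact ⟨e ▸ Nat.mul_lt_mul_of_pos_left ha hD0, dvd_mul_right _ _⟩
      · rintro ⟨h, a, rfl⟩
        exact ⟨a, Nat.lt_of_mul_lt_mul_left (e ▸ h), rfl⟩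
    have hsub : S ⊆ range (q * m * B) := fun k hk => mem_range.2 ((hSmem k).1 hk).1
    obtain ⟨v, hv, hv2⟩ := hker (q * m * B)
      (hB0.trans (Nat.le_mul_of_pos_left _ (by positivity)))
    have hP := hv2 (w g q B m ψ) (w_measurable hgcont _ _ _ _) (w_periodic _ _ _ _ _)
      (fun t => by rw [norm_w hg]; exact (hg _).2)
      (w_local hη1 hg hg0 hρ hK hτ q B m hq hB hm0 hB2 hB3 hB4 ψ)
    obtain ⟨c, hc⟩ : ∃ c : ℕ → ℂ, c = fun k : ℕ =>
      ∫ u in (0 : ℝ)..1, w g q B m ψ u * ee (-(k * u)) := ⟨_, rfl⟩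
    have hc' : ∀ k : ℕ, ∫ u in (0 : ℝ)..1, w g q B m ψ u * ee (-(k * u)) = c k := fun k => by
      rw [hc]
    simp only [hc'] at hP
    have hc0 : ∀ k, ¬ D m ∣ k → c k = 0 := by
      intro k hk
      rw [← hc', w_coeff hgcont q B m hq, (hD k).2 (by exact_mod_cast hk)]
      simp
    have hc1 : ∀ k, ‖c k‖ ^ 2 ≤ (1 + η) ^ 2 / (S.card : ℝ) := by
      intro k
      have a1 := hN₁ (m * B) (hB1.trans (by nlinarith)) (k / (q * m * B))
      have a2 : ∀ t : ℝ, (m : ℝ) * B * (t ^ 2 / 2 - k / (q * m * B) * t) =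
          m * B * t ^ 2 / 2 - k * t / q := by
        intro t; field_simp
      simp only [a2] at a1
      have a3 : ‖(√(m * B) : ℂ) * ∫ s in (0 : ℝ)..1, (g s : ℂ) * ee (m * B * s ^ 2 / 2 - k * s / q)‖
          ≤ 1 + η := by
        refine (norm_le_norm_add_norm_sub' _ _).trans (add_le_add ?_ a1)
        rw [norm_mul, norm_mul, norm_ee, mul_one, Complex.norm_real, Real.sqrt_one, div_one,
          Real.norm_eq_abs, abs_of_nonneg (hg _).1]
        exact mul_le_one₀ hγ (hg _).1 (hg _).2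
      rw [norm_mul, Complex.norm_real, Real.norm_eq_abs, abs_of_nonneg (Real.sqrt_nonneg _)] at a3
      have a4 := pow_le_pow_left₀ (by positivity) a3 2
      rw [mul_pow, Real.sq_sqrt (by positivity)] at a4
      rw [← hc', w_coeff hgcont q B m hq, norm_mul, norm_mul, mul_pow, mul_pow, norm_inv,
        Complex.norm_natCast]
      have a5 := (hD k).1
      obtain ⟨I, hI⟩ : ∃ I, I = ‖∫ s in (0 : ℝ)..1,
        (g s : ℂ) * ee (m * B * s ^ 2 / 2 - k * s / q)‖ ^ 2 := ⟨_, rfl⟩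
      have hI0 : 0 ≤ I := by rw [hI]; positivity
      rw [← hI] at a4 ⊢
      calc _ ≤ (q : ℝ)⁻¹ ^ 2 * (D m * q) * I :=
            mul_le_mul_of_nonneg_right (mul_le_mul_of_nonneg_left a5 (by positivity)) hI0
        _ = m * B * I / (r * m * B) := by rw [hqr]; field_simp
        _ ≤ _ := by rw [hS']; exact div_le_div_of_nonneg_right a4 (by positivity)
    have hsum : ∀ t : ℝ, ∑ k ∈ range (q * m * B), (v k : ℂ) * c k * ee (k * t) =
        ∑ k ∈ S, (v k : ℂ) * c k * ee (k * t) := by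
      intro t
      refine (sum_subset hsub fun k hk hk' => ?_).symm
      rw [hc0 k fun h => hk' ((hSmem k).2 ⟨mem_range.1 hk, h⟩)]
      simp
    simp only [hsum] at hP
    have hη' : (0 : ℝ) < 1 + η := by positivity
    have hn : ∀ k, ‖(v k : ℂ) * c k / ((1 + η : ℝ) : ℂ)‖ ^ 2 =
        ‖(v k : ℂ) * c k‖ ^ 2 / (1 + η) ^ 2 := by
      intro k
      rw [norm_div, Complex.norm_real, Real.norm_eq_abs, abs_of_pos hη', div_pow]
    obtain ⟨β', hβ1, hβ2⟩ := hfl (q * m * B) S (fun k => (v k : ℂ) * c k / ((1 + η : ℝ) : ℂ)) hsub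
      (card_pos.1 (by rw [hS]; positivity))
      (by
        rw [hS']
        have : (1 : ℝ) ≤ r := by exact_mod_cast hr0
        push_cast
        have h4 : (0 : ℝ) ≤ q * m * B := by positivity
        nlinarith)
      (fun k _ => by
        rw [hn, norm_mul, mul_pow, Complex.norm_real, Real.norm_eq_abs, abs_of_nonneg (hv k).1,
          div_le_iff₀ (by positivity)]
        have h4 : v k ^ 2 ≤ 1 := pow_le_one₀ (hv k).1 (hv k).2
        calc v k ^ 2 * ‖c k‖ ^ 2 ≤ 1 * ((1 + η) ^ 2 / (S.card : ℝ)) :=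
              mul_le_mul h4 (hc1 k) (by positivity) zero_le_one
          _ = _ := by ring)
      (by
        simp only [hn]
        rw [← sum_div, le_div_iff₀ (by positivity),
          ← integral_norm_sq_trig S (fun k => (k : ℤ)) (fun a _ b _ h => by simpa using h)]
        have b1 := integral_split q hq (fun _ s => g s ^ 2 - 2 * η) (fun _ => by fun_prop)
        have b2 := integrable_split q hq (fun _ s => g s ^ 2 - 2 * η) (fun _ => by fun_prop)
        have b3 : ∫ s in (0 : ℝ)..1, (g s ^ 2 - 2 * η) = (∫ s in (0 : ℝ)..1, g s ^ 2) - 2 * η := by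
          rw [intervalIntegral.integral_sub (Continuous.intervalIntegrable (by fun_prop) _ _)
            (by simp)]
          simp
        rw [sum_const, card_range, nsmul_eq_mul, smul_eq_mul, ← mul_assoc, inv_mul_cancel₀ hq'.ne',
          one_mul, b3] at b1
        have b4 := mass hη0 hη1 hgcont hg1
        calc (1 - ε₁) * (1 + η) ^ 2 ≤ (1 - 8 * η) * (1 + η) ^ 2 :=
              mul_le_mul_of_nonneg_right (by linarith) (by positivity)
          _ ≤ (∫ s in (0 : ℝ)..1, g s ^ 2) - 2 * η := by nlinarith [pow_pos hη0 2, pow_pos hη0 3]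
          _ ≤ _ := by
            rw [← b1]
            refine intervalIntegral.integral_mono_on zero_le_one b2
              (Continuous.intervalIntegrable (by fun_prop) _ _) fun t _ => ?_
            have c1 := hP t
            have c2 := norm_w hg q B m ψ t
            have c3 := hg (Int.fract ((q : ℝ) * t))
            have c4 := norm_sub_norm_le (w g q B m ψ t) (∑ k ∈ S, (v k : ℂ) * c k * ee (k * t))
            rw [norm_sub_rev, c2] at c4
            simp only [Int.cast_natCast]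
            have c5 := norm_nonneg (∑ k ∈ S, (v k : ℂ) * c k * ee (k * t))
            by_cases c6 : η ≤ g (Int.fract ((q : ℝ) * t))
            · nlinarith
            · nlinarith)
    refine ⟨S, β', fun _ _ => ⟨⟨?_, hβ1⟩, fun y => ?_⟩⟩
    · rw [hS', hqr]; field_simp
    · have hne : ((1 + η : ℝ) : ℂ) ≠ 0 := by exact_mod_cast hη'.ne'
      have e : ∑ ξ ∈ S, β' ξ * ee (ξ * y) - w g q B m ψ y =
          ∑ k ∈ S, (β' k - (v k : ℂ) * c k / ((1 + η : ℝ) : ℂ)) * ee (k * y) +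
          ((∑ k ∈ S, (v k : ℂ) * c k * ee (k * y) - w g q B m ψ y) - η * w g q B m ψ y) /
            ((1 + η : ℝ) : ℂ) := by
        simp only [sub_mul, sum_sub_distrib, div_mul_eq_mul_div, ← sum_div]
        generalize (∑ ξ ∈ S, β' ξ * ee (ξ * y)) = A1
        generalize (∑ k ∈ S, (v k : ℂ) * c k * ee (k * y)) = A2
        generalize w g q B m ψ y = A3
        field_simp
        push_cast
        ring
      rw [e]
      refine (norm_add_le _ _).trans ?_
      have d1 := hβ2 y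
      have d2 : ‖((∑ k ∈ S, (v k : ℂ) * c k * ee (k * y) - w g q B m ψ y) - η * w g q B m ψ y) /
            ((1 + η : ℝ) : ℂ)‖ ≤ 2 * η := by
        rw [norm_div, Complex.norm_real, Real.norm_eq_abs, abs_of_pos hη', div_le_iff₀ hη']
        refine (norm_sub_le _ _).trans ?_
        rw [norm_mul, Complex.norm_real, Real.norm_eq_abs, abs_of_pos hη0, norm_w hg]
        have := hP y
        have := hg (Int.fract ((q : ℝ) * y))
        nlinarith
      linarith
  choose S β hSβ using key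
  refine ⟨q * B, S, β, by positivity, fun m a b => (hSβ m a b).1, fun y =>
    ⟨g (Int.fract ((q : ℝ) * y)), Psi q B ψ y, (hg _).1, (hg _).2, fun m a b => (hSβ m a b).2 y⟩⟩

end Crest.Agent.R75
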