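/-!
# Row 75 (S0100): blueprint of the proof that ultraflat sign polynomials exist

Notation: e(x) = exp(2 pi i x) = `ee x`.  All `...Stmt` are in `Crest/Agent/R75/Defs.lean`.
Every module imports ONLY `Crest.Agent.R75.Defs` (plus its own helper files) and proves one
implication.  Dependency graph:

  spencer : SpencerStmt
  trigSpencer_of : SpencerStmt → TrigSpencerStmt
  flatten_of : TrigSpencerStmt → FlattenStmt
  main_of : TrigSpencerStmt → FlatRealStmt → MainStmt
  vdc1 : VdC1Stmt,  vdc2 : VdC2Stmt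
  statPhase_of : VdC1Stmt → StatPhaseStmt
  kernel : KernelStmt
  perfect : PerfectStmt
  base_of : StatPhaseStmt → KernelStmt → FlattenStmt → BaseStmt
  power_of : PerfectStmt → BaseStmt → PowerStmt
  square_of : TrigSpencerStmt → SquareStmt
  key_of : PowerStmt → SquareStmt → KeyStmt
  pack : PackStmt
  gap_of : VdC1Stmt → VdC2Stmt → GapStmt
  glue_of : GapStmt → KernelStmt → GlueStmt
  flatReal_of : StatPhaseStmt → VdC2Stmt → KeyStmt → PackStmt → GlueStmt → FlatRealStmt

## A. spencer (file Spencer.lean)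
Partial colouring: n = |S| ≤ R, x^6 ≥ n R^2.  Claim: signs chi in {-1,0,1}^S, at least n/10
nonzero, |sum chi_j a_ij| ≤ C1 x for all i < R.  If n ≤ n0 (small) take all +1: x^6 ≥ n^3 so
n ≤ sqrt(n0) x.  Else X_i(chi) = sum_j chi_j a_ij over chi in {±1}^S, E X^4 ≤ 3 n^2 (induction on
S, or expand).  Delta = C1 x, b_i = round(X_i/Delta), t = (R/n)^(1/3) ≥ 1, kappa = 1/(100 t^3),
weights w(0) = 1 - kappa, w(j) = kappa 2^(-|j|)/2 (total ≤ 1).  beta = 48 n^2/Delta^4 ≤ 48/(C1 t)^4
bounds both P(b_i ≠ 0) and E|b_i| (|b| ≤ 2|X|/Delta ≤ (2X/Delta)^4 when b ≠ 0).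
E(-log w(b_i)) ≤ 2 kappa + beta (log(2/kappa) + 1), log(200 t^3) ≤ 9t, so
sum_i E(-log w(b_i)) ≤ 0.03 n for C1 = 15.  Gibbs: with F(chi) = size of the fibre of chi under
chi ↦ (b_i)_i and W = prod_i w(b_i):  E[W 2^n / F] = sum over image of W ≤ 1 (prod_univ_sum), and
log u ≤ u - 1, so some fibre has size ≥ 2^n exp(-0.03 n).  A Hamming ball of radius < n/10 has at
most (10/9)^n 9^(n/10) ≤ 1.39^n points, so two points of the fibre differ in ≥ n/10 places; their
half difference is the partial colouring (|X - X'|/2 ≤ Delta).  Full colouring: strong induction on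
|S|: the uncoloured set has ≤ 0.9 n elements, 0.99^6 ≥ 0.9, so C = 100 C1 works with x' = 0.99 x.

## B. trigSpencer_of, flatten_of (TrigSpencer.lean)
Grid lemma: P(t) = sum_{k<N} c_k e(kt), R = 2N, |P(j/R)| ≤ X for j < R ⟹ |P(t)| ≤ 2X.  Kernel
V(u) = (1/N) D_N(u) D_{2N}(u) e(-(N-1)u), D_n(u) = sum_{j<n} e(ju): coefficients are 1 on [0,N],
supported in [-(N-1), 2N-1]; P(t) = (1/R) sum_j P(j/R) V(t - j/R) (`sum_ee_div`), and by
Cauchy-Schwarz and discrete Parseval (1/R) sum_j |V(t - j/R)| ≤ sqrt 2.  Apply Spencer with 4N rows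
(real and imaginary parts of b_k e(kj/2N)/d), x' = 2x.
Flatten: d_k = sqrt(1/|S| - |beta_k|^2), u_k unimodular with beta_k = |beta_k| u_k,
beta'_k = beta_k + s_k i d_k u_k; sum d_k^2 ≤ eps1 = theta^8.  Group 1: d_k ≤ theta/sqrt|S|,
x = (D+1) sqrt|S|.  Group 2: at most theta^6 |S| elements, d_k ≤ 1/sqrt|S|,
x = theta (D+1) sqrt|S|.  Error ≤ 2 C theta (D+1).

## C. main_of (Rounding.lean)
a' = a/(1+e) in [-1,1]; Parseval (`integral_norm_sq_trig`): sum a'^2 ≥ ((1-e)/(1+e))^2 N, so
eta_k = (1-|a'_k|)/2 in [0,1/2] has sum ≤ E = 2 e N.  Round eta_k down to multiples of 2^-J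
(error N 2^-J), then induct on J: S = {k : 2^J eta_k odd}, |S| ≤ 2^J E, TrigSpencer with
b_k = sgn a'_k, flip all signs if needed so that sum_{S} s_k ≤ 0, eta' = eta + s 2^-J.  Cost of level
j: C 2^-j x_j with x_j = (4/3)^j x_0 >= (2^j E N^2)^(1/6), x_0 = theta sqrt N, 2 e ≤ theta^6;
sum_j (2/3)^j ≤ 2.  c_k = sgn(a'_k)(1 - 2 y_k), c_k - a'_k = 2 sgn(a'_k)(eta_k - y_k).  z = e(t).

## D. vdc1, vdc2 (VdC.lean), statPhase_of (StatPhase.lean)
vdc1: integrate by parts with g/(2 pi i p); p has constant sign, int |p'|/p^2 = |1/p(a) - 1/p(b)|.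
vdc2: p strictly monotone; split [a,b] at the points where p = ∓ sqrt mu (IVT, or the ends); the
middle piece has length ≤ 2/sqrt mu.
Fresnel: gamma = lim int_{-R}^{R} e(u^2/2) du, error ≤ C/R (vdc1 on [R,R']); |gamma| ≤ 1 from
`integral_gaussian_complex` with b = s - pi i, s → 0+, tails by vdc1 with amplitude exp(-s u^2).
statPhase: r = R/sqrt N; outside [t0-r,t0+r] the phase derivative is ≥ c R sqrt N (vdc1, g' bounded);
inside compare with g(t0) e(N sigma'(t0)(t-t0)^2/2) using uniform continuity of g, sigma' on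
[a-2,b+2] (if t0 is outside [a-1,b+1] everything inside vanishes), rescale u = sqrt(N sigma'(t0)) (t-t0).

## E. kernel (Kernel.lean)
b = ceil(delta N/2), V = (1/b) D_b D_{N-b+1}, v_k = #{(j,j') : j<b, j'<N-b+1, j+j'=k}/b; v = 1 on
[b-1, N-b], v = 0 for k ≥ N.  P(t) = int_{-1/2}^{1/2} w(t+s) V(-s) ds, k_t = round x,
int e(k_t s) V(-s) ds = 1, int |V| ≤ sqrt(N/b) (Cauchy-Schwarz + Parseval), |V(s)| ≤ 1/(4 b s^2) for
|s| ≤ 1/2.  Split at |s| = K/N.

## F. perfect (Perfect.lean)
Gauss: n odd, gcd(a,n)=1 ⟹ |sum_{k<n} e((a k^2 + j k)/n)|^2 = n.  Chu: w(x) = e(x^2/Q'), with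
Q' = the p-free part of prod_{m odd ≤ M} m: w^m is Flat with D = m' = p-free part of m.
Milewski: x = p k + l, l < p, phase k^2/p^c + l k/p^(c+1), q1 = p^(c+2).  v = v_p(m) ≤ c: the inner
sum over k mod p^(c+1) is invariant under k → k + p^(c-v), so it vanishes unless
p^(v+1) | m l - xi: xi = p^v xi', one l; then it is p^(v+1) times a Gauss sum mod p^(c-v): D = p^v.
v ≥ c+1: the m-th power is 1, D = p^(c+2).  Product of q1- and q2-periodic Flat sequences with coprime
periods is Flat with D1 D2 (CRT; 1/(q1 q2) = a/q1 + b/q2).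

## G. base_of (Base.lean)
g smooth, 0 ≤ g ≤ 1, g = 1 on [2d,1-2d], 0 outside (d,1-d).  j(y) = floor(q fract y),
s(y) = fract(q y), Psi(y) = psi(j) + B s^2/2, w_m(y) = g(s) e(m Psi(y)), N_m = q m B (B large integer).
Kernel with delta = d/2 (frequency x = q m B s; w_m = 0 near points with s outside [d/2,1-d/2]).
Coefficient: hat w_m(xi) = (1/q) (sum_j e(m psi j) e(-xi j/q)) int_0^1 g(s) e(m B s^2/2 - xi s/q) ds;
StatPhase (Sg = s^2/2, N = m B, t0 = xi/(q m B)) gives |hat w|^2 ≤ (1+e1)^2/|S_m|,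
S_m = {xi < N_m : D | xi}, |S_m| = q B m/D.  Divide by 1+e1, get the mass by Parseval, Flatten with
D := q.  n = q B.

## H. power_of (Power.lean)
InR is closed under products (L > all elements; S'' = {xi + L xi'}, beta''(z) = beta(z % L) beta'(z / L),
evaluate the second system at L y), contains 1, depends only on odd m ≤ M.
mu_c(m) = p^(-(v_p m - c)_+) : mu_M = 1, mu_c = rho p c * mu_(c+1)^2; 1/m = prod_{p odd prime ≤ M} mu_0.

## I. square_of (Square.lean)
M = j^6, s(m) = -2i/(pi m), lam_m = 1 - |m|/(M+1), h(m) = s(m)(lam_m + i sgn(m) e_|m| sqrt(1-lam_m^2)).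
For odd g: sum_{g|m} s(m) lam_m e(m t) = (1/g)(int_0^{1/2} - int_{1/2}^1) K_g(g t - u) du where
K_g(u) = sum_{m'} lam_{g m'} e(m' u) ≥ 0 (average of translates of the Fejer kernel), integral 1.
Perturbation: m ≤ j^2 by absolute values (≤ 3/j), m > j^2 by TrigSpencer (≤ 4C/j); its g-part is an
average of g translates.  Masses: sum_{m odd > 0} 1/m^2 = pi^2/8 (`hasSum_zeta_two`).

## J. key_of (Key.lean)
r ≥ 12 with 2 (2/3)^(r-2) small, then Square with e/r-type accuracy, then systems with ratio m^-3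
(coordinate 0) and m^-2 (others) with tiny error.  b_{-m} = conj b_m.
F0 = sum over primitive m in oddBox^r, xi_i in S_{m_i} of prod_i h(m_i) beta(xi_i) e(m_i th_i + xi_i y_i)
≈ (prod g_i) H(th + psi), H = sum_{g ≤ M} moebius(g) prod_i (P_g h)(th_i + psi_i),
|H| ≤ (1+tau)^r + sum_{3≤g≤M} (1/g+tau)^r, (1/g+tau)^r ≤ (2/g)^r + (2 tau)^r.
|coef|^2 = kappa |m_0|.  Index type: those with m_0 > 0.  Choose integers A_i, B_i (a point where a
finite product of nonzero linear forms does not vanish) and zeta = sum A_i m_i + sum B_i xi_i,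
th_i = [i=0] th + A_i y, y_i = B_i y; slopes are distinct because primitive vectors with m_0 > 0 are
not proportional.

## K. pack (Pack*.lean): multi-scale nibble on the circle T = R/Z, see PackDefs.lean.

## L. gap_of (Gap.lean), glue_of (Glue.lean)
Gap: p piecewise linear with nodes y, y+r, y+2r, x-2r, x-r, x and values pL, q1, w1, w2, q2, pR,
q2 = delta, q1 in [delta, 2 delta] adjusts the phase (changes N int p by N r (q1 - delta)); constant
outside [y,x].  Four fast pieces: slope ≥ delta/r, vdc2; slow piece: vdc2, or vdc1 with lam = N d.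
Glue: sort the arcs; gaps G_0..G_J (G_0 starts at 0, G_J ends at 1/2, end values 1/2 and phases 0);
windows: consecutive intervals of lengths (1-4 delta) |G_j|/Ltot in [3 delta, 1-delta], take middle
halves, margin d = min length/8, so each xi/N is near at most one window.  Glue the pieces to one
Lipschitz p on [0,1/2] (p0(u0) + sum_j (p_j(clamp_j t) - p_j(u_j))), extend evenly and 1-periodically
(p(|t - round t|)), alpha(t) = N int_0^t p, f = e(alpha) is 1-periodic as N int_0^{1/2} p is an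
integer, f(-t) = conj f(t), hat f(k) = 2 Re int_0^{1/2} f e(-kt).  a_k = sqrt N v_k hat f(k).

## M. flatReal_of (Tile.lean)
From Key and Pack (with 2 eps1): W = 2 sum m, H = sum eta_i, W H ≤ 1 (disjoint arcs in (0,1/2)).
s0 = (1-4 delta)/((1+e)H), blocks start at s_i = 3 delta + (1+e) s0 sum_{i'<i} eta_i'.
S = Real.smoothTransition, r_i = e eta_i/(6A), g1 = S((t-r)/r) S((eta-r-t)/r),
g2 = S((t-2r)/r) S((eta-2r-t)/r), sigma_i' = s0 (1 + A (1 - g2)), sigma_i(0) = s_i, Sg_i' = sigma_i.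
Arc (i,n): [t, t + m eta], t = m a + zeta b, has no half integer, so it lies in (l/2,(l+1)/2); reflect
it into (0,1/2) if l is odd.  On it the phase is ±(N m Sg_i(tau) + C).  2 Re int = 2 Re m e(C - k t)
int_0^eta e(m (N Sg_i - k tau)).  Split 1 = g1 + (1-g1): StatPhase for g1 (parameter m N,
sigma_i(tau_k) = k/N), vdc2 for 1-g1 on [0,2r], [eta-2r,eta] where sigma' = s0(1+A).  Choose C with
gamma e(C) sqrt(kappa m) = |gamma| c_n.  Main term = |gamma| g1 (kappa sigma')^(-1/2) F(Lam - k a, -k b),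
nonzero for at most one block i; kappa s0 ≥ kappa W (1-4 delta)/(1+e).
-/
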