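import Mathlib

/-!
# Row 75 (S0100, ultraflat sign polynomials): definitions and the statements of all modules

Every module of the proof is stated here as a `Prop`-valued definition `...Stmt`.  Each module file
proves an implication between these, importing only this file, so that all modules are independent.
The blueprint (paper proof) is in `Crest/Agent/R75/Blueprint.lean`.
-/

set_option autoImplicit false

open Finset

namespace Crest.Agent.R75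

/-- `ee x = exp (2 π i x)`. -/
noncomputable def ee (x : ℝ) : ℂ := Complex.exp (2 * Real.pi * Complex.I * x)

theorem ee_add (x y : ℝ) : ee (x + y) = ee x * ee y := by
  simp only [ee, ← Complex.exp_add]; congr 1; push_cast; ring

@[simp] theorem ee_zero : ee 0 = 1 := by simp [ee]

@[simp] theorem norm_ee (x : ℝ) : ‖ee x‖ = 1 := by
  have : (2 * Real.pi * Complex.I * x : ℂ) = ((2 * Real.pi * x : ℝ) : ℂ) * Complex.I := by
    push_cast; ring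
  rw [ee, this, Complex.norm_exp_ofReal_mul_I]

theorem ee_ne_zero (x : ℝ) : ee x ≠ 0 := Complex.exp_ne_zero _

theorem ee_neg (x : ℝ) : ee (-x) = (starRingEnd ℂ) (ee x) := by
  simp only [ee, ← Complex.exp_conj]; congr 1
  simp [Complex.conj_ofReal, map_ofNat]

theorem ee_mul_ee_neg (x : ℝ) : ee x * ee (-x) = 1 := by
  rw [← ee_add]; simp

theorem ee_sub (x y : ℝ) : ee (x - y) = ee x * (starRingEnd ℂ) (ee y) := by
  rw [sub_eq_add_neg, ee_add, ee_neg]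

@[simp] theorem ee_intCast (n : ℤ) : ee n = 1 := by
  rw [ee]
  have : (2 * Real.pi * Complex.I * ((n : ℝ) : ℂ) : ℂ) = n * (2 * Real.pi * Complex.I) := by
    push_cast; ring
  rw [this, Complex.exp_int_mul_two_pi_mul_I]

@[simp] theorem ee_natCast (n : ℕ) : ee n = 1 := by
  simpa using ee_intCast (n : ℤ)

theorem ee_add_intCast (x : ℝ) (n : ℤ) : ee (x + n) = ee x := by
  rw [ee_add, ee_intCast, mul_one]

theorem ee_nat_mul (n : ℕ) (x : ℝ) : ee (n * x) = ee x ^ n := by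
  simp only [ee, ← Complex.exp_nat_mul]; congr 1; push_cast; ring

theorem ee_eq_one_iff (x : ℝ) : ee x = 1 ↔ ∃ n : ℤ, x = n := by
  constructor
  · intro h
    rw [ee, Complex.exp_eq_one_iff] at h
    obtain ⟨n, hn⟩ := h
    refine ⟨n, ?_⟩
    have h2 : (2 * Real.pi * Complex.I : ℂ) ≠ 0 := Complex.two_pi_I_ne_zero
    have : (x : ℂ) = n := by
      apply mul_left_cancel₀ h2
      rw [hn]; ring
    exact_mod_cast this
  · rintro ⟨n, rfl⟩; simp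

theorem hasDerivAt_ee (x : ℝ) : HasDerivAt ee (2 * Real.pi * Complex.I * ee x) x := by
  have h : HasDerivAt (fun y : ℝ => (2 * Real.pi * Complex.I * (y : ℂ))) (2 * Real.pi * Complex.I) x := by
    simpa using (Complex.ofRealCLM.hasDerivAt (x := x)).const_mul (2 * Real.pi * Complex.I)
  have := h.cexp
  rw [mul_comm (Complex.exp _)] at this
  exact this

@[continuity, fun_prop] theorem continuous_ee : Continuous ee :=
  continuous_iff_continuousAt.2 fun x => (hasDerivAt_ee x).continuousAt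

@[fun_prop] theorem measurable_ee : Measurable ee := continuous_ee.measurable

theorem norm_ee_sub_ee_le (x y : ℝ) : ‖ee x - ee y‖ ≤ 2 * Real.pi * |x - y| := by
  have := Convex.norm_image_sub_le_of_norm_hasDerivWithin_le (f := ee)
    (f' := fun x => 2 * Real.pi * Complex.I * ee x) (s := Set.univ) (C := 2 * Real.pi)
    (fun x _ => (hasDerivAt_ee x).hasDerivWithinAt)
    (fun x _ => by simp [abs_of_pos Real.pi_pos]) convex_univ (Set.mem_univ y) (Set.mem_univ x)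
  simpa [Real.norm_eq_abs] using this

theorem norm_ee_sub_one_le (x : ℝ) : ‖ee x - 1‖ ≤ 2 * Real.pi * |x| := by
  simpa using norm_ee_sub_ee_le x 0

/-- Orthogonality on the unit interval. -/
theorem integral_ee_int (n : ℤ) : ∫ t in (0 : ℝ)..1, ee (n * t) = if n = 0 then 1 else 0 := by
  split_ifs with h
  · simp [h]
  · have hc : (2 * Real.pi * Complex.I * n : ℂ) ≠ 0 :=
      mul_ne_zero Complex.two_pi_I_ne_zero (by exact_mod_cast h)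
    have : ∀ t : ℝ, ee (n * t) = Complex.exp ((2 * Real.pi * Complex.I * n) * t) := by
      intro t; simp only [ee]; congr 1; push_cast; ring
    simp only [this]
    rw [integral_exp_mul_complex hc]
    have h1 := this 1
    have h0 := this 0
    simp only [mul_one, ee_intCast] at h1
    simp only [mul_zero, ee_zero] at h0
    rw [← h1, ← h0]; simp

/-- Orthogonality on the `q`-th roots of unity. -/
theorem sum_ee_div (q : ℕ) (hq : 0 < q) (n : ℤ) :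
    ∑ j ∈ range q, ee (n * j / q) = if (q : ℤ) ∣ n then (q : ℂ) else 0 := by
  have hq' : (q : ℝ) ≠ 0 := by positivity
  have h1 : ∀ j : ℕ, ee (n * j / q) = ee (n / q) ^ j := by
    intro j; rw [← ee_nat_mul]; congr 1; ring
  simp only [h1]
  split_ifs with h
  · obtain ⟨k, rfl⟩ := h
    have : ((((q : ℤ) * k : ℤ) : ℝ) / q) = (k : ℝ) := by push_cast; field_simp
    rw [this]; simp
  · have hne : ee (n / q) ≠ 1 := by
      intro h2
      obtain ⟨k, hk⟩ := (ee_eq_one_iff _).1 h2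
      apply h
      refine ⟨k, ?_⟩
      have : (n : ℝ) = q * k := by field_simp at hk; linarith
      exact_mod_cast this
    rw [geom_sum_eq hne, ← ee_nat_mul]
    have : (q : ℝ) * (n / q) = (n : ℝ) := by field_simp
    rw [this]; simp

/-- Parseval for trigonometric polynomials with distinct integer frequencies. -/
theorem integral_norm_sq_trig {ι : Type*} (S : Finset ι) (f : ι → ℤ) (hf : Set.InjOn f S)
    (c : ι → ℂ) :
    ∫ t in (0 : ℝ)..1, ‖∑ k ∈ S, c k * ee (f k * t)‖ ^ 2 = ∑ k ∈ S, ‖c k‖ ^ 2 := by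
  classical
  apply Complex.ofReal_injective
  rw [← intervalIntegral.integral_ofReal]
  have : ∀ t : ℝ, (((‖∑ k ∈ S, c k * ee (f k * t)‖ ^ 2 : ℝ)) : ℂ) =
      ∑ k ∈ S, ∑ l ∈ S, c k * (starRingEnd ℂ) (c l) * ee (((f k - f l : ℤ) : ℝ) * t) := by
    intro t
    rw [← Complex.normSq_eq_norm_sq, ← Complex.mul_conj, map_sum, Finset.sum_mul_sum]
    refine Finset.sum_congr rfl fun k _ => Finset.sum_congr rfl fun l _ => ?_
    rw [map_mul, ← ee_neg]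
    have : (((f k - f l : ℤ) : ℝ) * t) = f k * t + -(f l * t) := by push_cast; ring
    rw [this, ee_add]; ring
  simp only [this]
  rw [intervalIntegral.integral_finsetSum]
  · push_cast
    refine Finset.sum_congr rfl fun k hk => ?_
    rw [intervalIntegral.integral_finsetSum]
    · have : ∀ l ∈ S, ∫ t in (0 : ℝ)..1,
          c k * (starRingEnd ℂ) (c l) * ee (((f k : ℝ) - f l) * t) =
          if l = k then c k * (starRingEnd ℂ) (c k) else 0 := by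
        intro l hl
        rw [intervalIntegral.integral_const_mul]
        have h := integral_ee_int (f k - f l)
        push_cast at h
        rw [h]
        by_cases hlk : l = k
        · subst hlk; simp
        · have : f k - f l ≠ 0 := fun h0 => hlk (hf hl hk (by linarith [sub_eq_zero.1 h0]))
          simp [this, hlk]
      rw [Finset.sum_congr rfl this, Finset.sum_ite_eq' S k, if_pos hk, Complex.mul_conj,
        Complex.normSq_eq_norm_sq]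
      push_cast; rfl
    · intro l _
      exact (Continuous.intervalIntegrable (by fun_prop) _ _)
  · intro k _
    exact (Continuous.intervalIntegrable (by fun_prop) _ _)

/-! ## Discrepancy -/

/-- Module A (Spencer): full colouring of the columns `S` of a matrix with `R ≥ |S|` rows and
entries in `[-1,1]`, with discrepancy `C (|S| R²)^{1/6}`. -/
def SpencerStmt : Prop :=
  ∃ C : ℝ, 0 < C ∧ ∀ (R : ℕ) (S : Finset ℕ) (a : ℕ → ℕ → ℝ) (x : ℝ),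
    (∀ i j, |a i j| ≤ 1) → S.card ≤ R → 0 ≤ x → (S.card : ℝ) * (R : ℝ) ^ 2 ≤ x ^ 6 →
    ∃ s : ℕ → ℝ, (∀ j, s j = 1 ∨ s j = -1) ∧ ∀ i < R, |∑ j ∈ S, s j * a i j| ≤ C * x

/-- Module B: Spencer's bound for trigonometric polynomials, in the sup norm. -/
def TrigSpencerStmt : Prop :=
  ∃ C : ℝ, 0 < C ∧ ∀ (N : ℕ) (S : Finset ℕ) (b : ℕ → ℂ) (d x : ℝ),
    S ⊆ range N → 0 ≤ d → (∀ k ∈ S, ‖b k‖ ≤ d) → 0 ≤ x → (S.card : ℝ) * (N : ℝ) ^ 2 ≤ x ^ 6 →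
    ∃ s : ℕ → ℝ, (∀ k, s k = 1 ∨ s k = -1) ∧
      ∀ t : ℝ, ‖∑ k ∈ S, (s k : ℂ) * b k * ee (k * t)‖ ≤ C * d * x

/-- Raising nearly flat coefficients to exactly flat ones at small cost in the sup norm. -/
def FlattenStmt : Prop :=
  ∀ D ε : ℝ, 0 < D → 0 < ε → ∃ ε₁ : ℝ, 0 < ε₁ ∧ ∀ (N : ℕ) (S : Finset ℕ) (β : ℕ → ℂ),
    S ⊆ range N → S.Nonempty → (N : ℝ) ≤ D * S.card →
    (∀ k ∈ S, ‖β k‖ ^ 2 ≤ 1 / (S.card : ℝ)) → 1 - ε₁ ≤ ∑ k ∈ S, ‖β k‖ ^ 2 →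
    ∃ β' : ℕ → ℂ, (∀ k ∈ S, ‖β' k‖ ^ 2 = 1 / (S.card : ℝ)) ∧
      ∀ t : ℝ, ‖∑ k ∈ S, (β' k - β k) * ee (k * t)‖ ≤ ε

/-- Ultraflat polynomials with real coefficients bounded by `1 + ε`. -/
def FlatRealStmt : Prop :=
  ∀ ε : ℝ, 0 < ε → ∃ N₀ : ℕ, ∀ N ≥ N₀, ∃ a : ℕ → ℝ, (∀ k, |a k| ≤ 1 + ε) ∧
    ∀ t : ℝ, |‖∑ k ∈ range N, (a k : ℂ) * ee (k * t)‖ - √(N : ℝ)| ≤ ε * √(N : ℝ)

/-- The target statement S0100. -/
def MainStmt : Prop :=
  ∀ ε : ℝ, 0 < ε → ε < 1 →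
    ∃ N₀ : ℕ, ∀ N ≥ N₀, ∃ c : Fin N → ℤˣ, ∀ z : ℂ, ‖z‖ = 1 →
      (1 - ε) * Real.sqrt N ≤ ‖∑ k : Fin N, ((c k : ℤ) : ℂ) * z ^ (k : ℕ)‖ ∧
        ‖∑ k : Fin N, ((c k : ℤ) : ℂ) * z ^ (k : ℕ)‖ ≤ (1 + ε) * Real.sqrt N

/-! ## Oscillatory integrals -/

/-- van der Corput, first derivative test with a `C¹` amplitude. -/
def VdC1Stmt : Prop :=
  ∀ (ψ p p' g g' : ℝ → ℝ) (a b lam G G' : ℝ),
    (∀ t, HasDerivAt ψ (p t) t) → (∀ t, HasDerivAt p (p' t) t) → Continuous p' →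
    (∀ t, HasDerivAt g (g' t) t) → Continuous g' → a ≤ b → 0 < lam →
    ((∀ t ∈ Set.Icc a b, 0 ≤ p' t) ∨ (∀ t ∈ Set.Icc a b, p' t ≤ 0)) →
    (∀ t ∈ Set.Icc a b, lam ≤ |p t|) → (∀ t ∈ Set.Icc a b, |g t| ≤ G) →
    (∫ t in a..b, |g' t|) ≤ G' →
    ‖∫ t in a..b, (g t : ℂ) * ee (ψ t)‖ ≤ (G + G') / lam

/-- van der Corput, second derivative test with a `C¹` amplitude. -/
def VdC2Stmt : Prop :=
  ∀ (ψ p p' g g' : ℝ → ℝ) (a b μ G G' : ℝ),
    (∀ t, HasDerivAt ψ (p t) t) → (∀ t, HasDerivAt p (p' t) t) → Continuous p' →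
    (∀ t, HasDerivAt g (g' t) t) → Continuous g' → a ≤ b → 0 < μ →
    ((∀ t ∈ Set.Icc a b, μ ≤ p' t) ∨ (∀ t ∈ Set.Icc a b, p' t ≤ -μ)) →
    (∀ t ∈ Set.Icc a b, |g t| ≤ G) → (∫ t in a..b, |g' t|) ≤ G' →
    ‖∫ t in a..b, (g t : ℂ) * ee (ψ t)‖ ≤ 4 * (G + G') / √μ

/-- Stationary phase, uniform in the stationary point `t₀`. -/
def StatPhaseStmt : Prop :=
  ∃ γ : ℂ, ‖γ‖ ≤ 1 ∧ ∀ (Sg σ σ' g g' : ℝ → ℝ) (a b c : ℝ), a ≤ b → 0 < c →
    (∀ t, HasDerivAt Sg (σ t) t) → (∀ t, HasDerivAt σ (σ' t) t) → Continuous σ' →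
    (∀ t, c ≤ σ' t) → (∀ t, HasDerivAt g (g' t) t) → Continuous g' →
    (∀ t, t ∉ Set.Ioo a b → g t = 0) →
    ∀ ε : ℝ, 0 < ε → ∃ N₀ : ℝ, ∀ N : ℝ, N₀ ≤ N → ∀ t₀ : ℝ,
      ‖(√N : ℂ) * (∫ t in a..b, (g t : ℂ) * ee (N * (Sg t - σ t₀ * t))) -
        γ * ((g t₀ / √(σ' t₀) : ℝ) : ℂ) * ee (N * (Sg t₀ - σ t₀ * t₀))‖ ≤ ε

/-- de la Vallée-Poussin type truncation: a bounded `1`-periodic function that looks locally like a
pure frequency in `[δ N, (1-δ) N]` is uniformly close to a polynomial with frequencies in `[0,N)`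
whose coefficients are its Fourier coefficients times multipliers in `[0,1]`. -/
def KernelStmt : Prop :=
  ∀ δ ε : ℝ, 0 < δ → δ < 1 / 2 → 0 < ε → ∃ ρ K : ℝ, 0 < ρ ∧ 0 < K ∧ ∃ N₀ : ℕ, ∀ N ≥ N₀,
    ∃ v : ℕ → ℝ, (∀ k, 0 ≤ v k ∧ v k ≤ 1) ∧ ∀ w : ℝ → ℂ, Measurable w → Function.Periodic w 1 →
      (∀ t, ‖w t‖ ≤ 1) →
      (∀ t, ∃ x : ℝ, δ * N ≤ x ∧ x ≤ (1 - δ) * N ∧
        ∀ s : ℝ, |s| ≤ K / N → ‖w (t + s) - w t * ee (x * s)‖ ≤ ρ) →
      ∀ t : ℝ, ‖∑ k ∈ range N, (v k : ℂ) * (∫ u in (0 : ℝ)..1, w u * ee (-(k * u))) * ee (k * t)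
        - w t‖ ≤ ε

/-! ## Perfect sequences and flat systems -/

/-- The discrete Fourier transform of `u` on `ℤ/q` is supported on multiples of `D` and is bounded
by the flat value there. -/
def Flat (u : ℕ → ℂ) (q D : ℕ) : Prop :=
  0 < D ∧ D ∣ q ∧ ∀ ξ : ℤ, ‖∑ x ∈ range q, u x * ee (-(ξ * x / q))‖ ^ 2 ≤ (D : ℝ) * q ∧
    (¬ (D : ℤ) ∣ ξ → ∑ x ∈ range q, u x * ee (-(ξ * x / q)) = 0)

/-- The size ratio of the Milewski factor of type `(p, c)`. -/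
noncomputable def rho (p c m : ℕ) : ℝ :=
  if m.factorization p ≤ c then 1 else (p : ℝ) ^ ((m.factorization p : ℤ) - c - 2)

/-- Module F: Milewski sequence times Chu sequence. -/
def PerfectStmt : Prop :=
  ∀ M p c : ℕ, p.Prime → Odd p → ∃ (q : ℕ) (ψ : ℕ → ℝ) (D : ℕ → ℕ), 0 < q ∧
    ∀ m : ℕ, Odd m → m ≤ M → Flat (fun x => ee (m * ψ x)) q (D m) ∧ (m : ℝ) / D m = rho p c m

/-- `ρ` is an achievable size ratio: there are exactly flat trigonometric polynomials `b m`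
with `n * ρ m` frequencies that approximate `g * u ^ m` for all odd `m ≤ M` at once. -/
def InR (M : ℕ) (ρ : ℕ → ℝ) : Prop :=
  ∀ ε : ℝ, 0 < ε → ∃ (n : ℝ) (S : ℕ → Finset ℕ) (β : ℕ → ℕ → ℂ), 0 < n ∧
    (∀ m : ℕ, Odd m → m ≤ M → ((S m).card : ℝ) = n * ρ m ∧
      ∀ ξ ∈ S m, ‖β m ξ‖ ^ 2 = 1 / ((S m).card : ℝ)) ∧
    ∀ y : ℝ, ∃ g ψ : ℝ, 0 ≤ g ∧ g ≤ 1 ∧ ∀ m : ℕ, Odd m → m ≤ M →
      ‖∑ ξ ∈ S m, β m ξ * ee (ξ * y) - (g : ℂ) * ee (m * ψ)‖ ≤ ε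

/-- Module G: a perfect sequence times a chirp gives a flat system. -/
def BaseStmt : Prop :=
  ∀ (M q : ℕ) (ψ : ℕ → ℝ) (D : ℕ → ℕ), 0 < q →
    (∀ m : ℕ, Odd m → m ≤ M → Flat (fun x => ee (m * ψ x)) q (D m)) →
    InR M (fun m => (m : ℝ) / D m)

/-- Module H: the ratios `m ^ (-a)` are achievable. -/
def PowerStmt : Prop := ∀ M a : ℕ, InR M (fun m => 1 / (m : ℝ) ^ a)

/-- The odd integers of absolute value at most `M`. -/
noncomputable def oddBox (M : ℕ) : Finset ℤ := (Finset.Icc (-(M : ℤ)) M).filter Odd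

/-- Module I: a square wave with exact coefficient moduli `c₀ / |m|` and no Gibbs overshoot. -/
def SquareStmt : Prop :=
  ∀ ε : ℝ, 0 < ε → ∃ (M : ℕ) (τ c₀ : ℝ) (h : ℤ → ℂ), 0 ≤ τ ∧ τ ≤ ε ∧ M * τ ^ 12 ≤ ε ∧ 0 < c₀ ∧
    (∀ m, h (-m) = (starRingEnd ℂ) (h m)) ∧ (∀ m ∈ oddBox M, ‖h m‖ = c₀ / |(m : ℝ)|) ∧
    1 - ε ≤ ∑ m ∈ oddBox M, ‖h m‖ ^ 2 ∧
    ∀ g : ℕ, Odd g →
      ∑ m ∈ (oddBox M).filter (fun m => (g : ℤ) ∣ m), ‖h m‖ ^ 2 ≤ 1 / (g : ℝ) ^ 2 ∧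
      ∀ θ : ℝ, ‖∑ m ∈ (oddBox M).filter (fun m => (g : ℤ) ∣ m), h m * ee (m * θ)‖ ≤ 1 / g + τ

/-- Module J (key proposition): a real trigonometric polynomial in two variables with sup norm
`≤ 1 + ε`, `L²` norm `≥ 1 - ε`, squared coefficient moduli proportional to the first frequency,
and pairwise non-proportional frequencies. -/
def KeyStmt : Prop :=
  ∀ ε : ℝ, 0 < ε → ∃ (ι : Type) (_ : Fintype ι) (m : ι → ℕ) (ζ : ι → ℤ) (c : ι → ℂ) (κ : ℝ),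
    0 < κ ∧ (∀ n, 1 ≤ m n) ∧ (∀ n n', (m n : ℤ) * ζ n' = m n' * ζ n → n = n') ∧
    (∀ n, ‖c n‖ ^ 2 = κ * m n) ∧ 1 - ε ≤ κ * (2 * ∑ n, (m n : ℝ)) ∧
    ∀ θ y : ℝ, |∑ n, 2 * (c n * ee (m n * θ + ζ n * y)).re| ≤ 1 + ε

/-- Module K (packing): the arcs `± (m (a + [0, η]) + ζ b)` can be chosen pairwise disjoint
modulo `1` and of total length at least `1 - ε`. -/
def PackStmt : Prop :=
  ∀ (ι : Type) [Fintype ι] [Nonempty ι] (m : ι → ℕ) (ζ : ι → ℤ), (∀ n, 1 ≤ m n) →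
    (∀ n n', (m n : ℤ) * ζ n' = m n' * ζ n → n = n') →
    ∀ ε : ℝ, 0 < ε → ∃ (I : ℕ) (a b η : Fin I → ℝ), (∀ i, 0 < η i) ∧
      1 - ε ≤ (2 * ∑ n, (m n : ℝ)) * ∑ i, η i ∧
      ∀ (i i' : Fin I) (n n' : ι) (s s' : ℤˣ) (τ τ' : ℝ) (l : ℤ),
        τ ∈ Set.Icc 0 (η i) → τ' ∈ Set.Icc 0 (η i') →
        ((s : ℤ) : ℝ) * (m n * (a i + τ) + ζ n * b i) -
          ((s' : ℤ) : ℝ) * (m n' * (a i' + τ') + ζ n' * b i') = l →
        i = i' ∧ n = n' ∧ s = s'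

/-! ## Gluing -/

/-- One gap `[y, x]`: a Lipschitz frequency function joining `pL` to `pR`, with prescribed total
phase, which sweeps the window `[w₁, w₂]` slowly and everything else fast. -/
def GapStmt : Prop :=
  ∀ (δ y x pL pR w₁ w₂ d ε : ℝ), 0 < δ → δ < 1 / 10 → y < x →
    3 * δ ≤ pL → pL ≤ 1 - δ → 3 * δ ≤ pR → pR ≤ 1 - δ → 3 * δ ≤ w₁ → w₁ < w₂ → w₂ ≤ 1 - δ →
    0 < d → 0 < ε →
    ∃ (L : ℝ) (N₀ : ℕ), ∀ N ≥ N₀, ∀ φ : ℝ, ∃ p : ℝ → ℝ,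
      (∀ t u, |p t - p u| ≤ L * |t - u|) ∧ p y = pL ∧ p x = pR ∧
      (∀ t, δ ≤ p t ∧ p t ≤ 1 - δ) ∧ (∃ l : ℤ, N * ∫ t in y..x, p t = φ + l) ∧
      ∀ ξ : ℝ,
        √(N : ℝ) * ‖∫ t in y..x, ee (N * (∫ u in y..t, p u) - ξ * t)‖ ≤
          ε + 4 * √((x - y) / (w₂ - w₁)) ∧
        (ξ / N ∉ Set.Icc (w₁ - d) (w₂ + d) →
          √(N : ℝ) * ‖∫ t in y..x, ee (N * (∫ u in y..t, p u) - ξ * t)‖ ≤ ε)

/-- Module L: gluing prescribed phases on disjoint arcs of `(0, 1/2)` that nearly fill it into an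
ultraflat real polynomial whose coefficients are given by the arcs up to `ε`. -/
def GlueStmt : Prop :=
  ∀ δ ε : ℝ, 0 < δ → δ < 1 / 10 → 0 < ε → ∃ ε₁ : ℝ, 0 < ε₁ ∧
    ∀ (ι : Type) [Fintype ι] (x y : ι → ℝ) (P p : ι → ℝ → ℝ) (L : ℝ),
      (∀ j, 0 < x j ∧ x j < y j ∧ y j < 1 / 2) →
      (∀ i j, i ≠ j → y i < x j ∨ y j < x i) →
      1 / 2 - ε₁ ≤ ∑ j, (y j - x j) →
      (∀ j t, HasDerivAt (P j) (p j t) t) →
      (∀ j t u, |p j t - p j u| ≤ L * |t - u|) →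
      (∀ j, ∀ t ∈ Set.Icc (x j) (y j), 3 * δ ≤ p j t ∧ p j t ≤ 1 - δ) →
      ∃ N₀ : ℕ, ∀ N ≥ N₀, ∀ C : ι → ℝ, ∃ a : ℕ → ℝ,
        (∀ t : ℝ, |‖∑ k ∈ range N, (a k : ℂ) * ee (k * t)‖ - √(N : ℝ)| ≤ ε * √(N : ℝ)) ∧
        ∀ k : ℕ, |a k| ≤
          |2 * ((√(N : ℝ) : ℂ) * ∑ j, ∫ t in x j..y j, ee (N * P j t + C j - k * t)).re| + ε

end Crest.Agent.R75
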