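import Crest.Agent.R75.Defs

/-!
# Row 75: one gap (piecewise linear frequency function)
-/

set_option autoImplicit false

open Set MeasureTheory intervalIntegral

namespace Crest.Agent.R75

namespace Gap

/-- The clamp of `t` to `[a, b]`, measured from `a`. -/
noncomputable def cl (a b t : ℝ) : ℝ := max a (min t b) - a

theorem cl_lip (a b t u : ℝ) : |cl a b t - cl a b u| ≤ |t - u| := by
  unfold cl
  have h1 : |max a (min t b) - max a (min u b)| ≤ |min t b - min u b| := by
    rw [max_comm a, max_comm a]; exact abs_max_sub_max_le_abs _ _ _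
  have h2 : |min t b - min u b| ≤ |t - u| := by
    have := abs_min_sub_min_le_max t b u b
    simpa using this
  have e : max a (min t b) - a - (max a (min u b) - a) = max a (min t b) - max a (min u b) := by
    ring
  rw [e]
  exact h1.trans h2

theorem cl_left {a b t : ℝ} (h : t ≤ a) : cl a b t = 0 := by
  unfold cl
  rw [max_eq_left ((min_le_left _ _).trans h), sub_self]

theorem cl_mid {a b t : ℝ} (h1 : a ≤ t) (h2 : t ≤ b) : cl a b t = t - a := by
  unfold cl
  rw [min_eq_left h2, max_eq_right h1]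

theorem cl_right {a b t : ℝ} (hab : a ≤ b) (h : b ≤ t) : cl a b t = b - a := by
  unfold cl
  rw [min_eq_right h, max_eq_right hab]

theorem primitive_on (p : ℝ → ℝ) (hp : Continuous p) (y a b α s : ℝ)
    (h : ∀ t ∈ Icc a b, p t = α + s * (t - a)) (t : ℝ) (ht : t ∈ Icc a b) :
    ∫ u in y..t, p u = (∫ u in y..a, p u) + (α * (t - a) + s * (t - a) ^ 2 / 2) := by
  rw [← integral_add_adjacent_intervals (hp.intervalIntegrable y a) (hp.intervalIntegrable a t)]
  congr 1
  have e1 : ∫ u in a..t, p u = ∫ u in a..t, (α + s * (u - a)) := by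
    apply integral_congr
    intro u hu
    rw [uIcc_of_le ht.1] at hu
    exact h u ⟨hu.1, hu.2.trans ht.2⟩
  rw [e1]
  have hd : ∀ u ∈ uIcc a t, HasDerivAt (fun u => α * (u - a) + s * (u - a) ^ 2 / 2)
      (α + s * (u - a)) u := by
    intro u _
    have h1 : HasDerivAt (fun u : ℝ => u - a) 1 u := (hasDerivAt_id u).sub_const a
    have h2 := (h1.const_mul α).add (((h1.pow 2).const_mul s).div_const 2)
    have e : α + s * (u - a) = α * 1 + s * (((2 : ℕ) : ℝ) * (u - a) ^ (2 - 1) * 1) / 2 := by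
      push_cast; ring
    rw [e]
    exact h2
  rw [integral_eq_sub_of_hasDerivAt hd (by apply Continuous.intervalIntegrable; fun_prop)]
  ring

/-- On an affine piece the oscillatory integral has a globally smooth phase. -/
theorem piece_eq (p : ℝ → ℝ) (hp : Continuous p) (y a b α s N ξ : ℝ) (hab : a ≤ b)
    (h : ∀ t ∈ Icc a b, p t = α + s * (t - a)) :
    ∫ t in a..b, ee (N * (∫ u in y..t, p u) - ξ * t) =
      ∫ t in a..b, (((fun _ => (1 : ℝ)) t : ℝ) : ℂ) * ee ((fun t => N * ((∫ u in y..a, p u) +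
        (α * (t - a) + s * (t - a) ^ 2 / 2)) - ξ * t) t) := by
  apply integral_congr
  intro t ht
  rw [uIcc_of_le hab] at ht
  simp only [primitive_on p hp y a b α s h t ht, Complex.ofReal_one, one_mul]

theorem phase_deriv (C a α s N ξ t : ℝ) :
    HasDerivAt (fun t => N * (C + (α * (t - a) + s * (t - a) ^ 2 / 2)) - ξ * t)
      (N * (α + s * (t - a)) - ξ) t := by
  have h1 : HasDerivAt (fun u : ℝ => u - a) 1 t := (hasDerivAt_id t).sub_const a
  have h2 := (((h1.const_mul α).add (((h1.pow 2).const_mul s).div_const 2)).const_add C).const_mul N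
  have h3 := h2.sub ((hasDerivAt_id t).const_mul ξ)
  have e : N * (α + s * (t - a)) - ξ =
      N * (α * 1 + s * (((2 : ℕ) : ℝ) * (t - a) ^ (2 - 1) * 1) / 2) - ξ * 1 := by
    push_cast; ring
  rw [e]
  exact h3

theorem phase_deriv2 (a α s N ξ t : ℝ) :
    HasDerivAt (fun t => N * (α + s * (t - a)) - ξ) (N * s) t := by
  have h1 : HasDerivAt (fun u : ℝ => u - a) 1 t := (hasDerivAt_id t).sub_const a
  have h2 := (((h1.const_mul s).const_add α).const_mul N).sub_const ξ
  have e : N * s = N * (s * 1) := by ring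
  rw [e]
  exact h2

theorem piece2 (h2 : VdC2Stmt) (p : ℝ → ℝ) (hp : Continuous p) (y a b α s N ξ m : ℝ)
    (hab : a ≤ b) (hN : 0 < N) (hm : 0 < m) (hs : m ≤ s ∨ s ≤ -m)
    (h : ∀ t ∈ Icc a b, p t = α + s * (t - a)) :
    √N * ‖∫ t in a..b, ee (N * (∫ u in y..t, p u) - ξ * t)‖ ≤ 4 * √(1 / m) := by
  rw [piece_eq p hp y a b α s N ξ hab h]
  have := h2 _ (fun t => N * (α + s * (t - a)) - ξ) (fun _ => N * s) (fun _ => (1 : ℝ))
    (fun _ => 0) a b (N * m) 1 0 (fun t => phase_deriv (∫ u in y..a, p u) a α s N ξ t)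
    (fun t => phase_deriv2 a α s N ξ t) continuous_const (fun t => hasDerivAt_const t 1)
    continuous_const hab (mul_pos hN hm)
    (by
      rcases hs with hs | hs
      · exact Or.inl fun _ _ => mul_le_mul_of_nonneg_left hs hN.le
      · exact Or.inr fun _ _ => by nlinarith)
    (fun _ _ => by simp) (by simp)
  refine (mul_le_mul_of_nonneg_left this (Real.sqrt_nonneg N)).trans (le_of_eq ?_)
  have h3 : 0 < √N := Real.sqrt_pos.2 hN
  have h4 : 0 < √m := Real.sqrt_pos.2 hm
  rw [Real.sqrt_mul hN.le, Real.sqrt_div zero_le_one, Real.sqrt_one]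
  field_simp
  ring

theorem piece1 (h1 : VdC1Stmt) (p : ℝ → ℝ) (hp : Continuous p) (y a b α s N ξ lam : ℝ)
    (hab : a ≤ b) (hN : 0 < N) (hs : 0 ≤ s) (hlam : 0 < lam)
    (hl : ∀ t ∈ Icc a b, lam ≤ |N * p t - ξ|)
    (h : ∀ t ∈ Icc a b, p t = α + s * (t - a)) :
    ‖∫ t in a..b, ee (N * (∫ u in y..t, p u) - ξ * t)‖ ≤ 1 / lam := by
  rw [piece_eq p hp y a b α s N ξ hab h]
  have := h1 _ (fun t => N * (α + s * (t - a)) - ξ) (fun _ => N * s) (fun _ => (1 : ℝ))
    (fun _ => 0) a b lam 1 0 (fun t => phase_deriv (∫ u in y..a, p u) a α s N ξ t)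
    (fun t => phase_deriv2 a α s N ξ t) continuous_const (fun t => hasDerivAt_const t 1)
    continuous_const hab hlam (Or.inl fun _ _ => mul_nonneg hN.le hs)
    (fun t ht => by rw [← h t ht]; exact hl t ht)
    (fun _ _ => by simp) (by simp)
  simpa using this

theorem affine_mem (lo hi v w r τ : ℝ) (hr : 0 < r) (h0 : 0 ≤ τ) (h1 : τ ≤ r)
    (hv : lo ≤ v ∧ v ≤ hi) (hw : lo ≤ w ∧ w ≤ hi) :
    lo ≤ v + (w - v) / r * τ ∧ v + (w - v) / r * τ ≤ hi := by
  have hθ0 : 0 ≤ τ / r := by positivity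
  have hθ1 : τ / r ≤ 1 := (div_le_one hr).2 h1
  have e : v + (w - v) / r * τ = (1 - τ / r) * v + τ / r * w := by field_simp; ring
  rw [e]
  constructor <;> nlinarith [hv.1, hv.2, hw.1, hw.2]

end Gap

open Gap

theorem gap_of (h1 : VdC1Stmt) (h2 : VdC2Stmt) : GapStmt := by
  intro δ y x pL pR w₁ w₂ d ε hδ hδ' hyx hL1 hL2 hR1 hR2 hw1 hw12 hw2 hd hε
  obtain ⟨r, hr0, hr1, hr2⟩ : ∃ r : ℝ, 0 < r ∧ 5 * r ≤ x - y ∧ r ≤ δ * (ε / 32) ^ 2 := by
    refine ⟨min ((x - y) / 5) (δ * (ε / 32) ^ 2), lt_min (by linarith) (by positivity), ?_,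
      min_le_right _ _⟩
    have := min_le_left ((x - y) / 5) (δ * (ε / 32) ^ 2)
    linarith
  set ℓ : ℝ := x - y - 4 * r with hℓ
  have hℓ0 : 0 < ℓ := by linarith
  obtain ⟨N₀, hN₀⟩ := exists_nat_ge (1 / (r * δ) + (2 / (d * ε)) ^ 2)
  refine ⟨4 / r + 1 / ℓ, N₀, fun N hN φ => ?_⟩
  have hNr : (1 / (r * δ) + (2 / (d * ε)) ^ 2 : ℝ) ≤ N := hN₀.trans (by exact_mod_cast hN)
  have hA : 0 < 1 / (r * δ) := by positivity
  have hB : 0 < (2 / (d * ε)) ^ 2 := by positivity
  have hNpos : (0 : ℝ) < N := by linarith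
  -- the adjustable value `q`
  set A : ℝ := r * pL / 2 + r * w₁ / 2 + ℓ * (w₁ + w₂) / 2 + r * (w₂ + δ) / 2 + r * (δ + pR) / 2
    with hAdef
  set q : ℝ := δ + Int.fract (φ - N * (A + r * δ)) / (N * r) with hq
  have hq1 : δ ≤ q := by
    have : 0 ≤ Int.fract (φ - N * (A + r * δ)) / (N * r) :=
      div_nonneg (Int.fract_nonneg _) (by positivity)
    linarith
  have hq2 : q ≤ 2 * δ := by
    have h3 : Int.fract (φ - N * (A + r * δ)) / (N * r) ≤ 1 / (N * r) :=
      div_le_div_of_nonneg_right (Int.fract_lt_one _).le (by positivity)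
    have h4 : 1 / (N * r) ≤ δ := by
      have h5 : 1 / (r * δ) ≤ (N : ℝ) := by linarith
      rw [div_le_iff₀ (by positivity)] at h5 ⊢
      linarith
    linarith
  set s₁ : ℝ := (q - pL) / r with hs₁
  set s₂ : ℝ := (w₁ - q) / r with hs₂
  set s₃ : ℝ := (w₂ - w₁) / ℓ with hs₃
  set s₄ : ℝ := (δ - w₂) / r with hs₄
  set s₅ : ℝ := (pR - δ) / r with hs₅
  have t₁ : s₁ * r = q - pL := by rw [hs₁]; field_simp
  have t₂ : s₂ * r = w₁ - q := by rw [hs₂]; field_simp
  have t₃ : s₃ * ℓ = w₂ - w₁ := by rw [hs₃]; field_simp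
  have t₄ : s₄ * r = δ - w₂ := by rw [hs₄]; field_simp
  have t₅ : s₅ * r = pR - δ := by rw [hs₅]; field_simp
  set p : ℝ → ℝ := fun t => pL + s₁ * cl y (y + r) t + s₂ * cl (y + r) (y + 2 * r) t +
    s₃ * cl (y + 2 * r) (x - 2 * r) t + s₄ * cl (x - 2 * r) (x - r) t + s₅ * cl (x - r) x t with hp
  have n01 : y ≤ y + r := by linarith
  have n12 : y + r ≤ y + 2 * r := by linarith
  have n23 : y + 2 * r ≤ x - 2 * r := by linarith
  have n34 : x - 2 * r ≤ x - r := by linarith
  have n45 : x - r ≤ x := by linarith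
  have P0 : ∀ t, t ≤ y → p t = pL := by
    intro t ht
    simp only [hp]
    rw [cl_left ht, cl_left (by linarith), cl_left (by linarith), cl_left (by linarith),
      cl_left (by linarith)]
    ring
  have P1 : ∀ t ∈ Icc y (y + r), p t = pL + s₁ * (t - y) := by
    intro t ht
    simp only [hp]
    rw [cl_mid ht.1 ht.2, cl_left ht.2, cl_left (by linarith [ht.2]), cl_left (by linarith [ht.2]),
      cl_left (by linarith [ht.2])]
    ring
  have P2 : ∀ t ∈ Icc (y + r) (y + 2 * r), p t = q + s₂ * (t - (y + r)) := by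
    intro t ht
    simp only [hp]
    rw [cl_right n01 ht.1, cl_mid ht.1 ht.2, cl_left ht.2, cl_left (by linarith [ht.2]),
      cl_left (by linarith [ht.2])]
    linear_combination t₁
  have P3 : ∀ t ∈ Icc (y + 2 * r) (x - 2 * r), p t = w₁ + s₃ * (t - (y + 2 * r)) := by
    intro t ht
    simp only [hp]
    rw [cl_right n01 (by linarith [ht.1]), cl_right n12 ht.1, cl_mid ht.1 ht.2, cl_left ht.2,
      cl_left (by linarith [ht.2])]
    linear_combination t₁ + t₂
  have P4 : ∀ t ∈ Icc (x - 2 * r) (x - r), p t = w₂ + s₄ * (t - (x - 2 * r)) := by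
    intro t ht
    simp only [hp]
    rw [cl_right n01 (by linarith [ht.1]), cl_right n12 (by linarith [ht.1]), cl_right n23 ht.1,
      cl_mid ht.1 ht.2, cl_left ht.2]
    have : x - 2 * r - (y + 2 * r) = ℓ := by rw [hℓ]; ring
    rw [this]
    linear_combination t₁ + t₂ + t₃
  have P5 : ∀ t ∈ Icc (x - r) x, p t = δ + s₅ * (t - (x - r)) := by
    intro t ht
    simp only [hp]
    rw [cl_right n01 (by linarith [ht.1]), cl_right n12 (by linarith [ht.1]),
      cl_right n23 (by linarith [ht.1]), cl_right n34 ht.1, cl_mid ht.1 ht.2]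
    have : x - 2 * r - (y + 2 * r) = ℓ := by rw [hℓ]; ring
    rw [this]
    linear_combination t₁ + t₂ + t₃ + t₄
  have P6 : ∀ t, x ≤ t → p t = pR := by
    intro t ht
    simp only [hp]
    rw [cl_right n01 (by linarith), cl_right n12 (by linarith),
      cl_right n23 (by linarith), cl_right n34 (by linarith), cl_right n45 ht]
    have : x - 2 * r - (y + 2 * r) = ℓ := by rw [hℓ]; ring
    rw [this]
    linear_combination t₁ + t₂ + t₃ + t₄ + t₅
  have hsl : ∀ v w ρ : ℝ, 0 < ρ → 0 ≤ v → v ≤ 1 → 0 ≤ w → w ≤ 1 → |(w - v) / ρ| ≤ 1 / ρ := by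
    intro v w ρ hρ a1 a2 a3 a4
    rw [abs_div, abs_of_pos hρ]
    exact div_le_div_of_nonneg_right (abs_le.2 ⟨by linarith, by linarith⟩) hρ.le
  have b₁ : |s₁| ≤ 1 / r := hsl _ _ _ hr0 (by linarith) (by linarith) (by linarith) (by linarith)
  have b₂ : |s₂| ≤ 1 / r := hsl _ _ _ hr0 (by linarith) (by linarith) (by linarith) (by linarith)
  have b₃ : |s₃| ≤ 1 / ℓ := hsl _ _ _ hℓ0 (by linarith) (by linarith) (by linarith) (by linarith)
  have b₄ : |s₄| ≤ 1 / r := hsl _ _ _ hr0 (by linarith) (by linarith) (by linarith) (by linarith)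
  have b₅ : |s₅| ≤ 1 / r := hsl _ _ _ hr0 (by linarith) (by linarith) (by linarith) (by linarith)
  have hLip : ∀ t u, |p t - p u| ≤ (4 / r + 1 / ℓ) * |t - u| := by
    intro t u
    have key : ∀ s a b B : ℝ, |s| ≤ B → |s * (cl a b t - cl a b u)| ≤ B * |t - u| := by
      intro s a b B hB
      rw [abs_mul]
      exact mul_le_mul hB (cl_lip a b t u) (abs_nonneg _) ((abs_nonneg _).trans hB)
    have e : p t - p u = s₁ * (cl y (y + r) t - cl y (y + r) u) +
        s₂ * (cl (y + r) (y + 2 * r) t - cl (y + r) (y + 2 * r) u) +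
        s₃ * (cl (y + 2 * r) (x - 2 * r) t - cl (y + 2 * r) (x - 2 * r) u) +
        s₄ * (cl (x - 2 * r) (x - r) t - cl (x - 2 * r) (x - r) u) +
        s₅ * (cl (x - r) x t - cl (x - r) x u) := by simp only [hp]; ring
    have k1 := abs_le.1 (key s₁ y (y + r) _ b₁)
    have k2 := abs_le.1 (key s₂ (y + r) (y + 2 * r) _ b₂)
    have k3 := abs_le.1 (key s₃ (y + 2 * r) (x - 2 * r) _ b₃)
    have k4 := abs_le.1 (key s₄ (x - 2 * r) (x - r) _ b₄)
    have k5 := abs_le.1 (key s₅ (x - r) x _ b₅)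
    have e2 : (4 / r + 1 / ℓ) * |t - u| = 1 / r * |t - u| + 1 / r * |t - u| + 1 / ℓ * |t - u| +
      1 / r * |t - u| + 1 / r * |t - u| := by ring
    rw [e, e2, abs_le]
    constructor <;> linarith [k1.1, k1.2, k2.1, k2.2, k3.1, k3.2, k4.1, k4.2, k5.1, k5.2]
  have hpc : Continuous p := by
    have hK : 0 ≤ 4 / r + 1 / ℓ := by positivity
    have : LipschitzWith (Real.toNNReal (4 / r + 1 / ℓ)) p := by
      apply LipschitzWith.of_dist_le_mul
      intro t u
      rw [Real.coe_toNNReal _ hK, Real.dist_eq, Real.dist_eq]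
      exact hLip t u
    exact this.continuous
  have hP3b : ∀ t ∈ Icc (y + 2 * r) (x - 2 * r), w₁ ≤ p t ∧ p t ≤ w₂ := by
    intro t ht
    rw [P3 t ht]
    exact affine_mem w₁ w₂ w₁ w₂ ℓ _ hℓ0 (by linarith [ht.1]) (by linarith [ht.2])
      ⟨le_rfl, hw12.le⟩ ⟨hw12.le, le_rfl⟩
  refine ⟨p, hLip, P0 y le_rfl, P6 x le_rfl, fun t => ?_, ?_, fun ξ => ?_⟩
  · rcases le_total t y with c0 | c0
    · rw [P0 t c0]; constructor <;> linarith
    rcases le_total t (y + r) with c1 | c1
    · rw [P1 t ⟨c0, c1⟩]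
      exact affine_mem _ _ pL q r _ hr0 (by linarith) (by linarith) ⟨by linarith, by linarith⟩
        ⟨by linarith, by linarith⟩
    rcases le_total t (y + 2 * r) with c2 | c2
    · rw [P2 t ⟨c1, c2⟩]
      exact affine_mem _ _ q w₁ r _ hr0 (by linarith) (by linarith) ⟨by linarith, by linarith⟩
        ⟨by linarith, by linarith⟩
    rcases le_total t (x - 2 * r) with c3 | c3
    · have := hP3b t ⟨c2, c3⟩
      constructor <;> linarith [this.1, this.2]
    rcases le_total t (x - r) with c4 | c4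
    · rw [P4 t ⟨c3, c4⟩]
      exact affine_mem _ _ w₂ δ r _ hr0 (by linarith) (by linarith) ⟨by linarith, by linarith⟩
        ⟨by linarith, by linarith⟩
    rcases le_total t x with c5 | c5
    · rw [P5 t ⟨c4, c5⟩]
      exact affine_mem _ _ δ pR r _ hr0 (by linarith) (by linarith) ⟨by linarith, by linarith⟩
        ⟨by linarith, by linarith⟩
    · rw [P6 t c5]; constructor <;> linarith
  · have I1 := primitive_on p hpc y y (y + r) pL s₁ P1 (y + r) ⟨n01, le_rfl⟩
    have I2 := primitive_on p hpc y (y + r) (y + 2 * r) q s₂ P2 (y + 2 * r) ⟨n12, le_rfl⟩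
    have I3 := primitive_on p hpc y (y + 2 * r) (x - 2 * r) w₁ s₃ P3 (x - 2 * r) ⟨n23, le_rfl⟩
    have I4 := primitive_on p hpc y (x - 2 * r) (x - r) w₂ s₄ P4 (x - r) ⟨n34, le_rfl⟩
    have I5 := primitive_on p hpc y (x - r) x δ s₅ P5 x ⟨n45, le_rfl⟩
    have hℓ' : x - 2 * r - (y + 2 * r) = ℓ := by rw [hℓ]; ring
    rw [hℓ'] at I3
    rw [intervalIntegral.integral_same] at I1
    have tot : ∫ t in y..x, p t = A + r * q := by
      rw [I5, I4, I3, I2, I1, hAdef]
      linear_combination (r / 2) * t₁ + (r / 2) * t₂ + (ℓ / 2) * t₃ + (r / 2) * t₄ + (r / 2) * t₅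
    refine ⟨-⌊φ - N * (A + r * δ)⌋, ?_⟩
    rw [tot, hq]
    have e : (N : ℝ) * (A + r * (δ + Int.fract (φ - N * (A + r * δ)) / (N * r))) =
        N * (A + r * δ) + Int.fract (φ - N * (A + r * δ)) := by
      field_simp
      ring
    rw [e, Int.fract]
    push_cast
    ring
  · set f : ℝ → ℂ := fun t => ee (N * (∫ u in y..t, p u) - ξ * t) with hf
    have hfc : Continuous f := by
      have : Continuous fun t => ∫ u in y..t, p u :=
        intervalIntegral.continuous_primitive (fun a b => hpc.intervalIntegrable a b) y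
      exact continuous_ee.comp ((continuous_const.mul this).sub (continuous_const.mul continuous_id))
    have hsplit : ∫ t in y..x, f t = (∫ t in y..(y + r), f t) + (∫ t in (y + r)..(y + 2 * r), f t) +
        (∫ t in (y + 2 * r)..(x - 2 * r), f t) + (∫ t in (x - 2 * r)..(x - r), f t) +
        ∫ t in (x - r)..x, f t := by
      simp only [integral_add_adjacent_intervals (hfc.intervalIntegrable _ _)
        (hfc.intervalIntegrable _ _)]
    have hm : 0 < δ / r := by positivity
    have hfast : 4 * √(1 / (δ / r)) ≤ ε / 8 := by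
      have : √(1 / (δ / r)) ≤ ε / 32 := by
        rw [Real.sqrt_le_left (by positivity), one_div_div, div_le_iff₀ hδ]
        linarith
      linarith
    have F1 := (piece2 h2 p hpc y y (y + r) pL s₁ N ξ _ n01 hNpos hm (Or.inr (by
      rw [hs₁, ← neg_div]; exact div_le_div_of_nonneg_right (by linarith) hr0.le)) P1).trans hfast
    have F2 := (piece2 h2 p hpc y (y + r) (y + 2 * r) q s₂ N ξ _ n12 hNpos hm (Or.inl (by
      rw [hs₂]; exact div_le_div_of_nonneg_right (by linarith) hr0.le)) P2).trans hfast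
    have F4 := (piece2 h2 p hpc y (x - 2 * r) (x - r) w₂ s₄ N ξ _ n34 hNpos hm (Or.inr (by
      rw [hs₄, ← neg_div]; exact div_le_div_of_nonneg_right (by linarith) hr0.le)) P4).trans hfast
    have F5 := (piece2 h2 p hpc y (x - r) x δ s₅ N ξ _ n45 hNpos hm (Or.inl (by
      rw [hs₅]; exact div_le_div_of_nonneg_right (by linarith) hr0.le)) P5).trans hfast
    have hsN : 0 < √(N : ℝ) := Real.sqrt_pos.2 hNpos
    have htot : √(N : ℝ) * ‖∫ t in y..x, f t‖ ≤
        ε / 2 + √(N : ℝ) * ‖∫ t in (y + 2 * r)..(x - 2 * r), f t‖ := by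
      have h3 : ‖∫ t in y..x, f t‖ ≤ ‖∫ t in y..(y + r), f t‖ + ‖∫ t in (y + r)..(y + 2 * r), f t‖ +
        ‖∫ t in (y + 2 * r)..(x - 2 * r), f t‖ + ‖∫ t in (x - 2 * r)..(x - r), f t‖ +
        ‖∫ t in (x - r)..x, f t‖ := by
        rw [hsplit]
        refine (norm_add_le _ _).trans (add_le_add ?_ le_rfl)
        refine (norm_add_le _ _).trans (add_le_add ?_ le_rfl)
        exact norm_add₃_le
      have h4 := mul_le_mul_of_nonneg_left h3 hsN.le
      simp only [mul_add] at h4
      simp only [hf] at h4 ⊢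
      linarith
    constructor
    · have hm3 : 0 < (w₂ - w₁) / (x - y) := div_pos (by linarith) (by linarith)
      have F3 := piece2 h2 p hpc y (y + 2 * r) (x - 2 * r) w₁ s₃ N ξ _ n23 hNpos hm3 (Or.inl (by
        rw [hs₃]; exact div_le_div_of_nonneg_left (by linarith) hℓ0 (by linarith))) P3
      rw [one_div_div] at F3
      simp only [hf] at htot
      linarith
    · intro hξ
      have F3 := piece1 h1 p hpc y (y + 2 * r) (x - 2 * r) w₁ s₃ N ξ (N * d) n23 hNpos
        (by rw [hs₃]; exact div_nonneg (by linarith) hℓ0.le) (by positivity) (by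
          intro t ht
          have hb := hP3b t ht
          have e : (N : ℝ) * p t - ξ = N * (p t - ξ / N) := by field_simp
          rw [e, abs_mul, abs_of_pos hNpos]
          refine mul_le_mul_of_nonneg_left ?_ hNpos.le
          rw [mem_Icc, not_and_or, not_le, not_le] at hξ
          rcases hξ with hξ | hξ
          · exact le_trans (by linarith [hb.1]) (le_abs_self _)
          · exact le_trans (by linarith [hb.2]) (neg_le_abs _)) P3
      have h5 : √(N : ℝ) * (1 / (N * d)) ≤ ε / 2 := by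
        have h6 : 2 / (d * ε) ≤ √(N : ℝ) := Real.le_sqrt_of_sq_le (by linarith)
        have h7 : √(N : ℝ) * √(N : ℝ) = N := Real.mul_self_sqrt hNpos.le
        have e : √(N : ℝ) * (1 / (N * d)) = 1 / (√(N : ℝ) * d) := by
          conv_lhs => rw [← h7]
          rw [Real.sqrt_mul_self hsN.le]
          field_simp
        rw [e, div_le_iff₀ (by positivity)]
        rw [div_le_iff₀ (by positivity)] at h6
        nlinarith
      have h8 := mul_le_mul_of_nonneg_left F3 hsN.le
      simp only [hf] at htot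
      linarith

end Crest.Agent.R75
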