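import Crest.Agent.R75.GlueB

/-!
# Row 75, module L (glue): `glue_of`.  Author: helper90.
-/

set_option autoImplicit false

open Finset MeasureTheory

namespace Crest.Agent.R75

namespace Glue

/-- A tuple extended by a first value `a` and last values `b`. -/
def ext3 {α : Type*} {n : ℕ} (a : α) (f : Fin n → α) (b : α) : ℕ → α
  | 0 => a
  | k + 1 => if h : k < n then f ⟨k, h⟩ else b

theorem ext3_zero {α : Type*} {n : ℕ} (a : α) (f : Fin n → α) (b : α) : ext3 a f b 0 = a := rfl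

theorem ext3_succ {α : Type*} {n : ℕ} (a : α) (f : Fin n → α) (b : α) {k : ℕ} (h : k < n) :
    ext3 a f b (k + 1) = f ⟨k, h⟩ := by simp [ext3, h]

theorem ext3_last {α : Type*} {n : ℕ} (a : α) (f : Fin n → α) (b : α) :
    ext3 a f b (n + 1) = b := by simp [ext3]

theorem cases3 {n : ℕ} {i : ℕ} (hi : i ≤ n + 1) :
    i = 0 ∨ (∃ k, k < n ∧ i = k + 1) ∨ i = n + 1 := by
  rcases i with _ | k
  · exact Or.inl rfl
  · by_cases h : k < n
    · exact Or.inr (Or.inl ⟨k, h, rfl⟩)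
    · exact Or.inr (Or.inr (by omega))

theorem sum_range_ext3 {M : Type*} [AddCommMonoid M] {n : ℕ} (F : ℕ → M) (f : Fin n → M)
    (h0 : F 0 = 0) (h1 : F (n + 1) = 0) (hf : ∀ k : Fin n, F (k + 1) = f k) :
    ∑ i ∈ range (n + 1 + 1), F i = ∑ k, f k := by
  rw [Finset.sum_range_succ, Finset.sum_range_succ', h0, h1, add_zero, add_zero,
    Finset.sum_range]
  exact Finset.sum_congr rfl fun k _ => hf k

theorem telescope (X Y : ℕ → ℝ) (m : ℕ) :
    ∑ i ∈ range m, (X (i + 1) - Y i) + ∑ i ∈ range (m + 1), (Y i - X i) = Y m - X 0 := by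
  induction m with
  | zero => simp
  | succ m ih => rw [Finset.sum_range_succ, Finset.sum_range_succ _ (m + 1)]; linarith

theorem exists_sorted {ι : Type} [Fintype ι] (x y : ι → ℝ) (hxy : ∀ j, x j < y j)
    (hd : ∀ i j, i ≠ j → y i < x j ∨ y j < x i) :
    ∃ e : Fin (Fintype.card ι) ≃ ι, ∀ k l, k < l → y (e k) < x (e l) := by
  let e₀ := (Fintype.equivFin ι).symm
  refine ⟨(Tuple.sort (x ∘ e₀)).trans e₀, fun k l hkl => ?_⟩
  have hmono := Tuple.monotone_sort (x ∘ e₀) hkl.le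
  simp only [Function.comp_apply] at hmono
  simp only [Equiv.trans_apply]
  rcases hd (e₀ (Tuple.sort (x ∘ e₀) k)) (e₀ (Tuple.sort (x ∘ e₀) l))
    (fun h => hkl.ne ((Tuple.sort (x ∘ e₀)).injective (e₀.injective h))) with h | h
  · exact h
  · linarith [hxy (e₀ (Tuple.sort (x ∘ e₀) l))]

/-- The sorted core, transported to an arbitrary finite index type. -/
theorem core' (hG : GapStmt) {δ ε : ℝ} (hδ : 0 < δ) (hδ' : δ < 1 / 10) (hε : 0 < ε)
    (ι : Type) [Fintype ι] (x y : ι → ℝ) (P p : ι → ℝ → ℝ) (L : ℝ)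
    (hxy : ∀ j, 0 < x j ∧ x j < y j ∧ y j < 1 / 2)
    (hd : ∀ i j, i ≠ j → y i < x j ∨ y j < x i)
    (htot : 1 / 2 - ε ^ 2 / 1000 ≤ ∑ j, (y j - x j))
    (hP : ∀ j t, HasDerivAt (P j) (p j t) t)
    (hp : ∀ j t u, |p j t - p j u| ≤ L * |t - u|)
    (hpr : ∀ j, ∀ t ∈ Set.Icc (x j) (y j), 3 * δ ≤ p j t ∧ p j t ≤ 1 - δ) :
    ∃ (L' : ℝ) (N₀ : ℕ), 0 ≤ L' ∧ ∀ N ≥ N₀, ∀ C : ι → ℝ,
      ∃ q : ℝ → ℝ, Lip L' q ∧ (∀ t ∈ Set.Icc (0 : ℝ) (1 / 2), δ ≤ q t ∧ q t ≤ 1 - δ) ∧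
        ee (N * ∫ u in (0 : ℝ)..(1 / 2), q u) = 1 ∧
        ∀ ξ : ℝ, √(N : ℝ) * ‖osc N q 0 (1 / 2) ξ -
          ∑ j, ∫ t in x j..y j, ee (N * P j t + C j - ξ * t)‖ ≤ ε / 2 := by
  obtain ⟨n, e, he⟩ : ∃ (n : ℕ) (e : Fin n ≃ ι), ∀ k l, k < l → y (e k) < x (e l) :=
    ⟨_, exists_sorted x y (fun j => (hxy j).2.1) hd⟩
  set X : ℕ → ℝ := ext3 0 (fun k => x (e k)) (1 / 2) with hX
  set Y : ℕ → ℝ := ext3 0 (fun k => y (e k)) (1 / 2) with hY
  set PP : ℕ → ℝ → ℝ := ext3 (fun t => t / 2) (fun k => P (e k)) (fun t => (t - 1 / 2) / 2)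
    with hPP
  set pp : ℕ → ℝ → ℝ := ext3 (fun _ => 1 / 2) (fun k => p (e k)) (fun _ => 1 / 2) with hpp
  have hhalf : 3 * δ ≤ (1 / 2 : ℝ) ∧ (1 / 2 : ℝ) ≤ 1 - δ := ⟨by linarith, by linarith⟩
  obtain ⟨L', N₀, hL', h⟩ := core hG hδ hδ' hε X Y PP pp |L| (n + 1) rfl rfl
    (by simp [hPP, ext3_zero]) (ext3_last _ _ _) (by simp [hPP, ext3_last])
    (fun i hi => by
      rcases cases3 hi with rfl | ⟨k, hk, rfl⟩ | rfl
      · exact le_rfl
      · simp only [hX, hY, ext3_succ _ _ _ hk]; exact (hxy _).2.1.le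
      · simp only [hX, hY, ext3_last]; exact le_rfl)
    (fun i hi => by
      rcases cases3 hi.le with rfl | ⟨k, hk, rfl⟩ | rfl
      · by_cases h0 : 0 < n
        · simp only [hX, hY, ext3_zero, ext3_succ _ _ _ h0]; exact (hxy _).1
        · have : n = 0 := by omega
          simp only [hX, hY, ext3_zero, ext3, this]; norm_num
      · by_cases h0 : k + 1 < n
        · simp only [hX, hY, ext3_succ _ _ _ hk, ext3_succ _ _ _ h0]
          exact he _ _ (Fin.mk_lt_mk.2 (Nat.lt_succ_self k))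
        · simp only [hX, hY, ext3_succ _ _ _ hk, ext3, h0, dite_false]
          exact (hxy _).2.2
      · exact absurd hi (lt_irrefl _))
    (by
      have h1 := telescope X Y (n + 1)
      rw [sum_range_ext3 (fun i => Y i - X i) (fun k => y (e k) - x (e k))
        (by simp [hX, hY, ext3_zero]) (by simp [hX, hY, ext3_last])
        (fun k => by simp only [hX, hY, ext3_succ _ _ _ k.2]),
        e.sum_comp (fun j => y j - x j)] at h1
      have h2 : Y (n + 1) - X 0 = 1 / 2 := by simp [hX, hY, ext3_last, ext3_zero]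
      linarith)
    (fun i hi t => by
      rcases cases3 hi with rfl | ⟨k, hk, rfl⟩ | rfl
      · simp only [hPP, hpp, ext3_zero]
        exact (hasDerivAt_id t).div_const 2
      · simp only [hPP, hpp, ext3_succ _ _ _ hk]; exact hP _ t
      · simp only [hPP, hpp, ext3_last]
        exact ((hasDerivAt_id t).sub_const _).div_const 2)
    (fun i hi => by
      rcases cases3 hi with rfl | ⟨k, hk, rfl⟩ | rfl
      · exact lip_const (abs_nonneg L) _
      · simp only [hpp, ext3_succ _ _ _ hk]; exact Lip.mono (hp _) (le_abs_self L)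
      · simp only [hpp, ext3_last]; exact lip_const (abs_nonneg L) _)
    (fun i hi t ht => by
      rcases cases3 hi with rfl | ⟨k, hk, rfl⟩ | rfl
      · exact hhalf
      · simp only [hX, hY, hpp, ext3_succ _ _ _ hk] at ht ⊢; exact hpr _ t ht
      · simp only [hpp, ext3_last]; exact hhalf)
  refine ⟨L', N₀, hL', fun N hN C => ?_⟩
  obtain ⟨q, h1, h2, h3, h4⟩ := h N hN (ext3 0 (fun k => C (e k)) 0) rfl (ext3_last _ _ _)
  refine ⟨q, h1, h2, h3, fun ξ => ?_⟩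
  have h5 := h4 ξ
  rw [sum_range_ext3 (fun i => ∫ t in X i..Y i,
      ee (N * PP i t + ext3 0 (fun k => C (e k)) 0 i - ξ * t))
    (fun k => ∫ t in x (e k)..y (e k), ee (N * P (e k) t + C (e k) - ξ * t))
    (by simp [hX, hY, ext3_zero]) (by simp [hX, hY, ext3_last])
    (fun k => by simp only [hX, hY, hPP, ext3_succ _ _ _ k.2]),
    e.sum_comp (fun j => ∫ t in x j..y j, ee (N * P j t + C j - ξ * t))] at h5
  exact h5

end Glue

open Glue in
theorem glue_of (hG : GapStmt) (hK : KernelStmt) : GlueStmt := by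
  intro δ ε hδ hδ' hε
  refine ⟨ε ^ 2 / 1000, by positivity, fun ι _ x y P p L hxy hd htot hP hp hpr => ?_⟩
  obtain ⟨L', N₁, hL', hcore⟩ := core' hG hδ hδ' hε ι x y P p L hxy hd htot hP hp hpr
  obtain ⟨ρ, K, hρ, hK0, N₂, hker⟩ := hK δ ε hδ (by linarith) hε
  obtain ⟨N₃, hN₃⟩ := exists_nat_gt (2 * Real.pi * (L' * K ^ 2) / ρ)
  refine ⟨max N₁ (max N₂ (N₃ + 1)), fun N hN C => ?_⟩
  have hN1 : N₁ ≤ N := le_trans (le_max_left _ _) hN
  have hN2 : N₂ ≤ N := le_trans ((le_max_left _ _).trans (le_max_right _ _)) hN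
  have hN3 : N₃ + 1 ≤ N := le_trans ((le_max_right _ _).trans (le_max_right _ _)) hN
  have hNpos : (0 : ℝ) < N := by exact_mod_cast (by omega : 0 < N)
  have hN3' : (N₃ : ℝ) ≤ N := by exact_mod_cast (by omega : N₃ ≤ N)
  obtain ⟨q, hq, hqr, hqφ, hqo⟩ := hcore N hN1 C
  obtain ⟨w, hwm, hwp, hwn, hwl, hwc⟩ := periodise hL' N hNpos hq hqr hqφ
  obtain ⟨v, hv, hvw⟩ := hker N hN2
  have happ := hvw w hwm hwp (fun t => (hwn t).le) (fun t => by
    obtain ⟨ξ, h1, h2, h3⟩ := hwl t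
    refine ⟨ξ, h1, h2, fun s hs => (h3 s).trans ?_⟩
    have h4 : s ^ 2 ≤ (K / N) ^ 2 := by
      rw [← sq_abs]; exact pow_le_pow_left₀ (abs_nonneg _) hs 2
    have h5 : 2 * Real.pi * (L' * K ^ 2) ≤ N * ρ := by
      rw [div_lt_iff₀ hρ] at hN₃
      nlinarith
    calc 2 * Real.pi * (N * (L' * s ^ 2)) ≤ 2 * Real.pi * (N * (L' * (K / N) ^ 2)) := by
          gcongr
      _ = 2 * Real.pi * (L' * K ^ 2) / N := by field_simp
      _ ≤ ρ := by rw [div_le_iff₀ hNpos]; linarith)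
  have hsq : 0 ≤ √(N : ℝ) := Real.sqrt_nonneg _
  refine ⟨fun k => √(N : ℝ) * (v k * (2 * (osc N q 0 (1 / 2) k).re)), fun t => ?_, fun k => ?_⟩
  · have h1 : ∑ k ∈ range N,
        ((√(N : ℝ) * (v k * (2 * (osc N q 0 (1 / 2) k).re)) : ℝ) : ℂ) * ee (k * t) =
        (√(N : ℝ) : ℂ) * ∑ k ∈ range N,
          (v k : ℂ) * (∫ u in (0 : ℝ)..1, w u * ee (-(k * u))) * ee (k * t) := by
      rw [Finset.mul_sum]
      refine Finset.sum_congr rfl fun k _ => ?_
      have := hwc (k : ℤ)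
      simp only [Int.cast_natCast] at this
      rw [this]
      push_cast
      ring
    rw [h1, norm_mul, Complex.norm_real, Real.norm_of_nonneg hsq]
    have h2 := (abs_norm_sub_norm_le _ _).trans (happ t)
    rw [hwn t] at h2
    rw [← mul_sub_one, abs_mul, abs_of_nonneg hsq, mul_comm]
    exact mul_le_mul_of_nonneg_right h2 hsq
  · set Z := osc N q 0 (1 / 2) k with hZ
    set M := ∑ j, ∫ t in x j..y j, ee (N * P j t + C j - k * t) with hM
    have h1 : √(N : ℝ) * ‖Z - M‖ ≤ ε / 2 := hqo k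
    have h2 : |Z.re - M.re| ≤ ‖Z - M‖ := by
      rw [← Complex.sub_re]; exact Complex.abs_re_le_norm _
    have h3 : |√(N : ℝ) * (v k * (2 * Z.re))| ≤ |√(N : ℝ) * (2 * Z.re)| := by
      rw [abs_mul, abs_mul, abs_mul (√(N : ℝ)), abs_of_nonneg (hv k).1]
      refine mul_le_mul_of_nonneg_left ?_ (abs_nonneg _)
      exact mul_le_of_le_one_left (abs_nonneg _) (hv k).2
    have h4 : √(N : ℝ) * (2 * Z.re) =
        2 * ((√(N : ℝ) : ℂ) * M).re + 2 * (√(N : ℝ) * (Z.re - M.re)) := by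
      rw [Complex.re_ofReal_mul]; ring
    refine h3.trans ?_
    rw [h4]
    refine (abs_add_le _ _).trans (add_le_add le_rfl ?_)
    rw [abs_mul, abs_mul, abs_of_nonneg hsq, abs_two]
    nlinarith [mul_le_mul_of_nonneg_left h2 hsq]

end Crest.Agent.R75
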