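import Crest.Agent.R75.Defs

/-!
# Row 75, module L (glue), part A: appending Lipschitz pieces and periodisation.
Author: helper90.
-/

set_option autoImplicit false

open Finset MeasureTheory

namespace Crest.Agent.R75.Glue

/-- Lipschitz condition in the form used by the module statements. -/
def Lip (L : ℝ) (q : ℝ → ℝ) : Prop := ∀ t u, |q t - q u| ≤ L * |t - u|

theorem Lip.mono {L L' : ℝ} {q : ℝ → ℝ} (h : Lip L q) (hL : L ≤ L') : Lip L' q :=
  fun t u => (h t u).trans (mul_le_mul_of_nonneg_right hL (abs_nonneg _))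

theorem Lip.continuous {L : ℝ} {q : ℝ → ℝ} (h : Lip L q) : Continuous q := by
  have : LipschitzWith (Real.toNNReal L) q := by
    refine LipschitzWith.of_dist_le_mul fun t u => ?_
    rw [Real.dist_eq, Real.dist_eq]
    exact (h t u).trans (mul_le_mul_of_nonneg_right (Real.le_coe_toNNReal L) (abs_nonneg _))
  exact this.continuous

theorem lip_const {L : ℝ} (hL : 0 ≤ L) (c : ℝ) : Lip L (fun _ => c) := fun t u => by
  simp only [sub_self, abs_zero]; positivity

/-- `q` up to `b`, then `r`. -/
noncomputable def app (q r : ℝ → ℝ) (b : ℝ) : ℝ → ℝ := fun t => if t ≤ b then q t else r t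

theorem app_left (q r : ℝ → ℝ) {b t : ℝ} (h : t ≤ b) : app q r b t = q t := by
  simp [app, h]

theorem app_right {q r : ℝ → ℝ} {b t : ℝ} (hb : q b = r b) (h : b ≤ t) : app q r b t = r t := by
  unfold app
  split_ifs with h'
  · rw [le_antisymm h' h, hb]
  · rfl

theorem Lip.app {L : ℝ} {q r : ℝ → ℝ} {b : ℝ} (hq : Lip L q) (hr : Lip L r) (hb : q b = r b) :
    Lip L (app q r b) := by
  have key : ∀ t u, t ≤ b → b ≤ u → |Glue.app q r b t - Glue.app q r b u| ≤ L * |t - u| := by
    intro t u ht hu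
    rw [app_left q r ht, app_right hb hu]
    have h1 := hq t b
    have h2 := hr b u
    rw [abs_of_nonpos (by linarith : t - b ≤ 0)] at h1
    rw [abs_of_nonpos (by linarith : b - u ≤ 0)] at h2
    rw [abs_of_nonpos (by linarith : t - u ≤ 0)]
    calc |q t - r u| = |(q t - q b) + (r b - r u)| := by rw [hb]; ring_nf
      _ ≤ |q t - q b| + |r b - r u| := abs_add_le _ _
      _ ≤ L * -(t - u) := by linarith
  intro t u
  rcases le_total t b with ht | ht <;> rcases le_total u b with hu | hu
  · rw [app_left q r ht, app_left q r hu]; exact hq t u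
  · exact key t u ht hu
  · rw [abs_sub_comm, abs_sub_comm t u]; exact key u t hu ht
  · rw [app_right hb ht, app_right hb hu]; exact hr t u

/-- The oscillatory integral of the phase `N ∫ q` over `[a, b]` against the frequency `ξ`. -/
noncomputable def osc (N : ℝ) (q : ℝ → ℝ) (a b ξ : ℝ) : ℂ :=
  ∫ t in a..b, ee (N * (∫ u in a..t, q u) - ξ * t)

theorem continuous_prim {q : ℝ → ℝ} (hq : Continuous q) (a : ℝ) :
    Continuous fun t => ∫ u in a..t, q u :=
  continuous_iff_continuousAt.2 fun t =>
    (intervalIntegral.integral_hasDerivAt_right (hq.intervalIntegrable a t)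
      (hq.stronglyMeasurableAtFilter _ _) hq.continuousAt).continuousAt

theorem integral_app_left {q r : ℝ → ℝ} {a b t : ℝ} (ha : a ≤ b) (ht : t ≤ b) :
    ∫ u in a..t, app q r b u = ∫ u in a..t, q u := by
  refine intervalIntegral.integral_congr fun u hu => app_left q r ?_
  rcases Set.mem_uIcc.1 hu with h | h <;> linarith [h.1, h.2]

theorem integral_app_right {L : ℝ} {q r : ℝ → ℝ} {a b t : ℝ} (hq : Lip L q) (hr : Lip L r)
    (hb : q b = r b) (ha : a ≤ b) (ht : b ≤ t) :
    ∫ u in a..t, app q r b u = (∫ u in a..b, q u) + ∫ u in b..t, r u := by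
  have hc := (hq.app hr hb).continuous
  rw [← intervalIntegral.integral_add_adjacent_intervals (b := b) (hc.intervalIntegrable _ _)
    (hc.intervalIntegrable _ _), integral_app_left ha le_rfl]
  congr 1
  refine intervalIntegral.integral_congr fun u hu => app_right hb ?_
  rcases Set.mem_uIcc.1 hu with h | h <;> linarith [h.1, h.2]

theorem osc_app {L : ℝ} (N : ℝ) {q r : ℝ → ℝ} {a b c : ℝ} (hq : Lip L q) (hr : Lip L r)
    (hb : q b = r b) (ha : a ≤ b) (hc : b ≤ c) (ξ : ℝ) :
    osc N (app q r b) a c ξ = osc N q a b ξ + ee (N * ∫ u in a..b, q u) * osc N r b c ξ := by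
  have hcont : Continuous fun t => ee (N * (∫ u in a..t, app q r b u) - ξ * t) := by
    have := continuous_prim (hq.app hr hb).continuous a
    fun_prop
  unfold osc
  rw [← intervalIntegral.integral_add_adjacent_intervals (b := b) (hcont.intervalIntegrable _ _)
    (hcont.intervalIntegrable _ _), ← intervalIntegral.integral_const_mul]
  congr 1
  · refine intervalIntegral.integral_congr fun t ht => ?_
    have : t ≤ b := by rcases Set.mem_uIcc.1 ht with h | h <;> linarith [h.1, h.2]
    simp only [integral_app_left ha this]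
  · refine intervalIntegral.integral_congr fun t ht => ?_
    have : b ≤ t := by rcases Set.mem_uIcc.1 ht with h | h <;> linarith [h.1, h.2]
    simp only [integral_app_right hq hr hb ha this, ← ee_add]
    congr 1; ring

/-- Distance to the nearest integer. -/
noncomputable def nd (t : ℝ) : ℝ := ‖(t : UnitAddCircle)‖

theorem nd_nonneg (t : ℝ) : 0 ≤ nd t := norm_nonneg _

theorem nd_le (t : ℝ) : nd t ≤ 1 / 2 := by
  have := AddCircle.norm_le_half_period (1 : ℝ) (x := (t : UnitAddCircle)) one_ne_zero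
  simpa [nd] using this

theorem nd_neg (t : ℝ) : nd (-t) = nd t := by simp [nd]

theorem nd_add_one (t : ℝ) : nd (t + 1) = nd t := by simp [nd]

theorem nd_eq {t : ℝ} (h0 : 0 ≤ t) (h1 : t ≤ 1 / 2) : nd t = t := by
  have := (AddCircle.norm_coe_eq_abs_iff (1 : ℝ) (x := t) one_ne_zero).2
    (by rw [abs_of_nonneg h0, abs_one]; exact h1)
  rw [nd, this, abs_of_nonneg h0]

theorem abs_nd_sub (t u : ℝ) : |nd t - nd u| ≤ |t - u| := by
  refine (abs_norm_sub_norm_le _ _).trans ?_
  rw [← AddCircle.coe_sub]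
  exact QuotientAddGroup.norm_mk_le_norm

/-- Periodisation: the unimodular function attached to a Lipschitz frequency on `[0, 1/2]`. -/
theorem periodise {L δ : ℝ} (hL : 0 ≤ L) (N : ℝ) (hN : 0 < N) {q : ℝ → ℝ} (hq : Lip L q)
    (hr : ∀ t ∈ Set.Icc (0 : ℝ) (1 / 2), δ ≤ q t ∧ q t ≤ 1 - δ)
    (hph : ee (N * ∫ u in (0 : ℝ)..(1 / 2), q u) = 1) :
    ∃ w : ℝ → ℂ, Measurable w ∧ Function.Periodic w 1 ∧ (∀ t, ‖w t‖ = 1) ∧
      (∀ t, ∃ x : ℝ, δ * N ≤ x ∧ x ≤ (1 - δ) * N ∧ ∀ s : ℝ,
        ‖w (t + s) - w t * ee (x * s)‖ ≤ 2 * Real.pi * (N * (L * s ^ 2))) ∧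
      ∀ ξ : ℤ, ∫ u in (0 : ℝ)..1, w u * ee (-(ξ * u)) =
        ((2 * (osc N q 0 (1 / 2) ξ).re : ℝ) : ℂ) := by
  set Q : ℝ → ℝ := fun t => q (nd t) with hQ
  have hQL : Lip L Q := fun t u =>
    (hq _ _).trans (mul_le_mul_of_nonneg_left (abs_nd_sub t u) hL)
  have hQc := hQL.continuous
  have hQi : ∀ a b, IntervalIntegrable Q volume a b := fun a b => hQc.intervalIntegrable a b
  have hQp : Function.Periodic Q 1 := fun t => by simp only [hQ, nd_add_one]
  have hQe : ∀ t, Q (-t) = Q t := fun t => by simp only [hQ, nd_neg]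
  set A : ℝ → ℝ := fun t => ∫ u in (0 : ℝ)..t, Q u with hA
  have hAc : Continuous A := continuous_prim hQc 0
  have hAodd : ∀ t, A (-t) = -A t := by
    intro t
    have h1 : ∫ u in (0 : ℝ)..t, Q (-u) = ∫ u in -t..-0, Q u := intervalIntegral.integral_comp_neg Q
    simp only [hQe, neg_zero] at h1
    simp only [hA]
    rw [h1, intervalIntegral.integral_symm]
  have hAq : ∀ t ∈ Set.Icc (0 : ℝ) (1 / 2), A t = ∫ u in (0 : ℝ)..t, q u := by
    intro t ht
    refine intervalIntegral.integral_congr fun u hu => ?_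
    rw [Set.uIcc_of_le ht.1] at hu
    simp only [hQ, nd_eq hu.1 (hu.2.trans ht.2)]
  have hAsub : ∀ s t, A t - A s = ∫ u in s..t, Q u := fun s t =>
    intervalIntegral.integral_interval_sub_left (hQi _ _) (hQi _ _)
  have hA1 : ∀ t, A (t + 1) = A t + (A (1 / 2) + A (1 / 2)) := by
    intro t
    have h1 := hAsub t (t + 1)
    rw [hQp.intervalIntegral_add_eq t (-(1 / 2)), ← hAsub, hAodd] at h1
    norm_num at h1 ⊢
    linarith
  have hhalf : ee (N * A (1 / 2)) = 1 := by
    rw [hAq _ ⟨by norm_num, le_rfl⟩, hph]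
  have hwp : Function.Periodic (fun t => ee (N * A t)) 1 := by
    intro t
    simp only [hA1, mul_add, ee_add, hhalf, mul_one]
  refine ⟨fun t => ee (N * A t), (by fun_prop : Continuous fun t => ee (N * A t)).measurable,
    hwp, fun t => norm_ee _, fun t => ⟨N * Q t, ?_, ?_, fun s => ?_⟩, fun ξ => ?_⟩
  · have := (hr _ ⟨nd_nonneg t, nd_le t⟩).1
    rw [mul_comm δ]; exact mul_le_mul_of_nonneg_left this hN.le
  · have := (hr _ ⟨nd_nonneg t, nd_le t⟩).2
    rw [mul_comm (1 - δ)]; exact mul_le_mul_of_nonneg_left this hN.le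
  · rw [← ee_add]
    refine (norm_ee_sub_ee_le _ _).trans (mul_le_mul_of_nonneg_left ?_ (by positivity))
    have h1 : N * A (t + s) - (N * A t + N * Q t * s) = N * ∫ u in t..(t + s), (Q u - Q t) := by
      rw [intervalIntegral.integral_sub (hQi _ _) intervalIntegrable_const, ← hAsub]
      simp only [intervalIntegral.integral_const, add_sub_cancel_left, smul_eq_mul]
      ring
    rw [h1, abs_mul, abs_of_pos hN]
    refine mul_le_mul_of_nonneg_left ?_ hN.le
    have h2 := intervalIntegral.norm_integral_le_of_norm_le_const (a := t) (b := t + s)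
      (C := L * |s|) (f := fun u => Q u - Q t) (fun u hu => by
        refine (hQL u t).trans (mul_le_mul_of_nonneg_left ?_ hL)
        have := Set.abs_sub_left_of_mem_uIcc (Set.uIoc_subset_uIcc hu)
        simpa using this)
    rw [add_sub_cancel_left, Real.norm_eq_abs, mul_assoc, ← sq, sq_abs] at h2
    exact h2
  · set h : ℝ → ℂ := fun u => ee (N * A u) * ee (-(ξ * u)) with hh
    have hhc : Continuous h := by simp only [hh]; fun_prop
    have hhp : Function.Periodic h 1 := by
      intro u
      have h1 : -((ξ : ℝ) * (u + 1)) = -(ξ * u) + ((-ξ : ℤ) : ℝ) := by push_cast; ring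
      have h2 := hwp u
      simp only at h2
      simp only [hh, h2, h1, ee_add_intCast]
    have hconj : ∀ u, h (-u) = (starRingEnd ℂ) (h u) := by
      intro u
      simp only [hh, hAodd, map_mul, ← ee_neg, mul_neg]
    have hZ : ∫ u in (0 : ℝ)..(1 / 2), h u = osc N q 0 (1 / 2) ξ := by
      refine intervalIntegral.integral_congr fun u hu => ?_
      rw [Set.uIcc_of_le (by norm_num)] at hu
      simp only [hh, hAq u hu, ← ee_add, sub_eq_add_neg]
    have h1 : ∫ u in (0 : ℝ)..1, h u = ∫ u in (-(1 / 2) : ℝ)..(1 / 2), h u := by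
      have := hhp.intervalIntegral_add_eq 0 (-(1 / 2))
      norm_num at this ⊢
      exact this
    have h2 : ∫ u in (-(1 / 2) : ℝ)..0, h u = (starRingEnd ℂ) (osc N q 0 (1 / 2) ξ) := by
      rw [← hZ, ← intervalIntegral.intervalIntegral_conj]
      simp only [← hconj]
      rw [intervalIntegral.integral_comp_neg, neg_zero]
    change ∫ u in (0 : ℝ)..1, h u = _
    rw [h1, ← intervalIntegral.integral_add_adjacent_intervals (b := 0)
      (hhc.intervalIntegrable _ _) (hhc.intervalIntegrable _ _), h2, hZ, add_comm,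
      Complex.add_conj]

end Crest.Agent.R75.Glue
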