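import Crest.Agent.R75.GlueA

/-!
# Row 75, module L (glue), part B: chaining arcs and gaps.  Author: helper90.
-/

set_option autoImplicit false

open Finset MeasureTheory

namespace Crest.Agent.R75.Glue

theorem chain {L δ N : ℝ} (X Y : ℕ → ℝ) (P p g : ℕ → ℝ → ℝ) (C : ℕ → ℝ) (m : ℕ)
    (hX0 : X 0 = 0) (hY0 : Y 0 = 0) (hΦ0 : N * P 0 0 + C 0 = 0)
    (hXY : ∀ i ≤ m, X i ≤ Y i) (hYX : ∀ i < m, Y i ≤ X (i + 1))
    (hP : ∀ i ≤ m, ∀ t, HasDerivAt (P i) (p i t) t) (hp : ∀ i ≤ m, Lip L (p i))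
    (hpr : ∀ i ≤ m, ∀ t ∈ Set.Icc (X i) (Y i), δ ≤ p i t ∧ p i t ≤ 1 - δ)
    (hg : ∀ i < m, Lip L (g i)) (hgL : ∀ i < m, g i (Y i) = p i (Y i))
    (hgR : ∀ i < m, g i (X (i + 1)) = p (i + 1) (X (i + 1)))
    (hgr : ∀ i < m, ∀ t, δ ≤ g i t ∧ g i t ≤ 1 - δ)
    (hgφ : ∀ i < m, ∃ l : ℤ, N * ∫ t in Y i..X (i + 1), g i t =
      (N * P (i + 1) (X (i + 1)) + C (i + 1)) - (N * P i (Y i) + C i) + l) :
    ∃ q : ℝ → ℝ, Lip L q ∧ 0 ≤ Y m ∧ (∀ t ∈ Set.Icc 0 (Y m), δ ≤ q t ∧ q t ≤ 1 - δ) ∧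
      q (Y m) = p m (Y m) ∧ ee (N * ∫ u in (0 : ℝ)..Y m, q u) = ee (N * P m (Y m) + C m) ∧
      ∀ ξ : ℝ, ‖osc N q 0 (Y m) ξ -
          ∑ i ∈ range (m + 1), ∫ t in X i..Y i, ee (N * P i t + C i - ξ * t)‖ ≤
        ∑ i ∈ range m, ‖osc N (g i) (Y i) (X (i + 1)) ξ‖ := by
  induction m with
  | zero =>
    refine ⟨p 0, hp 0 le_rfl, hY0.ge, fun t ht => hpr 0 le_rfl t (by rwa [hX0]), rfl, ?_,
      fun ξ => ?_⟩
    · rw [hY0, hΦ0]; simp
    · simp [osc, hX0, hY0]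
  | succ m ih =>
    obtain ⟨q, hq, hY, hqr, hqe, hqφ, hqo⟩ := ih (fun i hi => hXY i (by omega))
      (fun i hi => hYX i (by omega)) (fun i hi => hP i (by omega)) (fun i hi => hp i (by omega))
      (fun i hi => hpr i (by omega)) (fun i hi => hg i (by omega)) (fun i hi => hgL i (by omega))
      (fun i hi => hgR i (by omega)) (fun i hi => hgr i (by omega)) (fun i hi => hgφ i (by omega))
    have hm : m < m + 1 := Nat.lt_succ_self m
    have h1 : Y m ≤ X (m + 1) := hYX m hm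
    have h2 : X (m + 1) ≤ Y (m + 1) := hXY (m + 1) le_rfl
    have hb1 : q (Y m) = g m (Y m) := by rw [hqe, hgL m hm]
    have hq1 : Lip L (app q (g m) (Y m)) := hq.app (hg m hm) hb1
    have hb2 : app q (g m) (Y m) (X (m + 1)) = p (m + 1) (X (m + 1)) := by
      rw [app_right hb1 h1, hgR m hm]
    have hpl := hp (m + 1) le_rfl
    have hftc : ∀ t, ∫ u in X (m + 1)..t, p (m + 1) u = P (m + 1) t - P (m + 1) (X (m + 1)) :=
      fun t => intervalIntegral.integral_eq_sub_of_hasDerivAt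
        (fun u _ => hP (m + 1) le_rfl u) (hpl.continuous.intervalIntegrable _ _)
    have hφ1 : ee (N * ∫ u in (0 : ℝ)..X (m + 1), app q (g m) (Y m) u) =
        ee (N * P (m + 1) (X (m + 1)) + C (m + 1)) := by
      obtain ⟨l, hl⟩ := hgφ m hm
      rw [integral_app_right hq (hg m hm) hb1 hY h1, mul_add, ee_add, hqφ, hl, ee_add_intCast,
        ← ee_add]
      congr 1; ring
    refine ⟨app (app q (g m) (Y m)) (p (m + 1)) (X (m + 1)), hq1.app hpl hb2, by linarith,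
      fun t ht => ?_, app_right hb2 h2, ?_, fun ξ => ?_⟩
    · rcases le_total t (X (m + 1)) with h | h
      · rw [app_left _ _ h]
        rcases le_total t (Y m) with h' | h'
        · rw [app_left _ _ h']; exact hqr t ⟨ht.1, h'⟩
        · rw [app_right hb1 h']; exact hgr m hm t
      · rw [app_right hb2 h]; exact hpr (m + 1) le_rfl t ⟨h, ht.2⟩
    · rw [integral_app_right hq1 hpl hb2 (by linarith) h2, mul_add, ee_add, hφ1, hftc, ← ee_add]
      congr 1; ring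
    · rw [osc_app N hq1 hpl hb2 (by linarith) h2, osc_app N hq (hg m hm) hb1 hY h1, hφ1,
        Finset.sum_range_succ _ (m + 1), Finset.sum_range_succ _ m]
      have h3 : ee (N * P (m + 1) (X (m + 1)) + C (m + 1)) *
          osc N (p (m + 1)) (X (m + 1)) (Y (m + 1)) ξ =
          ∫ t in X (m + 1)..Y (m + 1), ee (N * P (m + 1) t + C (m + 1) - ξ * t) := by
        unfold osc
        rw [← intervalIntegral.integral_const_mul]
        refine intervalIntegral.integral_congr fun t _ => ?_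
        simp only [hftc, ← ee_add]
        congr 1; ring
      rw [h3, Finset.sum_range_succ (fun i => ‖osc N (g i) (Y i) (X (i + 1)) ξ‖) m]
      have h4 := hqo ξ
      rw [Finset.sum_range_succ _ m] at h4
      have h5 : ‖ee (N * ∫ u in (0 : ℝ)..Y m, q u) * osc N (g m) (Y m) (X (m + 1)) ξ‖ =
          ‖osc N (g m) (Y m) (X (m + 1)) ξ‖ := by rw [norm_mul, norm_ee, one_mul]
      refine le_trans (le_of_eq ?_) ((norm_add_le _ _).trans (add_le_add h4 h5.le))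
      congr 1; ring

theorem core (hG : GapStmt) {δ ε : ℝ} (hδ : 0 < δ) (hδ' : δ < 1 / 10) (hε : 0 < ε)
    (X Y : ℕ → ℝ) (P p : ℕ → ℝ → ℝ) (L : ℝ) (m : ℕ)
    (hX0 : X 0 = 0) (hY0 : Y 0 = 0) (hP0 : P 0 0 = 0) (hYm : Y m = 1 / 2) (hPm : P m (1 / 2) = 0)
    (hXY : ∀ i ≤ m, X i ≤ Y i) (hYX : ∀ i < m, Y i < X (i + 1))
    (htot : ∑ i ∈ range m, (X (i + 1) - Y i) ≤ ε ^ 2 / 1000)
    (hP : ∀ i ≤ m, ∀ t, HasDerivAt (P i) (p i t) t) (hp : ∀ i ≤ m, Lip L (p i))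
    (hpr : ∀ i ≤ m, ∀ t ∈ Set.Icc (X i) (Y i), 3 * δ ≤ p i t ∧ p i t ≤ 1 - δ) :
    ∃ (L' : ℝ) (N₀ : ℕ), 0 ≤ L' ∧ ∀ N ≥ N₀, ∀ C : ℕ → ℝ, C 0 = 0 → C m = 0 →
      ∃ q : ℝ → ℝ, Lip L' q ∧ (∀ t ∈ Set.Icc (0 : ℝ) (1 / 2), δ ≤ q t ∧ q t ≤ 1 - δ) ∧
        ee (N * ∫ u in (0 : ℝ)..(1 / 2), q u) = 1 ∧
        ∀ ξ : ℝ, √(N : ℝ) * ‖osc N q 0 (1 / 2) ξ -
          ∑ i ∈ range (m + 1), ∫ t in X i..Y i, ee (N * P i t + C i - ξ * t)‖ ≤ ε / 2 := by
  classical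
  have hm : 0 < m := by
    rcases Nat.eq_zero_or_pos m with rfl | h
    · rw [hY0] at hYm; norm_num at hYm
    · exact h
  set G : ℕ → ℝ := fun i => X (i + 1) - Y i with hGdef
  set S : ℕ → ℝ := fun i => ∑ j ∈ range i, G j with hS
  have hGpos : ∀ i < m, 0 < G i := fun i hi => sub_pos.2 (hYX i hi)
  have hSsucc : ∀ i, S (i + 1) = S i + G i := fun i => Finset.sum_range_succ _ _
  have hSmono : ∀ i j, i ≤ j → j ≤ m → S i ≤ S j := by
    intro i j hij hjm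
    refine Finset.sum_le_sum_of_subset_of_nonneg (Finset.range_mono hij) fun k hk _ => ?_
    exact (hGpos k (lt_of_lt_of_le (Finset.mem_range.1 hk) hjm)).le
  have hS0 : ∀ i ≤ m, 0 ≤ S i := fun i hi => by simpa [hS] using hSmono 0 i (Nat.zero_le _) hi
  have hSm : 0 < S m :=
    Finset.sum_pos (fun i hi => hGpos i (Finset.mem_range.1 hi)) (by simp [hm.ne'])
  set β : ℝ := (1 - 4 * δ) / S m with hβ
  have hβpos : 0 < β := div_pos (by linarith) hSm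
  have hβS : β * S m = 1 - 4 * δ := div_mul_cancel₀ _ hSm.ne'
  have hε' : 0 < ε / (4 * m) := by positivity
  have hgap : ∀ i : ℕ, ∃ (Li : ℝ) (Ni : ℕ), i < m → ∀ N ≥ Ni, ∀ φ : ℝ, ∃ g : ℝ → ℝ,
      Lip Li g ∧ g (Y i) = p i (Y i) ∧ g (X (i + 1)) = p (i + 1) (X (i + 1)) ∧
      (∀ t, δ ≤ g t ∧ g t ≤ 1 - δ) ∧ (∃ l : ℤ, N * ∫ t in Y i..X (i + 1), g t = φ + l) ∧
      ∀ ξ : ℝ, √(N : ℝ) * ‖osc N g (Y i) (X (i + 1)) ξ‖ ≤ ε / (4 * m) +
        if 3 * δ + β * S i < ξ / N ∧ ξ / N < 3 * δ + β * S (i + 1) then ε / 4 else 0 := by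
    intro i
    by_cases hi : i < m; swap
    · exact ⟨0, 0, fun h => absurd h hi⟩
    have hGi := hGpos i hi
    have hβG : 0 < β * G i := mul_pos hβpos hGi
    have hβS0 : 0 ≤ β * S i := mul_nonneg hβpos.le (hS0 i hi.le)
    have hβS1 : β * S i + β * G i ≤ 1 - 4 * δ := by
      rw [← mul_add, ← hSsucc, ← hβS]
      exact mul_le_mul_of_nonneg_left (hSmono _ _ hi le_rfl) hβpos.le
    have hL := hpr i hi.le (Y i) ⟨hXY i hi.le, le_rfl⟩
    have hR := hpr (i + 1) hi (X (i + 1)) ⟨le_rfl, hXY (i + 1) hi⟩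
    obtain ⟨Li, Ni, h⟩ := hG δ (Y i) (X (i + 1)) (p i (Y i)) (p (i + 1) (X (i + 1)))
      (3 * δ + β * S i + β * G i / 4) (3 * δ + β * S i + 3 * (β * G i) / 4) (β * G i / 8)
      (ε / (4 * m)) hδ hδ' (hYX i hi) hL.1 hL.2 hR.1 hR.2 (by linarith) (by linarith)
      (by linarith) (by linarith) hε'
    refine ⟨Li, Ni, fun _ N hN φ => ?_⟩
    obtain ⟨g, h1, h2, h3, h4, h5, h6⟩ := h N hN φ
    refine ⟨g, h1, h2, h3, h4, h5, fun ξ => ?_⟩
    split_ifs with hw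
    · refine (h6 ξ).1.trans (add_le_add le_rfl ?_)
      have h7 : (X (i + 1) - Y i) / (3 * δ + β * S i + 3 * (β * G i) / 4 -
          (3 * δ + β * S i + β * G i / 4)) ≤ (ε / 16) ^ 2 := by
        rw [div_le_iff₀ (by linarith)]
        have h8 : S m ≤ ε ^ 2 / 1000 := htot
        have h9 : (3 / 5 : ℝ) ≤ β * (ε ^ 2 / 1000) := by
          have := mul_le_mul_of_nonneg_left h8 hβpos.le
          linarith
        have h10 : X (i + 1) - Y i = G i := rfl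
        rw [h10]
        nlinarith [mul_le_mul_of_nonneg_right h9 hGi.le]
      have := Real.sqrt_le_sqrt h7
      rw [Real.sqrt_sq (by positivity)] at this
      linarith
    · rw [add_zero]
      refine (h6 ξ).2 fun hmem => hw ⟨?_, ?_⟩
      · linarith [hmem.1]
      · rw [hSsucc, mul_add]; linarith [hmem.2]
  choose Li Ni hgap using hgap
  refine ⟨|L| + ∑ i ∈ range m, |Li i|, (range m).sup Ni, by positivity, fun N hN C hC0 hCm => ?_⟩
  have hgap' : ∀ i : ℕ, ∃ g : ℝ → ℝ, i < m →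
      Lip (Li i) g ∧ g (Y i) = p i (Y i) ∧ g (X (i + 1)) = p (i + 1) (X (i + 1)) ∧
      (∀ t, δ ≤ g t ∧ g t ≤ 1 - δ) ∧ (∃ l : ℤ, N * ∫ t in Y i..X (i + 1), g t =
        (N * P (i + 1) (X (i + 1)) + C (i + 1)) - (N * P i (Y i) + C i) + l) ∧
      ∀ ξ : ℝ, √(N : ℝ) * ‖osc N g (Y i) (X (i + 1)) ξ‖ ≤ ε / (4 * m) +
        if 3 * δ + β * S i < ξ / N ∧ ξ / N < 3 * δ + β * S (i + 1) then ε / 4 else 0 := by
    intro i
    by_cases hi : i < m; swap
    · exact ⟨0, fun h => absurd h hi⟩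
    obtain ⟨g, hg⟩ := hgap i hi N ((Finset.le_sup (f := Ni) (Finset.mem_range.2 hi)).trans hN) _
    exact ⟨g, fun _ => hg⟩
  choose g hg using hgap'
  have hsum0 : 0 ≤ ∑ i ∈ range m, |Li i| := by positivity
  obtain ⟨q, hq, -, hqr, -, hqφ, hqo⟩ := chain (L := |L| + ∑ i ∈ range m, |Li i|) (δ := δ)
    (N := N) X Y P p g C m hX0 hY0 (by rw [hP0, hC0]; simp) hXY (fun i hi => (hYX i hi).le) hP
    (fun i hi => (hp i hi).mono (by linarith [le_abs_self L]))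
    (fun i hi t ht => ⟨by linarith [(hpr i hi t ht).1], (hpr i hi t ht).2⟩)
    (fun i hi => (hg i hi).1.mono (by
      have := Finset.single_le_sum (f := fun i => |Li i|) (fun _ _ => abs_nonneg _)
        (Finset.mem_range.2 hi)
      linarith [le_abs_self (Li i), abs_nonneg L]))
    (fun i hi => (hg i hi).2.1) (fun i hi => (hg i hi).2.2.1) (fun i hi => (hg i hi).2.2.2.1)
    (fun i hi => (hg i hi).2.2.2.2.1)
  rw [hYm] at hqr hqφ hqo
  refine ⟨q, hq, hqr, by rw [hqφ, hPm, hCm]; simp, fun ξ => ?_⟩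
  refine (mul_le_mul_of_nonneg_left (hqo ξ) (Real.sqrt_nonneg _)).trans ?_
  rw [Finset.mul_sum]
  refine (Finset.sum_le_sum fun i hi => (hg i (Finset.mem_range.1 hi)).2.2.2.2.2 ξ).trans ?_
  rw [Finset.sum_add_distrib, ← Finset.sum_filter, Finset.sum_const, Finset.sum_const,
    Finset.card_range, nsmul_eq_mul, nsmul_eq_mul]
  have hcard : ((range m).filter fun i =>
      3 * δ + β * S i < ξ / N ∧ ξ / N < 3 * δ + β * S (i + 1)).card ≤ 1 := by
    refine Finset.card_le_one.2 fun i hi j hj => ?_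
    simp only [Finset.mem_filter, Finset.mem_range] at hi hj
    by_contra hne
    rcases lt_or_gt_of_ne hne with h | h
    · have := mul_le_mul_of_nonneg_left (hSmono (i + 1) j h hj.1.le) hβpos.le
      linarith [hi.2.2, hj.2.1]
    · have := mul_le_mul_of_nonneg_left (hSmono (j + 1) i h hi.1.le) hβpos.le
      linarith [hj.2.2, hi.2.1]
  have hcard' : (((range m).filter fun i =>
      3 * δ + β * S i < ξ / N ∧ ξ / N < 3 * δ + β * S (i + 1)).card : ℝ) ≤ 1 := by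
    exact_mod_cast hcard
  have h1 : (m : ℝ) * (ε / (4 * m)) = ε / 4 := by
    have : (m : ℝ) ≠ 0 := by positivity
    field_simp
  rw [h1]
  nlinarith

end Crest.Agent.R75.Glue
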