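import Crest.Agent.R75.KeyAux

/-!
# Row 75, module J: the key proposition
-/

set_option autoImplicit false

open Finset

namespace Crest.Agent.R75

namespace KeyAux

theorem ee_sum {ι : Type} (s : Finset ι) (f : ι → ℝ) : ee (∑ i ∈ s, f i) = ∏ i ∈ s, ee (f i) := by
  classical
  induction s using Finset.induction_on with
  | empty => simp
  | insert j s hj ih => rw [Finset.sum_insert hj, Finset.prod_insert hj, ee_add, ih]

/-- The mass carried by primitive vectors. -/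
theorem mass_bound {M j : ℕ} (hM : 1 ≤ M) (h : ℤ → ℂ) {e : ℝ} (he : e ≤ 1)
    (hmass : 1 - e ≤ ∑ m ∈ oddBox M, ‖h m‖ ^ 2)
    (hg : ∀ g : ℕ, Odd g →
      ∑ m ∈ (oddBox M).filter (fun m => (g : ℤ) ∣ m), ‖h m‖ ^ 2 ≤ 1 / (g : ℝ) ^ 2) :
    (1 - e) ^ (j + 2) - 2 * (2 / 3) ^ j ≤ ∑ m ∈ prim M (j + 1), ∏ i, ‖h (m i)‖ ^ 2 := by
  have h1 := norm_sum_prim_sub_le (R := ℝ) M (j + 1) hM (fun _ m => ‖h m‖ ^ 2)
    (fun g => 1 / (g : ℝ) ^ 2) (fun g => by positivity) (fun g hodd _ => by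
      rw [Real.norm_eq_abs, abs_of_nonneg (by positivity)]
      exact hg g hodd)
  have h2 : ∑ g ∈ Finset.Icc 3 M, (1 / (g : ℝ) ^ 2) ^ (j + 1 + 1) ≤ 2 * (2 / 3) ^ j := by
    refine le_trans (Finset.sum_le_sum fun g hg => ?_) (sum_two_div_pow_le M j)
    have h3 : (3 : ℝ) ≤ g := by exact_mod_cast (Finset.mem_Icc.1 hg).1
    have : 1 / (g : ℝ) ^ 2 ≤ 2 / g := by
      rw [div_le_div_iff₀ (by positivity) (by positivity)]
      nlinarith
    gcongr
  have h3 : (1 - e) ^ (j + 2) ≤ ∏ _i : Fin (j + 1 + 1), ∑ m ∈ oddBox M, ‖h m‖ ^ 2 := by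
    rw [Finset.prod_const, Finset.card_univ, Fintype.card_fin]
    have : 0 ≤ 1 - e := by linarith
    gcongr
  have h4 := (abs_le.1 (h1.trans h2)).1
  linarith

/-- The sup norm bound for the primitive part. -/
theorem sup_bound {M j : ℕ} (hM : 1 ≤ M) (hj : 10 ≤ j) (h : ℤ → ℂ) {e τ η : ℝ} (he : e ≤ 1)
    (hτ : 0 ≤ τ) (hτe : τ ≤ e) (hMτ : M * τ ^ 12 ≤ e) (hη : 0 ≤ η)
    (hg : ∀ g : ℕ, Odd g → ∀ θ : ℝ,
      ‖∑ m ∈ (oddBox M).filter (fun m => (g : ℤ) ∣ m), h m * ee (m * θ)‖ ≤ 1 / g + τ)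
    (b : Fin (j + 2) → ℤ → ℂ) (g ψ θ : Fin (j + 2) → ℝ) (hg0 : ∀ i, 0 ≤ g i) (hg1 : ∀ i, g i ≤ 1)
    (hb : ∀ i, ∀ m ∈ oddBox M, ‖b i m - (g i : ℂ) * ee (m * ψ i)‖ ≤ η) :
    ‖∑ m ∈ prim M (j + 1), ∏ i, h (m i) * ee (m i * θ i) * b i (m i)‖ ≤
      (1 + e) ^ (j + 2) + (2 * (2 / 3) ^ j + 2 ^ (j + 2) * e) +
        (∑ m ∈ oddBox M, ‖h m‖) ^ (j + 2) * ((1 + η) ^ (j + 2) - 1) := by
  have hη1 : 0 ≤ (1 + η) ^ (j + 2) - 1 := by
    have : 1 ≤ (1 + η) ^ (j + 2) := one_le_pow₀ (by linarith)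
    linarith
  -- the main term
  have h1 := norm_sum_prim_sub_le (R := ℂ) M (j + 1) hM (fun i m => h m * ee (m * (θ i + ψ i)))
    (fun g => 1 / (g : ℝ) + τ) (fun g => by positivity) (fun g hodd i => hg g hodd _)
  have h2 := sum_tail_le M j hj τ e hτ (hτe.trans he) hMτ
  have h3 : ‖∏ i : Fin (j + 2), ∑ m ∈ oddBox M, h m * ee (m * (θ i + ψ i))‖ ≤ (1 + e) ^ (j + 2) := by
    rw [norm_prod]
    calc _ ≤ ∏ _i : Fin (j + 2), (1 + e) := by
          refine Finset.prod_le_prod (fun _ _ => norm_nonneg _) fun i _ => ?_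
          have := hg 1 odd_one (θ i + ψ i)
          simp only [Nat.cast_one, one_dvd, Finset.filter_true, div_one] at this
          linarith
      _ = _ := by simp
  have h4 : ‖∑ m ∈ prim M (j + 1), ∏ i, h (m i) * ee (m i * (θ i + ψ i))‖ ≤
      (1 + e) ^ (j + 2) + (2 * (2 / 3) ^ j + 2 ^ (j + 2) * e) := by
    have := norm_add_le (∏ i : Fin (j + 2), ∑ m ∈ oddBox M, h m * ee (m * (θ i + ψ i)))
      (∑ m ∈ prim M (j + 1), ∏ i, h (m i) * ee (m i * (θ i + ψ i)) -
        ∏ i : Fin (j + 2), ∑ m ∈ oddBox M, h m * ee (m * (θ i + ψ i)))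
    rw [add_sub_cancel] at this
    linarith [h1.trans h2]
  have h5 : ‖(∏ i, (g i : ℂ)) * ∑ m ∈ prim M (j + 1), ∏ i, h (m i) * ee (m i * (θ i + ψ i))‖ ≤
      (1 + e) ^ (j + 2) + (2 * (2 / 3) ^ j + 2 ^ (j + 2) * e) := by
    rw [norm_mul]
    have : ‖∏ i, (g i : ℂ)‖ ≤ 1 := by
      rw [norm_prod]
      refine Finset.prod_le_one (fun _ _ => norm_nonneg _) fun i _ => ?_
      rw [Complex.norm_real, Real.norm_eq_abs, abs_of_nonneg (hg0 i)]
      exact hg1 i
    calc _ ≤ 1 * ((1 + e) ^ (j + 2) + (2 * (2 / 3) ^ j + 2 ^ (j + 2) * e)) := by gcongr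
      _ = _ := one_mul _
  -- the error term
  have h6 : ‖∑ m ∈ prim M (j + 1), ∏ i, h (m i) * ee (m i * θ i) * b i (m i) -
      (∏ i, (g i : ℂ)) * ∑ m ∈ prim M (j + 1), ∏ i, h (m i) * ee (m i * (θ i + ψ i))‖ ≤
      (∑ m ∈ oddBox M, ‖h m‖) ^ (j + 2) * ((1 + η) ^ (j + 2) - 1) := by
    rw [Finset.mul_sum, ← Finset.sum_sub_distrib]
    refine (norm_sum_le _ _).trans ?_
    have hterm : ∀ m ∈ prim M (j + 1), ‖∏ i, h (m i) * ee (m i * θ i) * b i (m i) -
        (∏ i, (g i : ℂ)) * ∏ i, h (m i) * ee (m i * (θ i + ψ i))‖ ≤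
        (∏ i, ‖h (m i)‖) * ((1 + η) ^ (j + 2) - 1) := by
      intro m hm
      have e1 : (∏ i, (g i : ℂ)) * ∏ i, h (m i) * ee (m i * (θ i + ψ i)) =
          (∏ i, h (m i) * ee (m i * θ i)) * ∏ i, (g i : ℂ) * ee (m i * ψ i) := by
        rw [← Finset.prod_mul_distrib, ← Finset.prod_mul_distrib]
        refine Finset.prod_congr rfl fun i _ => ?_
        rw [mul_add, ee_add]; ring
      rw [e1, Finset.prod_mul_distrib, ← mul_sub, norm_mul, norm_prod]
      simp only [norm_mul, norm_ee, mul_one]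
      have := norm_prod_sub_prod_le Finset.univ (fun i => b i (m i))
        (fun i => (g i : ℂ) * ee (m i * ψ i)) η hη (fun i _ => by
          rw [norm_mul, norm_ee, mul_one, Complex.norm_real, Real.norm_eq_abs,
            abs_of_nonneg (hg0 i)]
          exact hg1 i) (fun i _ => hb i _ ((mem_prim.1 hm).1 i))
      rw [Finset.card_univ, Fintype.card_fin] at this
      gcongr
    refine (Finset.sum_le_sum hterm).trans ?_
    rw [← Finset.sum_mul]
    gcongr
    have e2 : (∑ m ∈ oddBox M, ‖h m‖) ^ (j + 2) = ∑ m ∈ box M (j + 1), ∏ i, ‖h (m i)‖ := by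
      rw [box, ← Finset.prod_univ_sum (fun _ => oddBox M) (fun _ m => ‖h m‖)]
      simp
    rw [e2]
    exact Finset.sum_le_sum_of_subset_of_nonneg (Finset.filter_subset _ _)
      fun m _ _ => Finset.prod_nonneg fun _ _ => norm_nonneg _
  have := norm_add_le
    ((∏ i, (g i : ℂ)) * ∑ m ∈ prim M (j + 1), ∏ i, h (m i) * ee (m i * (θ i + ψ i)))
    (∑ m ∈ prim M (j + 1), ∏ i, h (m i) * ee (m i * θ i) * b i (m i) -
      (∏ i, (g i : ℂ)) * ∑ m ∈ prim M (j + 1), ∏ i, h (m i) * ee (m i * (θ i + ψ i)))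
  rw [add_sub_cancel] at this
  linarith

end KeyAux

open KeyAux

theorem key_of (hP : PowerStmt) (hS : SquareStmt) : KeyStmt := by
  classical
  intro ε hε
  -- the number of coordinates
  obtain ⟨j, hj, hj2⟩ : ∃ j : ℕ, 10 ≤ j ∧ 2 * (2 / 3 : ℝ) ^ j ≤ ε / 4 := by
    obtain ⟨j, hj⟩ := exists_pow_lt_of_lt_one (show 0 < ε / 8 by positivity)
      (show (2 / 3 : ℝ) < 1 by norm_num)
    refine ⟨j + 10, by omega, ?_⟩
    have : (2 / 3 : ℝ) ^ (j + 10) ≤ (2 / 3) ^ j :=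
      pow_le_pow_of_le_one (by norm_num) (by norm_num) (by omega)
    linarith
  -- the accuracy of the square wave
  obtain ⟨e₁, he₁, he₁', hf₁⟩ := exists_small
    (f := fun x => (1 + x) ^ (j + 2) + 2 ^ (j + 2) * x) (by fun_prop) (c := 1 + ε / 4)
    (by simpa using hε)
  obtain ⟨e₂, he₂, -, hf₂⟩ := exists_small
    (f := fun x => -(1 - x) ^ (j + 2)) (by fun_prop) (c := -1 + ε / 2) (by simpa using hε)
  have he : 0 < min e₁ e₂ := lt_min he₁ he₂
  have he1 : min e₁ e₂ < 1 := (min_le_left _ _).trans_lt he₁'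
  have hf1 := hf₁ _ he.le (min_le_left e₁ e₂)
  have hf2 := hf₂ _ he.le (min_le_right e₁ e₂)
  generalize min e₁ e₂ = e at he he1 hf1 hf2
  obtain ⟨M, τ, c₀, h, hτ, hτe, hMτ, hc₀, hconj, hnorm, hmass, hg⟩ := hS e he
  have hM : 1 ≤ M := by
    by_contra hM
    have hM0 : M = 0 := by omega
    have : oddBox M = ∅ := by
      refine Finset.eq_empty_of_forall_notMem fun m hm => ?_
      have h1 := natAbs_le_of_mem_oddBox hm
      have h2 := ne_zero_of_mem_oddBox hm
      omega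
    rw [this, Finset.sum_empty] at hmass
    linarith
  -- the accuracy of the flat systems
  obtain ⟨η, hη, -, hf₃⟩ := exists_small
    (f := fun x => (∑ m ∈ oddBox M, ‖h m‖) ^ (j + 2) * ((1 + x) ^ (j + 2) - 1)) (by fun_prop)
    (c := ε / 4) (by simpa using hε)
  have hf3 := hf₃ η hη.le le_rfl
  choose n S β hn hSβ hbconj happ using
    fun i : Fin (j + 2) => signed_system (hP M (if i = 0 then 3 else 2)) hη
  -- the index set and the linear form
  let I : Finset (Σ _ : Fin (j + 2) → ℤ, Fin (j + 2) → ℕ) :=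
    (primPos M (j + 1)).sigma fun m => Fintype.piFinset fun i => S i (m i)
  let v : (Σ _ : Fin (j + 2) → ℤ, Fin (j + 2) → ℕ) → (Fin (j + 2) ⊕ Fin (j + 2) → ℤ) :=
    fun x => Sum.elim x.1 fun i => (x.1 i).sign * x.2 i
  have hI : ∀ x ∈ I, x.1 ∈ primPos M (j + 1) ∧ ∀ i, x.2 i ∈ S i (x.1 i) := by
    intro x hx
    simpa [I] using hx
  obtain ⟨a, ha⟩ := exists_form (((I ×ˢ I).filter fun p => p.1 ≠ p.2).image
    fun p => p.1.1 0 • v p.2 - p.2.1 0 • v p.1) (by
      intro w hw hw0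
      obtain ⟨⟨x, x'⟩, hp, rfl⟩ := Finset.mem_image.1 hw
      obtain ⟨hp, hne⟩ := Finset.mem_filter.1 hp
      obtain ⟨hx, hx'⟩ := Finset.mem_product.1 hp
      apply hne
      have hw1 : ∀ t, x.1 0 * v x' t = x'.1 0 * v x t := fun t => by
        have := congrFun hw0 t
        simpa [sub_eq_zero] using this
      have h0 := eq_of_proportional (hI x hx).1 (hI x' hx').1 fun i => hw1 (Sum.inl i)
      have hpos := (mem_primPos.1 (hI x hx).1).2
      have hv : ∀ t, v x' t = v x t := fun t => by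
        have := hw1 t
        rw [← h0] at this
        exact mul_left_cancel₀ hpos.ne' this
      have h1 : x.1 = x'.1 := funext fun i => (hv (Sum.inl i)).symm
      obtain ⟨m, ξ⟩ := x
      obtain ⟨m', ξ'⟩ := x'
      dsimp only at h1
      subst h1
      have h2 : ξ = ξ' := funext fun i => by
        have h3 : (m i).sign * (ξ' i : ℤ) = (m i).sign * (ξ i : ℤ) := hv (Sum.inr i)
        have h4 : (m i).sign ≠ 0 := by
          simpa using ne_zero_of_mem_oddBox ((mem_primPos.1 (hI _ hx).1).1.1 i)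
        exact_mod_cast (mul_left_cancel₀ h4 h3).symm
      rw [h2])
  have hcast : ∀ x : I, (((x.1.1 0).natAbs : ℕ) : ℤ) = x.1.1 0 := fun x => by
    have := (mem_primPos.1 (hI x x.2).1).2
    omega
  have hcastR : ∀ x : I, (((x.1.1 0).natAbs : ℕ) : ℝ) = (x.1.1 0 : ℝ) := fun x => by
    rw [← Int.cast_natCast, hcast]
  have hc : ∀ x : I, ‖∏ i, h (x.1.1 i) * β i (x.1.1 i) (x.1.2 i)‖ ^ 2 =
      (∏ i, c₀ ^ 2 / n i) * (((x.1.1 0).natAbs : ℕ) : ℝ) := by
    intro x
    have hx := hI x x.2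
    have hbox := (mem_primPos.1 hx.1).1.1
    have h1 : ∀ i, ‖h (x.1.1 i) * β i (x.1.1 i) (x.1.2 i)‖ ^ 2 =
        c₀ ^ 2 / n i * if i = 0 then |(x.1.1 i : ℝ)| else 1 := by
      intro i
      have h0 : |(x.1.1 i : ℝ)| ≠ 0 := by simpa using ne_zero_of_mem_oddBox (hbox i)
      have hn0 := (hn i).ne'
      rw [norm_mul, mul_pow, hnorm _ (hbox i), (hSβ i _ (hbox i)).2 _ (hx.2 i)]
      split_ifs <;> field_simp
    rw [norm_prod, ← Finset.prod_pow]
    simp only [h1]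
    rw [Finset.prod_mul_distrib, Finset.prod_ite_eq']
    simp
  refine ⟨I, inferInstance, fun x => (x.1.1 0).natAbs, fun x => ∑ t, a t * v x t,
    fun x => ∏ i, h (x.1.1 i) * β i (x.1.1 i) (x.1.2 i), ∏ i, c₀ ^ 2 / n i,
    Finset.prod_pos fun i _ => div_pos (by positivity) (hn i), fun x => ?_, fun x x' hxx => ?_,
    hc, ?_, fun θ y => ?_⟩
  · have := (mem_primPos.1 (hI x x.2).1).2
    show 1 ≤ (x.1.1 0).natAbs
    omega
  · by_contra hne
    refine ha (x.1.1 0 • v x' - x'.1.1 0 • v x) (Finset.mem_image.2 ⟨(x, x'), Finset.mem_filter.2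
      ⟨Finset.mem_product.2 ⟨x.2, x'.2⟩, fun h => hne (Subtype.ext h)⟩, rfl⟩) ?_
    rw [hcast, hcast, Finset.mul_sum, Finset.mul_sum, ← sub_eq_zero,
      ← Finset.sum_sub_distrib] at hxx
    rw [← hxx]
    refine Finset.sum_congr rfl fun t _ => ?_
    simp only [Pi.sub_apply, Pi.smul_apply, smul_eq_mul]
    ring
  · have h1 : (∏ i, c₀ ^ 2 / n i) * (2 * ∑ x : I, (((x.1.1 0).natAbs : ℕ) : ℝ)) =
        ∑ m ∈ prim M (j + 1), ∏ i, ‖h (m i)‖ ^ 2 := by
      rw [sum_prim_eq _ (fun m _ => by simp [hconj]), mul_left_comm, Finset.mul_sum]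
      simp only [← hc]
      congr 1
      rw [Finset.sum_coe_sort I fun x => ‖∏ i, h (x.1 i) * β i (x.1 i) (x.2 i)‖ ^ 2,
        Finset.sum_sigma]
      refine Finset.sum_congr rfl fun m hm => ?_
      have hbox := (mem_primPos.1 hm).1.1
      simp only [norm_prod, ← Finset.prod_pow]
      rw [← Finset.prod_univ_sum (fun i => S i (m i)) fun i ξ => ‖h (m i) * β i (m i) ξ‖ ^ 2]
      refine Finset.prod_congr rfl fun i _ => ?_
      simp only [norm_mul, mul_pow]
      rw [← Finset.mul_sum, Finset.sum_congr rfl (hSβ i _ (hbox i)).2, Finset.sum_const,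
        nsmul_eq_mul, (hSβ i _ (hbox i)).1, mul_one]
    rw [h1]
    have h2 := mass_bound (j := j) hM h he1.le hmass fun g hodd => (hg g hodd).1
    linarith
  · let θ' : Fin (j + 2) → ℝ := fun i => (if i = 0 then θ else 0) + a (Sum.inl i) * y
    let y' : Fin (j + 2) → ℝ := fun i => a (Sum.inr i) * y
    let b : Fin (j + 2) → ℤ → ℂ := fun i m =>
      ∑ ξ ∈ S i m, β i m ξ * ee ((m.sign * ξ : ℤ) * y' i)
    choose g ψ hg0 hg1 hb using fun i => happ i (y' i)
    have h1 : ∑ x : I, 2 * ((∏ i, h (x.1.1 i) * β i (x.1.1 i) (x.1.2 i)) *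
        ee ((((x.1.1 0).natAbs : ℕ) : ℝ) * θ + ((∑ t, a t * v x t : ℤ) : ℝ) * y)).re =
        (∑ m ∈ prim M (j + 1), ∏ i, h (m i) * ee (m i * θ' i) * b i (m i)).re := by
      rw [Complex.re_sum, sum_prim_eq, ← Finset.mul_sum]
      · congr 1
        simp only [hcastR]
        rw [Finset.sum_coe_sort I fun x => ((∏ i, h (x.1 i) * β i (x.1 i) (x.2 i)) *
          ee ((x.1 0 : ℝ) * θ + ((∑ t, a t * v x t : ℤ) : ℝ) * y)).re, Finset.sum_sigma]
        refine Finset.sum_congr rfl fun m _ => ?_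
        rw [← Complex.re_sum]
        congr 1
        simp only [b, Finset.mul_sum]
        rw [Finset.prod_univ_sum]
        refine Finset.sum_congr rfl fun ξ _ => ?_
        have e1 : (m 0 : ℝ) * θ + ((∑ t, a t * v ⟨m, ξ⟩ t : ℤ) : ℝ) * y =
            ∑ i, ((m i : ℝ) * θ' i + (((m i).sign * ξ i : ℤ) : ℝ) * y' i) := by
          simp only [θ', y', v, Fintype.sum_sum_type, Sum.elim_inl, Sum.elim_inr, mul_add,
            Finset.sum_add_distrib, mul_ite, mul_zero, Finset.sum_ite_eq', Finset.mem_univ,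
            if_true]
          push_cast
          rw [add_mul, Finset.sum_mul, Finset.sum_mul, ← add_assoc ((m 0 : ℝ) * θ)]
          congr 1
          · congr 1
            exact Finset.sum_congr rfl fun i _ => by ring
          · exact Finset.sum_congr rfl fun i _ => by ring
        rw [e1, ee_sum, ← Finset.prod_mul_distrib]
        refine Finset.prod_congr rfl fun i _ => ?_
        rw [ee_add]; ring
      · intro m hm
        have hbox := (mem_prim.1 hm).1
        rw [← Complex.conj_re (∏ i, h (m i) * ee (m i * θ' i) * b i (m i)), map_prod]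
        congr 1
        refine Finset.prod_congr rfl fun i _ => ?_
        rw [map_mul, map_mul, ← ee_neg, ← hconj, Pi.neg_apply]
        simp only [b]
        rw [hbconj i _ (hbox i)]
        congr 3
        push_cast; ring
    rw [h1]
    refine (Complex.abs_re_le_norm _).trans ?_
    have h2 := sup_bound hM hj h he1.le hτ hτe hMτ hη.le (fun g hodd => (hg g hodd).2) b g ψ θ'
      hg0 hg1 hb
    linarith

end Crest.Agent.R75
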