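import Crest.Agent.R75.Defs

/-!
# Row 75, module J: auxiliary lemmas (primitive vectors, Moebius inversion, numerics)
-/

set_option autoImplicit false

open Finset

namespace Crest.Agent.R75.KeyAux

theorem mem_oddBox {M : ℕ} {m : ℤ} : m ∈ oddBox M ↔ (-(M : ℤ) ≤ m ∧ m ≤ M) ∧ Odd m := by
  simp [oddBox]

theorem neg_mem_oddBox {M : ℕ} {m : ℤ} (h : m ∈ oddBox M) : -m ∈ oddBox M := by
  rw [mem_oddBox] at h ⊢
  exact ⟨⟨by linarith [h.1.2], by linarith [h.1.1]⟩, h.2.neg⟩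

theorem ne_zero_of_mem_oddBox {M : ℕ} {m : ℤ} (h : m ∈ oddBox M) : m ≠ 0 := by
  rintro rfl
  exact absurd (mem_oddBox.1 h).2 (by decide)

theorem natAbs_le_of_mem_oddBox {M : ℕ} {m : ℤ} (h : m ∈ oddBox M) : m.natAbs ≤ M := by
  have := (mem_oddBox.1 h).1
  omega

theorem odd_natAbs_of_mem_oddBox {M : ℕ} {m : ℤ} (h : m ∈ oddBox M) : Odd m.natAbs :=
  Int.natAbs_odd.2 (mem_oddBox.1 h).2

/-- The box of vectors with odd entries. -/
noncomputable def box (M k : ℕ) : Finset (Fin (k + 1) → ℤ) := Fintype.piFinset fun _ => oddBox M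

/-- The gcd of the entries. -/
def gc {k : ℕ} (m : Fin (k + 1) → ℤ) : ℕ := Finset.univ.gcd fun i => (m i).natAbs

/-- Primitive vectors. -/
noncomputable def prim (M k : ℕ) : Finset (Fin (k + 1) → ℤ) := (box M k).filter fun m => gc m = 1

/-- Primitive vectors with positive first entry. -/
noncomputable def primPos (M k : ℕ) : Finset (Fin (k + 1) → ℤ) :=
  (prim M k).filter fun m => 0 < m 0

theorem mem_box {M k : ℕ} {m : Fin (k + 1) → ℤ} : m ∈ box M k ↔ ∀ i, m i ∈ oddBox M := by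
  simp [box]

theorem mem_prim {M k : ℕ} {m : Fin (k + 1) → ℤ} :
    m ∈ prim M k ↔ (∀ i, m i ∈ oddBox M) ∧ gc m = 1 := by
  simp [prim, mem_box]

theorem mem_primPos {M k : ℕ} {m : Fin (k + 1) → ℤ} :
    m ∈ primPos M k ↔ ((∀ i, m i ∈ oddBox M) ∧ gc m = 1) ∧ 0 < m 0 := by
  simp [primPos, mem_prim]

theorem gc_neg {k : ℕ} (m : Fin (k + 1) → ℤ) : gc (-m) = gc m := by
  simp [gc]

theorem dvd_gc_iff {k : ℕ} (m : Fin (k + 1) → ℤ) (g : ℕ) : g ∣ gc m ↔ ∀ i, (g : ℤ) ∣ m i := by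
  simp [gc, Finset.dvd_gcd_iff, Int.natCast_dvd]

theorem neg_mem_prim {M k : ℕ} {m : Fin (k + 1) → ℤ} (h : m ∈ prim M k) : -m ∈ prim M k := by
  rw [mem_prim] at h ⊢
  exact ⟨fun i => neg_mem_oddBox (h.1 i), by rw [gc_neg, h.2]⟩

/-- Symmetrisation. -/
theorem sum_prim_eq {M k : ℕ} (f : (Fin (k + 1) → ℤ) → ℝ) (hf : ∀ m ∈ prim M k, f (-m) = f m) :
    ∑ m ∈ prim M k, f m = 2 * ∑ m ∈ primPos M k, f m := by
  rw [← Finset.sum_filter_add_sum_filter_not (prim M k) (fun m => 0 < m 0), two_mul]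
  congr 1
  refine Finset.sum_nbij' (fun m => -m) (fun m => -m) ?_ ?_ ?_ ?_ ?_
  · intro m hm
    rw [Finset.mem_filter] at hm
    refine Finset.mem_filter.2 ⟨neg_mem_prim hm.1, ?_⟩
    have := ne_zero_of_mem_oddBox ((mem_prim.1 hm.1).1 0)
    have := hm.2
    simp only [Pi.neg_apply]
    omega
  · intro m hm
    have hm' := Finset.mem_filter.1 hm
    refine Finset.mem_filter.2 ⟨neg_mem_prim hm'.1, ?_⟩
    have := hm'.2
    simp only [Pi.neg_apply]
    omega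
  · intro m _; simp
  · intro m _; simp
  · intro m hm
    exact (hf m (Finset.mem_filter.1 hm).1).symm

/-- Primitive vectors with positive first entry are not proportional. -/
theorem eq_of_proportional {M k : ℕ} {m m' : Fin (k + 1) → ℤ} (hm : m ∈ primPos M k)
    (hm' : m' ∈ primPos M k) (h : ∀ i, m 0 * m' i = m' 0 * m i) : m 0 = m' 0 := by
  rw [mem_primPos] at hm hm'
  have key : ∀ {u v : Fin (k + 1) → ℤ}, gc u = 1 → (∀ i, u 0 * v i = v 0 * u i) →
      (u 0).natAbs ∣ (v 0).natAbs := by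
    intro u v hu huv
    have h1 : (u 0).natAbs ∣ Finset.univ.gcd fun i => (v 0).natAbs * (u i).natAbs := by
      refine Finset.dvd_gcd fun i _ => ?_
      rw [← Int.natAbs_mul, ← huv i, Int.natAbs_mul]
      exact dvd_mul_right _ _
    rw [Finset.gcd_mul_left] at h1
    have h2 : (Finset.univ.gcd fun i => (u i).natAbs) = 1 := hu
    rw [h2] at h1
    simpa using h1
  have h1 := key hm.1.2 h
  have h2 := key hm'.1.2 fun i => (h i).symm
  have h3 := Nat.dvd_antisymm h1 h2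
  have := hm.2
  have := hm'.2
  omega

/-- Moebius inversion over the gcd. -/
theorem sum_prim_moebius {R : Type} [CommRing R] (M k : ℕ) (F : Fin (k + 1) → ℤ → R) :
    ∑ m ∈ prim M k, ∏ i, F i (m i) =
      ∑ g ∈ Finset.Icc 1 M, ((ArithmeticFunction.moebius g : ℤ) : R) *
        ∏ i, ∑ m ∈ (oddBox M).filter (fun m => (g : ℤ) ∣ m), F i m := by
  classical
  have h1 : ∀ g : ℕ, ∏ i, ∑ m ∈ (oddBox M).filter (fun m => (g : ℤ) ∣ m), F i m =
      ∑ m ∈ box M k, if g ∣ gc m then ∏ i, F i (m i) else 0 := by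
    intro g
    rw [Finset.prod_univ_sum, ← Finset.sum_filter]
    refine Finset.sum_congr ?_ fun _ _ => rfl
    ext m
    simp only [Fintype.mem_piFinset, Finset.mem_filter, mem_box, dvd_gc_iff, forall_and]
  simp only [h1, Finset.mul_sum]
  rw [Finset.sum_comm, prim, Finset.sum_filter]
  refine Finset.sum_congr rfl fun m hm => ?_
  have h0 := mem_box.1 hm 0
  have hd : gc m ∣ (m 0).natAbs := Finset.gcd_dvd (Finset.mem_univ 0)
  have hne : (m 0).natAbs ≠ 0 := by simpa using ne_zero_of_mem_oddBox h0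
  have hg0 : gc m ≠ 0 := fun h => hne (by rw [h] at hd; simpa using hd)
  have hgM : gc m ≤ M := (Nat.le_of_dvd (Nat.pos_of_ne_zero hne) hd).trans
    (natAbs_le_of_mem_oddBox h0)
  have h2 : (Finset.Icc 1 M).filter (fun g => g ∣ gc m) = (gc m).divisors := by
    ext g
    simp only [Finset.mem_filter, Finset.mem_Icc, Nat.mem_divisors]
    constructor
    · exact fun h => ⟨h.2, hg0⟩
    · exact fun h => ⟨⟨Nat.pos_of_dvd_of_pos h.1 (Nat.pos_of_ne_zero hg0),
        (Nat.le_of_dvd (Nat.pos_of_ne_zero hg0) h.1).trans hgM⟩, h.1⟩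
  have h3 : ∑ g ∈ (gc m).divisors, ArithmeticFunction.moebius g = if gc m = 1 then 1 else 0 := by
    rw [← ArithmeticFunction.coe_mul_zeta_apply, ArithmeticFunction.moebius_mul_coe_zeta,
      ArithmeticFunction.one_apply]
  simp only [mul_ite, mul_zero]
  rw [← Finset.sum_filter, h2, ← Finset.sum_mul, ← Int.cast_sum, h3]
  split_ifs <;> simp

/-- The non-primitive part. -/
theorem norm_sum_prim_sub_le {R : Type} [NormedField R] (M k : ℕ) (hM : 1 ≤ M)
    (F : Fin (k + 1) → ℤ → R) (u : ℕ → ℝ) (hu0 : ∀ g, 0 ≤ u g)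
    (hu : ∀ g : ℕ, Odd g → ∀ i, ‖∑ m ∈ (oddBox M).filter (fun m => (g : ℤ) ∣ m), F i m‖ ≤ u g) :
    ‖∑ m ∈ prim M k, ∏ i, F i (m i) - ∏ i, ∑ m ∈ oddBox M, F i m‖ ≤
      ∑ g ∈ Finset.Icc 3 M, u g ^ (k + 1) := by
  classical
  rw [sum_prim_moebius, ← Finset.insert_Icc_add_one_left_eq_Icc hM,
    Finset.sum_insert (by simp)]
  simp only [Nat.cast_one, one_dvd, Finset.filter_true, ArithmeticFunction.moebius_apply_one,
    Int.cast_one, one_mul, add_sub_cancel_left]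
  refine (norm_sum_le _ _).trans ?_
  have hterm : ∀ g : ℕ, ‖((ArithmeticFunction.moebius g : ℤ) : R) *
      ∏ i, ∑ m ∈ (oddBox M).filter (fun m => (g : ℤ) ∣ m), F i m‖ ≤
      if 3 ≤ g ∨ g = 1 then u g ^ (k + 1) else 0 := by
    intro g
    rcases Nat.even_or_odd g with hg | hg
    · have : (oddBox M).filter (fun m => (g : ℤ) ∣ m) = ∅ := by
        refine Finset.filter_eq_empty_iff.2 fun m hm hd => ?_
        have h2 : Even (g : ℤ) := by exact_mod_cast hg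
        exact (Int.not_even_iff_odd.2 (mem_oddBox.1 hm).2) (h2.trans_dvd hd)
      rw [this]
      have := pow_nonneg (hu0 g) (k + 1)
      split_ifs <;> simp [this]
    · have h3 : 3 ≤ g ∨ g = 1 := by obtain ⟨t, rfl⟩ := hg; omega
      rw [if_pos h3, norm_mul, norm_prod]
      have hμ : ‖((ArithmeticFunction.moebius g : ℤ) : R)‖ ≤ 1 := by
        rcases ArithmeticFunction.moebius_eq_or g with h | h | h <;> simp [h]
      calc _ ≤ 1 * ∏ _i : Fin (k + 1), u g := by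
            gcongr with i
            exact hu g hg i
        _ = u g ^ (k + 1) := by simp
  refine (Finset.sum_le_sum fun g _ => hterm g).trans ?_
  rw [← Finset.sum_filter]
  refine Finset.sum_le_sum_of_subset_of_nonneg ?_ fun g _ _ => pow_nonneg (hu0 g) _
  intro g hg
  simp only [Finset.mem_filter, Finset.mem_Icc] at hg ⊢
  omega

theorem norm_prod_sub_prod_le {ι : Type} (s : Finset ι) (a b : ι → ℂ) (η : ℝ) (hη : 0 ≤ η)
    (hb : ∀ i ∈ s, ‖b i‖ ≤ 1) (hab : ∀ i ∈ s, ‖a i - b i‖ ≤ η) :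
    ‖∏ i ∈ s, a i - ∏ i ∈ s, b i‖ ≤ (1 + η) ^ s.card - 1 := by
  classical
  induction s using Finset.induction_on with
  | empty => simp
  | insert j s hj ih =>
    have ih' := ih (fun i hi => hb i (Finset.mem_insert_of_mem hi))
      (fun i hi => hab i (Finset.mem_insert_of_mem hi))
    have h1 := hb j (Finset.mem_insert_self _ _)
    have h2 := hab j (Finset.mem_insert_self _ _)
    have h3 : ‖∏ i ∈ s, a i‖ ≤ (1 + η) ^ s.card := by
      rw [norm_prod, ← Finset.prod_const]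
      refine Finset.prod_le_prod (fun _ _ => norm_nonneg _) fun i hi => ?_
      have := norm_add_le (b i) (a i - b i)
      rw [add_sub_cancel] at this
      linarith [hb i (Finset.mem_insert_of_mem hi), hab i (Finset.mem_insert_of_mem hi)]
    rw [Finset.prod_insert hj, Finset.prod_insert hj, Finset.card_insert_of_notMem hj]
    have e : a j * ∏ i ∈ s, a i - b j * ∏ i ∈ s, b i =
        (a j - b j) * ∏ i ∈ s, a i + b j * (∏ i ∈ s, a i - ∏ i ∈ s, b i) := by ring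
    rw [e]
    refine (norm_add_le _ _).trans ?_
    rw [norm_mul, norm_mul]
    have h4 : ‖a j - b j‖ * ‖∏ i ∈ s, a i‖ ≤ η * (1 + η) ^ s.card := by gcongr
    have h5 : ‖b j‖ * ‖∏ i ∈ s, a i - ∏ i ∈ s, b i‖ ≤ 1 * ((1 + η) ^ s.card - 1) := by gcongr
    rw [pow_succ]
    linarith

/-- A linear form that vanishes at no point of a finite set of nonzero integer vectors. -/
theorem exists_form {J : Type} [Fintype J] (W : Finset (J → ℤ)) (hW : ∀ w ∈ W, w ≠ 0) :
    ∃ a : J → ℤ, ∀ w ∈ W, ∑ j, a j * w j ≠ 0 := by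
  classical
  let p : (J → ℤ) → MvPolynomial J ℤ := fun w => ∑ j, MvPolynomial.X j * MvPolynomial.C (w j)
  have hp : ∀ w a, MvPolynomial.eval a (p w) = ∑ j, a j * w j := by
    intro w a; simp [p]
  have hne : ∏ w ∈ W, p w ≠ 0 := by
    refine Finset.prod_ne_zero_iff.2 fun w hw h => hW w hw ?_
    have := hp w w
    rw [h, map_zero] at this
    have h2 := (Finset.sum_eq_zero_iff_of_nonneg (fun j _ => mul_self_nonneg (w j))).1 this.symm
    ext j
    exact mul_self_eq_zero.1 (h2 j (Finset.mem_univ j))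
  by_contra hcon
  push Not at hcon
  apply hne
  refine MvPolynomial.funext fun a => ?_
  obtain ⟨w, hw, h0⟩ := hcon a
  rw [map_prod, map_zero]
  exact Finset.prod_eq_zero hw (by rw [hp, h0])

theorem sum_two_div_pow_le (M j : ℕ) :
    ∑ g ∈ Finset.Icc 3 M, (2 / (g : ℝ)) ^ (j + 2) ≤ 2 * (2 / 3) ^ j := by
  have h1 : ∀ g ∈ Finset.Icc 3 M, (2 / (g : ℝ)) ^ (j + 2) ≤ (2 / 3) ^ j * 4 * ((g : ℝ) ^ 2)⁻¹ := by
    intro g hg
    have h3 : (3 : ℝ) ≤ g := by exact_mod_cast (Finset.mem_Icc.1 hg).1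
    have : (2 / (g : ℝ)) ^ (j + 2) = (2 / (g : ℝ)) ^ j * 4 * ((g : ℝ) ^ 2)⁻¹ := by
      rw [pow_add]; field_simp; norm_num
    rw [this]
    gcongr
  refine (Finset.sum_le_sum h1).trans ?_
  rw [← Finset.mul_sum]
  have h2 : ∑ g ∈ Finset.Icc 3 M, ((g : ℝ) ^ 2)⁻¹ ≤ 1 / 2 := by
    rcases le_or_gt 2 M with h | h
    · have := sum_Ioc_inv_sq_le_sub (α := ℝ) (k := 2) (n := M) two_ne_zero h
      have e : Finset.Icc 3 M = Finset.Ioc 2 M := by ext g; simp; omega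
      rw [e]
      have : (0 : ℝ) ≤ (M : ℝ)⁻¹ := by positivity
      push_cast at *
      linarith
    · rw [Finset.Icc_eq_empty (by omega)]; norm_num
  have : (0 : ℝ) ≤ (2 / 3) ^ j * 4 := by positivity
  nlinarith

theorem add_pow_le_two (a b : ℝ) (ha : 0 ≤ a) (hb : 0 ≤ b) (n : ℕ) :
    (a + b) ^ n ≤ (2 * a) ^ n + (2 * b) ^ n := by
  rcases le_total a b with h | h
  · have : (a + b) ^ n ≤ (2 * b) ^ n := by gcongr; linarith
    have : 0 ≤ (2 * a) ^ n := by positivity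
    linarith
  · have : (a + b) ^ n ≤ (2 * a) ^ n := by gcongr; linarith
    have : 0 ≤ (2 * b) ^ n := by positivity
    linarith

theorem sum_tail_le (M j : ℕ) (hj : 10 ≤ j) (τ e : ℝ) (hτ : 0 ≤ τ) (hτ1 : τ ≤ 1)
    (hM : M * τ ^ 12 ≤ e) :
    ∑ g ∈ Finset.Icc 3 M, (1 / (g : ℝ) + τ) ^ (j + 2) ≤ 2 * (2 / 3) ^ j + 2 ^ (j + 2) * e := by
  have h1 : ∀ g ∈ Finset.Icc 3 M, (1 / (g : ℝ) + τ) ^ (j + 2) ≤
      (2 / (g : ℝ)) ^ (j + 2) + 2 ^ (j + 2) * τ ^ 12 := by
    intro g _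
    refine (add_pow_le_two _ _ (by positivity) hτ _).trans ?_
    rw [mul_one_div, mul_pow]
    have : τ ^ (j + 2) ≤ τ ^ 12 := pow_le_pow_of_le_one hτ hτ1 (by omega)
    gcongr
  refine (Finset.sum_le_sum h1).trans ?_
  rw [Finset.sum_add_distrib, Finset.sum_const, nsmul_eq_mul]
  have h2 : (((Finset.Icc 3 M).card : ℕ) : ℝ) ≤ M := by
    have : (Finset.Icc 3 M).card ≤ M := by simp
    exact_mod_cast this
  have h3 := sum_two_div_pow_le M j
  have h4 : (((Finset.Icc 3 M).card : ℕ) : ℝ) * (2 ^ (j + 2) * τ ^ 12) ≤ 2 ^ (j + 2) * e := by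
    calc _ ≤ (M : ℝ) * (2 ^ (j + 2) * τ ^ 12) := by gcongr
      _ = 2 ^ (j + 2) * (M * τ ^ 12) := by ring
      _ ≤ _ := by gcongr
  linarith

theorem exists_small {f : ℝ → ℝ} (hf : Continuous f) {c : ℝ} (hc : f 0 < c) :
    ∃ e : ℝ, 0 < e ∧ e < 1 ∧ ∀ x, 0 ≤ x → x ≤ e → f x < c := by
  obtain ⟨δ, hδ, h⟩ := Metric.eventually_nhds_iff.1 (hf.continuousAt.eventually_lt_const hc)
  refine ⟨min (δ / 2) (1 / 2), by positivity, (min_le_right _ _).trans_lt (by norm_num),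
    fun x hx hxe => h ?_⟩
  have := hxe.trans (min_le_left _ _)
  rw [Real.dist_eq, sub_zero, abs_of_nonneg hx]
  linarith

/-- A flat system indexed by signed odd integers. -/
theorem signed_system {M a : ℕ} (hP : InR M (fun m => 1 / (m : ℝ) ^ a)) {η : ℝ} (hη : 0 < η) :
    ∃ (n : ℝ) (S : ℤ → Finset ℕ) (β : ℤ → ℕ → ℂ), 0 < n ∧
      (∀ m ∈ oddBox M, ((S m).card : ℝ) * (|(m : ℝ)| ^ a / n) = 1 ∧
        ∀ ξ ∈ S m, ‖β m ξ‖ ^ 2 = |(m : ℝ)| ^ a / n) ∧
      (∀ m ∈ oddBox M, ∀ y : ℝ, ∑ ξ ∈ S (-m), β (-m) ξ * ee (((-m).sign * ξ : ℤ) * y) =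
        (starRingEnd ℂ) (∑ ξ ∈ S m, β m ξ * ee ((m.sign * ξ : ℤ) * y))) ∧
      ∀ y : ℝ, ∃ g ψ : ℝ, 0 ≤ g ∧ g ≤ 1 ∧ ∀ m ∈ oddBox M,
        ‖∑ ξ ∈ S m, β m ξ * ee ((m.sign * ξ : ℤ) * y) - (g : ℂ) * ee (m * ψ)‖ ≤ η := by
  obtain ⟨n, S, β, hn, hS, hy⟩ := hP η hη
  refine ⟨n, fun m => S m.natAbs,
    fun m ξ => if 0 < m then β m.natAbs ξ else (starRingEnd ℂ) (β m.natAbs ξ), hn, ?_, ?_, ?_⟩
  · intro m hm
    obtain ⟨h1, h2⟩ := hS _ (odd_natAbs_of_mem_oddBox hm) (natAbs_le_of_mem_oddBox hm)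
    have h0 : (|(m : ℝ)|) ≠ 0 := by simpa using ne_zero_of_mem_oddBox hm
    have e : ((m.natAbs : ℕ) : ℝ) = |(m : ℝ)| := by simp
    simp only [e] at h1
    refine ⟨by rw [h1]; field_simp, fun ξ hξ => ?_⟩
    have h3 := h2 ξ hξ
    rw [h1] at h3
    have h4 : ‖β m.natAbs ξ‖ ^ 2 = |(m : ℝ)| ^ a / n := by rw [h3]; field_simp
    dsimp only
    split_ifs
    · exact h4
    · rw [RCLike.norm_conj]; exact h4
  · intro m hm y
    have h0 := ne_zero_of_mem_oddBox hm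
    dsimp only
    rw [map_sum, Int.natAbs_neg]
    refine Finset.sum_congr rfl fun ξ _ => ?_
    rw [map_mul, ← ee_neg]
    have e : (((-m).sign * ξ : ℤ) : ℝ) * y = -(((m.sign * ξ : ℤ) : ℝ) * y) := by
      rw [Int.sign_neg]; push_cast; ring
    rw [e]
    rcases lt_or_gt_of_ne h0 with h | h
    · rw [if_pos (by omega), if_neg (by omega)]; simp
    · rw [if_neg (by omega), if_pos h]
  · intro y
    obtain ⟨g, ψ, hg0, hg1, h⟩ := hy y
    refine ⟨g, ψ, hg0, hg1, fun m hm => ?_⟩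
    have h1 := h _ (odd_natAbs_of_mem_oddBox hm) (natAbs_le_of_mem_oddBox hm)
    have e0 : ((m.natAbs : ℕ) : ℝ) = |(m : ℝ)| := by simp
    dsimp only
    rcases lt_or_gt_of_ne (ne_zero_of_mem_oddBox hm) with h | h
    · rw [← RCLike.norm_conj, map_sub, map_sum, map_mul, ← ee_neg, Complex.conj_ofReal] at h1
      have e1 : ((m.natAbs : ℕ) : ℝ) = -(m : ℝ) := by
        rw [e0, abs_of_neg (by exact_mod_cast h)]
      refine le_of_eq_of_le ?_ h1
      congr 2
      · refine Finset.sum_congr rfl fun ξ _ => ?_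
        rw [if_neg (by omega), map_mul, ← ee_neg, Int.sign_eq_neg_one_of_neg h]
        congr 2
        push_cast; ring
      · rw [e1]; congr 2; ring
    · have e1 : ((m.natAbs : ℕ) : ℝ) = (m : ℝ) := by
        rw [e0, abs_of_pos (by exact_mod_cast h)]
      refine le_of_eq_of_le ?_ h1
      congr 2
      · refine Finset.sum_congr rfl fun ξ _ => ?_
        rw [if_pos h, Int.sign_eq_one_of_pos h]
        congr 2
        push_cast; ring
      · rw [e1]

end Crest.Agent.R75.KeyAux
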