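import Crest.Agent.R75.PackStep

/-!
# Row 75, packing module: the step lemma, the iteration and `PackStmt`
-/

set_option autoImplicit false
set_option linter.unusedSectionVars false

open Finset MeasureTheory

namespace Crest.Agent.R75.Pack

variable {ι : Type} [Fintype ι] [DecidableEq ι] {m : ι → ℕ} {ζ : ι → ℤ}

theorem err_mean (hm : ∀ n, 1 ≤ m n) (hs : ∀ n n', (m n : ℤ) * ζ n' = m n' * ζ n → n = n')
    {A B : Set T} (hA : MeasurableSet A) (hB : MeasurableSet B)
    {r : ℝ} (hr : 0 ≤ r) (J : ℕ) {γ e₁ c : ℝ} (hγ : 0 ≤ γ) (hc0 : 0 ≤ c) (hc1 : c ≤ 1)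
    (he0 : 0 ≤ e₁)
    (he : ∫ t, ind A t * |J * (∫ ω, ind (Hit m ζ A B r) (ω, t)) - γ| ≤ e₁) :
    Integrable (fun w : Fin J → T × T =>
      err m ζ (ind (newA m ζ A B r w)) (Real.exp (-γ) ^ (Fintype.card ι - 1) * c))
      (Measure.pi fun _ => volume) ∧
    ∫ w : Fin J → T × T,
      err m ζ (ind (newA m ζ A B r w)) (Real.exp (-γ) ^ (Fintype.card ι - 1) * c)
        ∂(Measure.pi fun _ => volume) ≤ err m ζ (ind A) c + 4 * Fintype.card ι *
      (2 * Fintype.card ι * e₁ + 2 * J * (2 * Fintype.card ι * (4 * MM m * r)) ^ 2) := by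
  have hM := MM_nonneg m
  set p := Real.exp (-γ) with hp
  have hp0 : 0 ≤ p := (Real.exp_pos _).le
  have hp1 : p ≤ 1 := Real.exp_le_one_iff.2 (by linarith)
  set K := Fintype.card ι with hK
  set c' := p ^ (K - 1) * c with hc'
  have hc'0 : 0 ≤ c' := by positivity
  have hc'1 : c' ≤ 1 := mul_le_one₀ (pow_le_one₀ hp0 hp1) hc0 hc1
  set E := 2 * K * e₁ + 2 * J * (2 * K * (4 * MM m * r)) ^ 2 with hE
  have hm' : ∀ n, (m n : ℤ) ≠ 0 := fun n => by have := hm n; omega
  have mono : ∀ l : ℕ, l ≤ 2 * K →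
      l * e₁ + 2 * J * (l * (4 * MM m * r)) ^ 2 ≤ E := by
    intro l hl
    have : (l : ℝ) ≤ 2 * K := by exact_mod_cast hl
    rw [hE]; gcongr
  have key : ∀ n, Integrable (fun w : Fin J → T × T => errT m ζ n (ind (newA m ζ A B r w)) c')
      (Measure.pi fun _ => volume) ∧
      ∫ w : Fin J → T × T, errT m ζ n (ind (newA m ζ A B r w)) c' ∂(Measure.pi fun _ => volume) ≤
        errT m ζ n (ind A) c + 4 * E := by
    intro n
    have hK1 : 1 ≤ K := Fintype.card_pos_iff.2 ⟨n⟩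
    have c3 : Fintype.card (ι ⊕ {n' // n' ≠ n}) = K + (K - 1) := by
      rw [Fintype.card_sum, Fintype.card_subtype_compl, Fintype.card_subtype_eq]
    obtain ⟨i3, b3⟩ := cnt_mean hm hA hB hr J hγ he (v3 m ζ n)
      (by rintro (k | k) <;> exact hm' _) (indep_v3 hm hs n)
    obtain ⟨i2, b2⟩ := cnt_mean hm hA hB hr J hγ he (v2 m ζ n) (fun k => hm' _) (indep_v2 hm hs n)
    obtain ⟨i1, b1⟩ := cnt_mean hm hA hB hr J hγ he (v1 m n) (fun k => hm' _)
      (fun k k' h => absurd (Subsingleton.elim _ _) h)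
    rw [c3] at b3
    rw [Fintype.card_unit] at b1
    replace b3 := abs_le.1 (b3.trans (mono _ (by omega)))
    replace b2 := abs_le.1 (b2.trans (mono _ (by omega)))
    replace b1 := abs_le.1 (b1.trans (mono _ (by omega)))
    have i32 : Integrable (fun w : Fin J → T × T => cnt (v3 m ζ n) (ind (newA m ζ A B r w)) -
        2 * c' * cnt (v2 m ζ n) (ind (newA m ζ A B r w))) (Measure.pi fun _ => volume) :=
      i3.sub (i2.const_mul _)
    refine ⟨i32.add (i1.const_mul _), ?_⟩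
    have h0 := errT_nonneg m ζ (measurable_ind hA) (ind_nonneg A) (ind_le_one A) n c
    have h1 : p ^ (K + (K - 1)) * errT m ζ n (ind A) c ≤ errT m ζ n (ind A) c :=
      mul_le_of_le_one_left h0 (pow_le_one₀ hp0 hp1)
    have h2 : p ^ (K + (K - 1)) * errT m ζ n (ind A) c =
        p ^ (K + (K - 1)) * cnt (v3 m ζ n) (ind A) - 2 * c' * (p ^ K * cnt (v2 m ζ n) (ind A)) +
          c' ^ 2 * (p ^ 1 * cnt (v1 m n) (ind A)) := by
      obtain ⟨k, hk⟩ : ∃ k, K = k + 1 := ⟨K - 1, by omega⟩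
      rw [errT, hc', hk]
      simp only [Nat.add_sub_cancel]
      ring
    have hE0 : 0 ≤ E := by rw [hE]; positivity
    simp only [errT]
    rw [integral_add i32 (i1.const_mul _), integral_sub i3 (i2.const_mul _), integral_const_mul,
      integral_const_mul]
    simp only [errT] at h1 h2
    have q2 := mul_le_mul_of_nonneg_left b2.1 (show 0 ≤ 2 * c' by positivity)
    have q1 := mul_le_mul_of_nonneg_left b1.2 (show 0 ≤ c' ^ 2 by positivity)
    have q3 : c' * E ≤ E := mul_le_of_le_one_left hE0 hc'1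
    have q4 : c' ^ 2 * E ≤ E := mul_le_of_le_one_left hE0 (pow_le_one₀ hc'0 hc'1)
    linarith [b3.2]
  refine ⟨integrable_finsetSum _ fun n _ => (key n).1, ?_⟩
  simp only [err]
  rw [integral_finsetSum _ fun n _ => (key n).1]
  refine (Finset.sum_le_sum fun n _ => (key n).2).trans (le_of_eq ?_)
  rw [Finset.sum_add_distrib, Finset.sum_const, nsmul_eq_mul, Finset.card_univ]
  ring

/-- One nibble step. -/
theorem step [Nonempty ι] (hm : ∀ n, 1 ≤ m n)
    (hs : ∀ n n', (m n : ℤ) * ζ n' = m n' * ζ n → n = n') {c γ δ' : ℝ} (hc0 : 0 < c) (hc1 : c ≤ 1)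
    (hγ : 0 < γ) (hδ' : 0 < δ') :
    ∃ δ : ℝ, 0 < δ ∧ ∀ A : Set T, Reg A → Symm A → err m ζ (ind A) c ≤ δ →
      ∀ lam : ℝ, 0 ≤ lam → lam ≤ 1 →
      ∃ (A' : Set T) (κ : Type) (_ : Fintype κ) (ω : κ → T × T) (r : ℝ), 0 < r ∧ Reg A' ∧ Symm A' ∧
        A' ⊆ A ∧ err m ζ (ind A') (Real.exp (-γ) ^ (Fintype.card ι - 1) * c) ≤ δ' ∧
        (∀ k ν, tile m ζ ν r (ω k) ⊆ A) ∧ (∀ k ν, Disjoint (tile m ζ ν r (ω k)) A') ∧
        (∀ k ν k' ν', (k, ν) ≠ (k', ν') → Disjoint (tile m ζ ν r (ω k)) (tile m ζ ν' r (ω k'))) ∧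
        lam * (volume : Measure T).real A' + ((volume : Measure T).real A -
          (volume : Measure T).real A' - 4 * MM m * r * Fintype.card κ) ≤
          lam * Real.exp (-γ) * (volume : Measure T).real A +
            (Fintype.card (ι × ℤˣ)) ^ 2 * (γ / c) ^ 2 + δ' := by
  classical
  have hM : 1 ≤ MM m := by
    obtain ⟨n⟩ := ‹Nonempty ι›
    exact le_trans (by exact_mod_cast hm n) (le_MM m n)
  set K : ℝ := (Fintype.card ι : ℝ) with hK
  set P : ℝ := (Fintype.card (ι × ℤˣ) : ℝ) with hP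
  have hK1 : 1 ≤ K := by rw [hK]; exact_mod_cast Fintype.card_pos
  have hP0 : 0 ≤ P := Nat.cast_nonneg _
  set g := γ / c with hg
  have hg0 : 0 < g := by positivity
  set E₀ := 2 * K * (g * (3 + K + P ^ 2) + 1) + 2 * g * (2 * K) ^ 2 with hE₀
  have hE₀0 : 0 < E₀ := by positivity
  set Λ := (1 + P ^ 2 * g ^ 2 + δ') / δ' with hΛ
  have hΛ0 : 0 < Λ := by positivity
  set s := min 1 (δ' / (E₀ + Λ * (1 + 4 * K * E₀))) with hsdef
  have hs0 : 0 < s := by positivity
  have hs1 : s ≤ 1 := min_le_left _ _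
  have hs2 : s * (E₀ + Λ * (1 + 4 * K * E₀)) ≤ δ' := by
    rw [← le_div_iff₀ (by positivity)]; exact min_le_right _ _
  refine ⟨s ^ 2, by positivity, fun A hA hsA herr lam hl0 hl1 => ?_⟩
  obtain ⟨rA, hrA, B, hB, hBs, hAB⟩ := hA.2 s hs0
  set r := min (rA / MM m) (s / (4 * MM m)) with hrdef
  have hr : 0 < r := by positivity
  have hr1 : MM m * r ≤ rA := by
    rw [mul_comm, ← le_div_iff₀ (by positivity)]; exact min_le_left _ _
  set u := 4 * MM m * r with hu
  have hu0 : 0 < u := by positivity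
  have hus : u ≤ s := by
    rw [hu, mul_comm, ← le_div_iff₀ (by positivity)]; exact min_le_right _ _
  set J := ⌊γ / (u * c)⌋₊ with hJ
  have hJ1 : J * u * c ≤ γ := by
    rw [mul_assoc, ← le_div_iff₀ (by positivity)]; exact Nat.floor_le (by positivity)
  have hJ2 : γ < J * u * c + u * c := by
    have := Nat.lt_floor_add_one (γ / (u * c))
    rw [div_lt_iff₀ (by positivity)] at this
    linarith
  have hJu : J * u ≤ g := by rw [hg, le_div_iff₀ hc0]; exact hJ1
  have hJ0 : (0 : ℝ) ≤ J := Nat.cast_nonneg _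
  have huc : u * c ≤ u := mul_le_of_le_one_right hu0.le hc1
  have hAB' : ∀ t, t ∉ B → ∀ t', dist t t' ≤ MM m * r → (t ∈ A ↔ t' ∈ A) :=
    fun t ht t' h => hAB t ht t' (h.trans hr1)
  have hβ : ∀ n, (∫ x, ind A ((m n : ℤ) • x) * |deg m ζ n (ind A) x - c|) +
      (∫ ω, ((∏ n, ind A (ctr m ζ (n, 1) ω)) - ind (Valid m ζ A B r) ω)) +
      (volume : Measure T).real B ≤ s * (3 + K + P ^ 2) := by
    intro n
    have a1 := l1_le_of_err m ζ (measurable_ind hA.1) (ind_nonneg A) (ind_le_one A) n hc0.le hc1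
      hs0 herr
    have a2 := integral_bad_le hm hs hA.1 hB hr.le
    have a3 : K * (volume : Measure T).real B ≤ K * s := by gcongr
    have a4 : P ^ 2 * u ≤ P ^ 2 * s := by gcongr
    linarith
  have he := l1_Hit hm hA.1 hsA hB hr.le (by linarith) hc0.le hc1 hAB' hβ J γ
  have he' : ∫ t, ind A t * |J * (∫ ω, ind (Hit m ζ A B r) (ω, t)) - γ| ≤
      s * (g * (3 + K + P ^ 2) + 1) := by
    refine he.trans ?_
    have a1 : |J * u * c - γ| ≤ s := abs_le.2 ⟨by linarith, by linarith⟩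
    have a2 : J * u * (s * (3 + K + P ^ 2)) ≤ g * (s * (3 + K + P ^ 2)) := by gcongr
    linarith
  set e₁ := s * (g * (3 + K + P ^ 2) + 1) with he₁
  have he₁0 : 0 ≤ e₁ := by positivity
  have hEE : 2 * K * e₁ + 2 * J * (2 * K * u) ^ 2 ≤ s * E₀ := by
    have a1 : J * u * u ≤ g * s := by gcongr
    have a2 : 2 * J * (2 * K * u) ^ 2 = 2 * (2 * K) ^ 2 * (J * u * u) := by ring
    have a3 : 2 * (2 * K) ^ 2 * (J * u * u) ≤ 2 * (2 * K) ^ 2 * (g * s) := by gcongr
    rw [a2, hE₀, he₁]; linarith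
  obtain ⟨iE, bE⟩ := err_mean hm hs hA.1 hB hr.le J hγ.le hc0.le hc1 he₁0 he'
  obtain ⟨iC, bC⟩ := coll_mean (ζ := ζ) hm hr.le J
  obtain ⟨iV, bV⟩ := cnt_mean hm hA.1 hB hr.le J hγ.le he'
    (fun _ : Unit => ((1, 0, 0) : ℤ × ℤ × ℤ)) (by simp)
    (fun k k' h => absurd (Subsingleton.elim _ _) h)
  have hreg : ∀ w : Fin J → T × T, Reg (newA m ζ A B r w) := fun w =>
    hA.diff_biUnion _ _ _ fun p => by have := hm p.2.1; positivity
  simp only [cnt_single hA.1, fun w => cnt_single (hreg w).1, Fintype.card_unit, pow_one,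
    Nat.cast_one, one_mul] at iV bV
  set p := Real.exp (-γ) with hp
  have hp0 : 0 ≤ p := (Real.exp_pos _).le
  have hp1 : p ≤ 1 := Real.exp_le_one_iff.2 (by linarith)
  set c' := p ^ (Fintype.card ι - 1) * c with hc'
  have i12 : Integrable (fun w : Fin J → T × T =>
      lam * (volume : Measure T).real (newA m ζ A B r w) + u * coll m ζ r w)
      (Measure.pi fun _ => volume) := (iV.const_mul _).add (iC.const_mul _)
  obtain ⟨w, hw⟩ := exists_le_integral (μ := Measure.pi fun _ : Fin J => (volume : Measure (T × T)))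
    (f := fun w => lam * (volume : Measure T).real (newA m ζ A B r w) + u * coll m ζ r w +
      Λ * err m ζ (ind (newA m ζ A B r w)) c') (i12.add (iE.const_mul _))
  rw [integral_add i12 (iE.const_mul _), integral_add (iV.const_mul _) (iC.const_mul _),
    integral_const_mul, integral_const_mul, integral_const_mul] at hw
  have hvA0 : 0 ≤ (volume : Measure T).real A := measureReal_nonneg
  have hvA1 : (volume : Measure T).real A ≤ 1 := measureReal_le_one
  have hvA' : 0 ≤ (volume : Measure T).real (newA m ζ A B r w) := measureReal_nonneg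
  have z1 : lam * ∫ w : Fin J → T × T, (volume : Measure T).real (newA m ζ A B r w)
      ∂(Measure.pi fun _ => volume) ≤ lam * p * (volume : Measure T).real A + s * E₀ := by
    have a1 : e₁ + 2 * J * u ^ 2 ≤ 2 * K * e₁ + 2 * J * (2 * K * u) ^ 2 := by
      have h2K : (1 : ℝ) ≤ 2 * K := by linarith
      have : u ≤ 2 * K * u := le_mul_of_one_le_left hu0.le h2K
      have h3 : e₁ ≤ 2 * K * e₁ := le_mul_of_one_le_left he₁0 h2K
      gcongr
    have a2 := (abs_le.1 bV).2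
    have a3 : ∫ w : Fin J → T × T, (volume : Measure T).real (newA m ζ A B r w)
      ∂(Measure.pi fun _ => volume) ≤ p * (volume : Measure T).real A + s * E₀ := by linarith
    have a4 := mul_le_mul_of_nonneg_left a3 hl0
    have a5 : lam * (s * E₀) ≤ s * E₀ := mul_le_of_le_one_left (by positivity) hl1
    linarith
  have z2 : u * ∫ w : Fin J → T × T, coll m ζ r w ∂(Measure.pi fun _ => volume) ≤
      P ^ 2 * g ^ 2 := by
    refine (mul_le_mul_of_nonneg_left bC hu0.le).trans ?_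
    have : u * (J ^ 2 * P ^ 2 * u) = P ^ 2 * (J * u) ^ 2 := by ring
    rw [this]; gcongr
  have z3 : Λ * ∫ w : Fin J → T × T, err m ζ (ind (newA m ζ A B r w)) c'
      ∂(Measure.pi fun _ => volume) ≤ Λ * (s * (1 + 4 * K * E₀)) := by
    refine mul_le_mul_of_nonneg_left (bE.trans ?_) hΛ0.le
    have a1 : 4 * K * (2 * K * e₁ + 2 * J * (2 * K * u) ^ 2) ≤ 4 * K * (s * E₀) := by gcongr
    have a2 : s ^ 2 ≤ s := by rw [sq]; exact mul_le_of_le_one_left hs0.le hs1
    linarith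
  have hZ : lam * (volume : Measure T).real (newA m ζ A B r w) + u * coll m ζ r w +
      Λ * err m ζ (ind (newA m ζ A B r w)) c' ≤
      lam * p * (volume : Measure T).real A + P ^ 2 * g ^ 2 + δ' := by linarith
  have hcoll := mul_nonneg hu0.le (coll_nonneg m ζ r w)
  have herr0 := mul_nonneg hΛ0.le (err_nonneg m ζ (measurable_ind (hreg w).1) (ind_nonneg _)
    (ind_le_one _) c')
  have hlp : lam * p * (volume : Measure T).real A ≤ 1 :=
    mul_le_one₀ (mul_le_one₀ hl1 hp0 hp1) hvA0 hvA1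
  refine ⟨newA m ζ A B r w, {j // Kept m ζ A B r w j}, inferInstance, fun k => w k.1, r, hr, hreg w,
    symm_newA m ζ hsA B r w, Set.sdiff_subset, ?_, ?_, ?_, ?_, ?_⟩
  · have a1 : Λ * err m ζ (ind (newA m ζ A B r w)) c' ≤ Λ * δ' := by
      have : Λ * δ' = 1 + P ^ 2 * g ^ 2 + δ' := by rw [hΛ]; field_simp
      rw [this]; linarith [mul_nonneg hl0 hvA']
    exact le_of_mul_le_mul_left a1 hΛ0
  · rintro k ⟨n, σ⟩ t ht
    have key : ∀ t, t ∈ tile m ζ (n, 1) r (w k.1) → t ∈ A := by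
      intro t ht
      refine (hAB' _ (k.2.1.1 n).2 t ?_).1 (k.2.1.1 n).1
      rw [dist_comm]
      exact le_trans ht (mul_le_mul_of_nonneg_right (le_MM m n) hr.le)
    rcases Int.units_eq_one_or σ with rfl | rfl
    · exact key t ht
    · exact (hsA t).1 (key _ ((mem_tile_neg n 1 r _ t).1 ht))
  · intro k ν
    refine Set.disjoint_left.2 fun t ht ht' => ?_
    exact ((mem_newA m ζ).1 ht').2 k.1 (Set.mem_iUnion.2 ⟨ν, k.2.1, ht⟩)
  · intro k ν k' ν' hne
    refine tile_disjoint_of_lt m ζ hr.le ?_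
    by_cases hk : k' = k
    · subst hk
      exact k'.2.1.2 ν ν' fun h => hne (by rw [h])
    · exact k.2.2 k'.1 (fun h => hk (Subtype.ext h)) ν ν'
  · have := waste_le (m := m) (ζ := ζ) (A := A) (B := B) hr.le w
    linarith

/-- The iteration of the nibble step. -/
theorem iterate [Nonempty ι] (hm : ∀ n, 1 ≤ m n)
    (hs : ∀ n n', (m n : ℤ) * ζ n' = m n' * ζ n → n = n') {γ c₀ θ : ℝ} (hγ : 0 < γ) (hθ : 0 < θ)
    (hc₀ : 0 < c₀) (N : ℕ) (hN : c₀ ≤ (Real.exp (-γ) ^ (Fintype.card ι - 1)) ^ N) :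
    ∀ i : ℕ, i ≤ N → ∀ δ : ℝ, 0 < δ →
      ∃ (A : Set T) (κ : Type) (_ : Fintype κ) (ω : κ → T × T) (r : κ → ℝ), (∀ k, 0 < r k) ∧
        Reg A ∧ Symm A ∧ err m ζ (ind A) ((Real.exp (-γ) ^ (Fintype.card ι - 1)) ^ i) ≤ δ ∧
        (∀ k ν, Disjoint (tile m ζ ν (r k) (ω k)) A) ∧
        (∀ k ν k' ν', (k, ν) ≠ (k', ν') →
          Disjoint (tile m ζ ν (r k) (ω k)) (tile m ζ ν' (r k') (ω k'))) ∧
        Real.exp (-γ) ^ (N - i) * (volume : Measure T).real A +
          (1 - (volume : Measure T).real A - 4 * MM m * ∑ k, r k) ≤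
          Real.exp (-γ) ^ N + i * ((Fintype.card (ι × ℤˣ)) ^ 2 * (γ / c₀) ^ 2 + θ) := by
  set p := Real.exp (-γ) with hp
  have hp0 : 0 < p := Real.exp_pos _
  have hp1 : p ≤ 1 := Real.exp_le_one_iff.2 (by linarith)
  set q := p ^ (Fintype.card ι - 1) with hq
  have hq0 : 0 < q := by positivity
  have hq1 : q ≤ 1 := pow_le_one₀ hp0.le hp1
  intro i
  induction i with
  | zero =>
    intro _ δ hδ
    refine ⟨Set.univ, Empty, inferInstance, Empty.elim, Empty.elim, fun k => k.elim, reg_univ,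
      fun t => by simp, ?_, fun k => k.elim, fun k => k.elim, by simp⟩
    have : ind (Set.univ : Set T) = fun _ => 1 := by funext t; exact ind_of_mem (Set.mem_univ t)
    rw [this, pow_zero, err_one]; exact hδ.le
  | succ i ih =>
    intro hi δ' hδ'
    have hci : c₀ ≤ q ^ i := hN.trans (pow_le_pow_of_le_one hq0.le hq1 (by omega))
    obtain ⟨δ, hδ, hstep⟩ := step (c := q ^ i) (γ := γ) (δ' := min δ' θ) hm hs (by positivity)
      (pow_le_one₀ hq0.le hq1) hγ (lt_min hδ' hθ)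
    obtain ⟨A, κ, _, ω, r, hr, hA, hsA, herr, hd1, hd2, hpot⟩ := ih (by omega) δ hδ
    obtain ⟨A', κ', _, ω', r', hr', hA', hsA', hsub, herr', ht1, ht2, ht3, hpot'⟩ :=
      hstep A hA hsA herr (p ^ (N - (i + 1))) (by positivity) (pow_le_one₀ hp0.le hp1)
    refine ⟨A', κ ⊕ κ', inferInstance, Sum.elim ω ω', Sum.elim r fun _ => r', ?_, hA', hsA', ?_, ?_,
      ?_, ?_⟩
    · rintro (k | k)
      · exact hr k
      · exact hr'
    · rw [pow_succ']; exact herr'.trans (min_le_left _ _)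
    · rintro (k | k) ν
      · exact (hd1 k ν).mono_right hsub
      · exact ht2 k ν
    · rintro (k | k) ν (k' | k') ν' hne
      · exact hd2 k ν k' ν' fun h => hne (by rw [Prod.mk.injEq] at h; rw [h.1, h.2])
      · exact (hd1 k ν).mono_right (ht1 k' ν')
      · exact ((hd1 k' ν').mono_right (ht1 k ν)).symm
      · exact ht3 k ν k' ν' fun h => hne (by rw [Prod.mk.injEq] at h; rw [h.1, h.2])
    · rw [Fintype.sum_sum_type]
      simp only [Sum.elim_inl, Sum.elim_inr, Finset.sum_const, Finset.card_univ, nsmul_eq_mul]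
      have e1 : p ^ (N - (i + 1)) * p = p ^ (N - i) := by
        rw [← pow_succ]; congr 1; omega
      rw [e1] at hpot'
      have e2 : (γ / q ^ i) ^ 2 ≤ (γ / c₀) ^ 2 := by gcongr
      have e3 : (Fintype.card (ι × ℤˣ) : ℝ) ^ 2 * (γ / q ^ i) ^ 2 ≤
          (Fintype.card (ι × ℤˣ) : ℝ) ^ 2 * (γ / c₀) ^ 2 := by gcongr
      have e4 := min_le_right δ' θ
      push_cast at hpot hpot' e3 ⊢
      linarith

theorem exists_packing [Nonempty ι] (hm : ∀ n, 1 ≤ m n)
    (hs : ∀ n n', (m n : ℤ) * ζ n' = m n' * ζ n → n = n') {ε : ℝ} (hε : 0 < ε) :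
    ∃ (κ : Type) (_ : Fintype κ) (ω : κ → T × T) (r : κ → ℝ), (∀ k, 0 < r k) ∧
      (∀ k ν k' ν', (k, ν) ≠ (k', ν') →
        Disjoint (tile m ζ ν (r k) (ω k)) (tile m ζ ν' (r k') (ω k'))) ∧
      1 - ε ≤ 4 * MM m * ∑ k, r k := by
  set L := 3 / ε with hL
  have hL0 : 0 < L := by positivity
  have hexp : Real.exp (-L) ≤ ε / 3 := by
    have h1 := Real.add_one_le_exp L
    rw [Real.exp_neg, inv_le_comm₀ (Real.exp_pos _) (by positivity), inv_div]
    linarith
  set c₀ := Real.exp (-L) ^ (Fintype.card ι - 1) with hc₀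
  have hc0 : 0 < c₀ := by positivity
  set P : ℝ := (Fintype.card (ι × ℤˣ) : ℝ) with hP
  obtain ⟨N, hN⟩ := exists_nat_gt (3 * (P ^ 2 * (L / c₀) ^ 2) / ε)
  have hN0 : (0 : ℝ) < N := lt_of_le_of_lt (by positivity) hN
  have hpN : Real.exp (-(L / N)) ^ N = Real.exp (-L) := by
    rw [← Real.exp_nat_mul]; congr 1; field_simp
  obtain ⟨A, κ, _, ω, r, hr, -, -, -, -, hd, hpot⟩ := iterate (γ := L / N) (c₀ := c₀)
    (θ := ε / (3 * N)) hm hs (by positivity) (by positivity) hc0 N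
    (by rw [← pow_mul, mul_comm, pow_mul, hpN]) N le_rfl 1 one_pos
  refine ⟨κ, inferInstance, ω, r, hr, hd, ?_⟩
  rw [Nat.sub_self, pow_zero, hpN] at hpot
  have e1 : N * (P ^ 2 * (L / N / c₀) ^ 2 + ε / (3 * N)) = P ^ 2 * (L / c₀) ^ 2 / N + ε / 3 := by
    field_simp
  have e2 : P ^ 2 * (L / c₀) ^ 2 / N ≤ ε / 3 := by
    rw [div_lt_iff₀ hε] at hN
    rw [div_le_iff₀ hN0]; linarith
  rw [e1] at hpot
  linarith

end Crest.Agent.R75.Pack

namespace Crest.Agent.R75

open Pack in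
theorem pack : PackStmt := by
  intro ι _ _ m ζ hm hs ε hε
  classical
  obtain ⟨κ, _, ω, r, hr, hd, hsum⟩ := exists_packing hm hs hε
  set e := (Fintype.equivFin κ).symm with he
  choose x hx using fun k : κ => QuotientAddGroup.mk_surjective (ω k).1
  choose y hy using fun k : κ => QuotientAddGroup.mk_surjective (ω k).2
  refine ⟨Fintype.card κ, fun i => x (e i) - r (e i), fun i => y (e i), fun i => 2 * r (e i),
    fun i => by have := hr (e i); positivity, ?_, ?_⟩
  · rw [← Finset.mul_sum, Equiv.sum_comp e r]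
    unfold MM at hsum
    linarith
  · intro i i' n n' s s' τ τ' l hτ hτ' h
    have key : ∀ (k : κ) (n : ι) (s : ℤˣ) (τ : ℝ), τ ∈ Set.Icc 0 (2 * r k) →
        ((((s : ℤ) : ℝ) * (m n * (x k - r k + τ) + ζ n * y k) : ℝ) : T) ∈
          tile m ζ (n, s) (r k) (ω k) := by
      intro k n s τ hτ
      have e1 : ctr m ζ (n, s) (ω k) = ((((s : ℤ) : ℝ) * (m n * x k + ζ n * y k) : ℝ) : T) := by
        rw [ctr, lin2, vec, ← hx k, ← hy k]
        simp only
        rw [← QuotientAddGroup.mk_zsmul, ← QuotientAddGroup.mk_zsmul, ← QuotientAddGroup.mk_add]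
        congr 1
        simp only [zsmul_eq_mul]; push_cast; ring
      rw [tile, Metric.mem_closedBall, e1, dist_eq_norm, ← QuotientAddGroup.mk_sub]
      refine QuotientAddGroup.norm_mk_le_norm.trans ?_
      have e2 : ((s : ℤ) : ℝ) * (m n * (x k - r k + τ) + ζ n * y k) -
          ((s : ℤ) : ℝ) * (m n * x k + ζ n * y k) = ((s : ℤ) : ℝ) * (m n * (τ - r k)) := by ring
      have e3 : |((s : ℤ) : ℝ)| = 1 := by
        rcases Int.units_eq_one_or s with rfl | rfl <;> simp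
      rw [e2, Real.norm_eq_abs, abs_mul, e3, one_mul, abs_mul, Nat.abs_cast]
      exact mul_le_mul_of_nonneg_left (abs_le.2 ⟨by linarith [hτ.1], by linarith [hτ.2]⟩)
        (Nat.cast_nonneg _)
    have k1 := key (e i) n s τ hτ
    have k2 := key (e i') n' s' τ' hτ'
    have heq : ((((s : ℤ) : ℝ) * (m n * (x (e i) - r (e i) + τ) + ζ n * y (e i)) : ℝ) : T) =
        ((((s' : ℤ) : ℝ) * (m n' * (x (e i') - r (e i') + τ') + ζ n' * y (e i')) : ℝ) : T) := by
      rw [← sub_eq_zero, ← QuotientAddGroup.mk_sub, h]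
      exact (AddCircle.coe_eq_zero_iff (1 : ℝ)).2 ⟨l, by simp⟩
    by_contra hne
    refine Set.disjoint_left.1 (hd (e i) (n, s) (e i') (n', s') fun h' => hne ?_) k1 (heq ▸ k2)
    simp only [Prod.mk.injEq] at h'
    exact ⟨e.injective h'.1, h'.2.1, h'.2.2⟩

end Crest.Agent.R75
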