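import Crest.Agent.R75.PackTorus

/-!
# Row 75, packing module: configuration counts and the degree error functional
-/

set_option autoImplicit false
set_option linter.unusedSectionVars false

open Finset MeasureTheory

namespace Crest.Agent.R75.Pack

variable {ι : Type} [Fintype ι] [DecidableEq ι] (m : ι → ℕ) (ζ : ι → ℤ)

/-- The signed frequency vector. -/
def vec (ν : ι × ℤˣ) : ℤ × ℤ := ((ν.2 : ℤ) * m ν.1, (ν.2 : ℤ) * ζ ν.1)

/-- The centre of the tile of type `ν` of the segment centred at `ω`. -/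
def ctr (ν : ι × ℤˣ) (ω : T × T) : T := lin2 (vec m ζ ν) ω

/-- The tile of type `ν` of the segment of radius `r` centred at `ω`. -/
def tile (ν : ι × ℤˣ) (r : ℝ) (ω : T × T) : Set T := Metric.closedBall (ctr m ζ ν ω) (m ν.1 * r)

/-- The determinant of two frequency vectors. -/
def dl (n n' : ι) : ℤ := ζ n' * m n - m n' * ζ n

/-- The mean of `∏ a (form k)` over the three-dimensional torus. -/
noncomputable def cnt {κ : Type} [Fintype κ] (v : κ → ℤ × ℤ × ℤ) (a : T → ℝ) : ℝ :=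
  ∫ y, ∏ k, a (lin3 (v k) y)

def v1 (n : ι) : Unit → ℤ × ℤ × ℤ := fun _ => (m n, 0, 0)

def v2 (n : ι) : ι → ℤ × ℤ × ℤ := fun n' => (m n', dl m ζ n n', 0)

def v3 (n : ι) : ι ⊕ {n' // n' ≠ n} → ℤ × ℤ × ℤ :=
  Sum.elim (v2 m ζ n) (fun n' => (m n'.1, 0, dl m ζ n n'.1))

/-- One term of the error functional. -/
noncomputable def errT (n : ι) (a : T → ℝ) (c : ℝ) : ℝ :=
  cnt (v3 m ζ n) a - 2 * c * cnt (v2 m ζ n) a + c ^ 2 * cnt (v1 m n) a

/-- The error functional. -/
noncomputable def err (a : T → ℝ) (c : ℝ) : ℝ := ∑ n, errT m ζ n a c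

/-- The product over the other forms along a fibre. -/
noncomputable def fib (n : ι) (a : T → ℝ) (x s : T) : ℝ :=
  ∏ n' ∈ univ.erase n, a ((m n' : ℤ) • x + dl m ζ n n' • s)

/-- The degree function. -/
noncomputable def deg (n : ι) (a : T → ℝ) (x : T) : ℝ := ∫ s, fib m ζ n a x s

theorem dl_self (n : ι) : dl m ζ n n = 0 := by simp [dl, mul_comm]

section hyp

variable {m ζ}

theorem dl_ne (hs : ∀ n n', (m n : ℤ) * ζ n' = m n' * ζ n → n = n') {n n' : ι} (h : n' ≠ n) :
    dl m ζ n n' ≠ 0 := by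
  intro h0
  apply h
  apply hs
  unfold dl at h0; linarith

theorem dl_indep (hm : ∀ n, 1 ≤ m n) (hs : ∀ n n', (m n : ℤ) * ζ n' = m n' * ζ n → n = n')
    (n : ι) {n' n'' : ι} (h : n' ≠ n'') :
    (m n' : ℤ) * dl m ζ n n'' ≠ dl m ζ n n' * m n'' := by
  intro h0
  apply h
  apply hs
  have hn : (m n : ℤ) ≠ 0 := by have := hm n; omega
  apply mul_left_cancel₀ hn
  unfold dl at h0; linarith

theorem indep_v2 (hm : ∀ n, 1 ≤ m n) (hs : ∀ n n', (m n : ℤ) * ζ n' = m n' * ζ n → n = n')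
    (n : ι) (k k' : ι) (h : k ≠ k') : Indep (v2 m ζ n k) (v2 m ζ n k') :=
  Or.inl (dl_indep hm hs n h)

theorem indep_v3 (hm : ∀ n, 1 ≤ m n) (hs : ∀ n n', (m n : ℤ) * ζ n' = m n' * ζ n → n = n')
    (n : ι) (k k' : ι ⊕ {n' // n' ≠ n}) (h : k ≠ k') : Indep (v3 m ζ n k) (v3 m ζ n k') := by
  have hm' : ∀ n, (m n : ℤ) ≠ 0 := fun n => by have := hm n; omega
  rcases k with k | k <;> rcases k' with k' | k'
  · exact indep_v2 hm hs n k k' fun h' => h (by rw [h'])
  · right
    simp only [v3, v2, Sum.elim_inl, Sum.elim_inr, zero_mul]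
    exact mul_ne_zero (hm' _) (dl_ne hs k'.2)
  · right
    simp only [v3, v2, Sum.elim_inl, Sum.elim_inr, mul_zero]
    exact (mul_ne_zero (dl_ne hs k.2) (hm' _)).symm
  · right
    simp only [v3, Sum.elim_inr]
    exact dl_indep hm hs n fun h' => h (by rw [Subtype.ext h'])

theorem vec_ne_zero (hm : ∀ n, 1 ≤ m n) (ν : ι × ℤˣ) : vec m ζ ν ≠ 0 := by
  intro h
  have h1 := congrArg Prod.fst h
  simp only [vec, Prod.fst_zero, mul_eq_zero, Units.ne_zero, false_or] at h1
  have := hm ν.1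
  omega

theorem vec_injective (hm : ∀ n, 1 ≤ m n) (hs : ∀ n n', (m n : ℤ) * ζ n' = m n' * ζ n → n = n') :
    Function.Injective (vec m ζ) := by
  rintro ⟨n, s⟩ ⟨n', s'⟩ h
  simp only [vec, Prod.mk.injEq] at h
  obtain ⟨h1, h2⟩ := h
  have a := hm n
  have b := hm n'
  rcases Int.units_eq_one_or s with rfl | rfl <;> rcases Int.units_eq_one_or s' with rfl | rfl
  · simp only [Units.val_one, one_mul] at h1 h2
    rw [hs n n' (by rw [h1, h2])]
  · simp at h1; omega
  · simp at h1; omega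
  · simp only [Units.val_neg, Units.val_one, neg_mul, one_mul, neg_inj] at h1 h2
    rw [hs n n' (by rw [h1, h2])]

end hyp

theorem ctr_neg (n : ι) (s : ℤˣ) (ω : T × T) : ctr m ζ (n, -s) ω = -ctr m ζ (n, s) ω := by
  rw [ctr, ctr, ← lin2_neg_vec]; simp [vec]

@[fun_prop] theorem continuous_ctr (ν : ι × ℤˣ) : Continuous (ctr m ζ ν) := continuous_lin2 _

theorem ctr_theta (n n' : ι) (p : T × T) :
    ctr m ζ (n', 1) (theta (m n) (ζ n) p) = (m n' : ℤ) • p.1 + dl m ζ n n' • p.2 := by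
  rw [ctr, lin2_theta]; simp [vec, dl]

section unit

variable {a : T → ℝ} (ha : Measurable a) (a0 : ∀ t, 0 ≤ a t) (a1 : ∀ t, a t ≤ 1)

include ha in
theorem measurable_fib (n : ι) : Measurable (Function.uncurry (fib m ζ n a)) := by
  refine Finset.measurable_prod _ fun k _ => ha.comp ?_
  exact Continuous.measurable (by fun_prop)

include a0 a1 in
theorem fib_unit (n : ι) (x s : T) : 0 ≤ fib m ζ n a x s ∧ fib m ζ n a x s ≤ 1 :=
  prod_mem_unit _ _ (fun _ => a0 _) (fun _ => a1 _)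

include ha in
theorem measurable_deg (n : ι) : Measurable (deg m ζ n a) :=
  ((measurable_fib m ζ ha n).stronglyMeasurable.integral_prod_right' (ν := volume)).measurable

theorem integral_unit {X : Type*} [MeasurableSpace X] {μ : Measure X} [IsProbabilityMeasure μ]
    {f : X → ℝ} (h : ∀ x, 0 ≤ f x ∧ f x ≤ 1) : 0 ≤ ∫ x, f x ∂μ ∧ ∫ x, f x ∂μ ≤ 1 := by
  refine ⟨integral_nonneg fun x => (h x).1, ?_⟩
  calc _ ≤ ∫ _x, (1 : ℝ) ∂μ :=
        integral_mono_of_nonneg (Filter.Eventually.of_forall fun x => (h x).1)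
          (integrable_const _) (Filter.Eventually.of_forall fun x => (h x).2)
    _ = 1 := by simp

include a0 a1 in
theorem deg_unit (n : ι) (x : T) : 0 ≤ deg m ζ n a x ∧ deg m ζ n a x ≤ 1 :=
  integral_unit fun s => fib_unit m ζ a0 a1 n x s

include a0 a1 in
theorem cnt_unit {κ : Type} [Fintype κ] (v : κ → ℤ × ℤ × ℤ) : 0 ≤ cnt v a ∧ cnt v a ≤ 1 :=
  integral_unit fun _ => prod_mem_unit _ _ (fun _ => a0 _) (fun _ => a1 _)

theorem prod_v2 (n : ι) (a : T → ℝ) (y : T × T × T) :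
    ∏ k, a (lin3 (v2 m ζ n k) y) = a ((m n : ℤ) • y.1) * fib m ζ n a y.1 y.2.1 := by
  rw [← Finset.mul_prod_erase univ _ (Finset.mem_univ n)]
  simp [lin3, v2, dl_self, fib]

theorem prod_v3 (n : ι) (a : T → ℝ) (y : T × T × T) :
    ∏ k, a (lin3 (v3 m ζ n k) y) =
      a ((m n : ℤ) • y.1) * (fib m ζ n a y.1 y.2.1 * fib m ζ n a y.1 y.2.2) := by
  rw [Fintype.prod_sum_type, ← mul_assoc, ← prod_v2]
  congr 1
  rw [fib, Finset.prod_subtype (F := inferInstance) (univ.erase n) (p := fun n' => n' ≠ n) (by simp)]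
  simp [lin3, v3]

include ha a0 a1 in
theorem errT_eq (n : ι) (c : ℝ) :
    errT m ζ n a c = ∫ x, a ((m n : ℤ) • x) * (deg m ζ n a x - c) ^ 2 := by
  have hf := measurable_fib m ζ ha n
  have ham : Measurable fun x : T => a ((m n : ℤ) • x) :=
    ha.comp (Continuous.measurable (by fun_prop))
  have hd := measurable_deg m ζ ha n
  have mul_unit : ∀ {x y : ℝ}, (0 ≤ x ∧ x ≤ 1) → (0 ≤ y ∧ y ≤ 1) → (0 ≤ x * y ∧ x * y ≤ 1) :=
    fun hx hy => ⟨mul_nonneg hx.1 hy.1, mul_le_one₀ hx.2 hy.1 hy.2⟩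
  have f1 : Measurable fun y : T × T × T => fib m ζ n a y.1 y.2.1 :=
    hf.comp (measurable_fst.prodMk (measurable_fst.comp measurable_snd))
  have f2 : Measurable fun y : T × T × T => fib m ζ n a y.1 y.2.2 :=
    hf.comp (measurable_fst.prodMk (measurable_snd.comp measurable_snd))
  have e3 : cnt (v3 m ζ n) a = ∫ x, a ((m n : ℤ) • x) * deg m ζ n a x ^ 2 := by
    simp only [cnt, prod_v3]
    rw [Measure.volume_eq_prod, integral_prod]
    · refine integral_congr_ae (Filter.Eventually.of_forall fun x => ?_)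
      simp only
      rw [integral_const_mul, Measure.volume_eq_prod,
        integral_prod_mul (f := fun s => fib m ζ n a x s) (g := fun s => fib m ζ n a x s), ← sq]
      rfl
    · exact integrable_of_bdd ((ham.comp measurable_fst).mul (f1.mul f2)) 1 fun y =>
        abs_le_one_of_unit (mul_unit ⟨a0 _, a1 _⟩
          (mul_unit (fib_unit m ζ a0 a1 _ _ _) (fib_unit m ζ a0 a1 _ _ _)))
  have e2 : cnt (v2 m ζ n) a = ∫ x, a ((m n : ℤ) • x) * deg m ζ n a x := by
    simp only [cnt, prod_v2]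
    rw [Measure.volume_eq_prod, integral_prod]
    · refine integral_congr_ae (Filter.Eventually.of_forall fun x => ?_)
      simp only
      rw [integral_const_mul, Measure.volume_eq_prod]
      have := integral_prod_mul (μ := (volume : Measure T)) (ν := (volume : Measure T))
        (f := fun s => fib m ζ n a x s) (g := fun _ => (1 : ℝ))
      simp only [mul_one, integral_const, probReal_univ, smul_eq_mul] at this
      rw [this]; rfl
    · exact integrable_of_bdd ((ham.comp measurable_fst).mul f1) 1 fun y =>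
        abs_le_one_of_unit (mul_unit ⟨a0 _, a1 _⟩ (fib_unit m ζ a0 a1 _ _ _))
  have e1 : cnt (v1 m n) a = ∫ x, a ((m n : ℤ) • x) := by
    have : ∀ y : T × T × T, ∏ k, a (lin3 (v1 m n k) y) = a ((m n : ℤ) • y.1) := by
      intro y; simp [lin3, v1]
    simp only [cnt, this]
    exact integral_comp_mp (measurePreserving_fst (μ := (volume : Measure T))
      (ν := (volume : Measure (T × T)))) ham
  have hdu := deg_unit m ζ a0 a1 n
  have i3 : Integrable (fun x => a ((m n : ℤ) • x) * deg m ζ n a x ^ 2) :=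
    integrable_of_bdd (ham.mul (hd.pow_const 2)) 1 fun x => abs_le_one_of_unit
      (mul_unit ⟨a0 _, a1 _⟩ ⟨sq_nonneg _, pow_le_one₀ (hdu x).1 (hdu x).2⟩)
  have i2 : Integrable (fun x => a ((m n : ℤ) • x) * deg m ζ n a x) :=
    integrable_of_bdd (ham.mul hd) 1 fun x => abs_le_one_of_unit (mul_unit ⟨a0 _, a1 _⟩ (hdu x))
  have i1 : Integrable (fun x => a ((m n : ℤ) • x)) :=
    integrable_of_bdd ham 1 fun x => abs_le_one_of_unit ⟨a0 _, a1 _⟩
  have i23 : Integrable (fun x => a ((m n : ℤ) • x) * deg m ζ n a x ^ 2 -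
      2 * c * (a ((m n : ℤ) • x) * deg m ζ n a x)) := i3.sub (i2.const_mul _)
  rw [errT, e3, e2, e1, ← integral_const_mul, ← integral_const_mul,
    ← integral_sub i3 (i2.const_mul _), ← integral_add i23 (i1.const_mul _)]
  refine integral_congr_ae (Filter.Eventually.of_forall fun x => ?_)
  simp only; ring

include ha a0 a1 in
theorem errT_nonneg (n : ι) (c : ℝ) : 0 ≤ errT m ζ n a c := by
  rw [errT_eq m ζ ha a0 a1]
  exact integral_nonneg fun x => mul_nonneg (a0 _) (sq_nonneg _)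

include ha a0 a1 in
theorem err_nonneg (c : ℝ) : 0 ≤ err m ζ a c :=
  Finset.sum_nonneg fun n _ => errT_nonneg m ζ ha a0 a1 n c

include ha a0 a1 in
theorem l1_le_of_err (n : ι) {c θ : ℝ} (hc0 : 0 ≤ c) (hc1 : c ≤ 1) (hθ : 0 < θ)
    (h : err m ζ a c ≤ θ ^ 2) : ∫ x, a ((m n : ℤ) • x) * |deg m ζ n a x - c| ≤ 2 * θ := by
  have h1 : errT m ζ n a c ≤ θ ^ 2 :=
    (Finset.single_le_sum (fun n _ => errT_nonneg m ζ ha a0 a1 n c) (Finset.mem_univ n)).trans h
  rw [errT_eq m ζ ha a0 a1] at h1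
  have ham : Measurable fun x : T => a ((m n : ℤ) • x) :=
    ha.comp (Continuous.measurable (by fun_prop))
  have hd := measurable_deg m ζ ha n
  have hdu := deg_unit m ζ a0 a1 n
  have i2 : Integrable (fun x => a ((m n : ℤ) • x) * (deg m ζ n a x - c) ^ 2) := by
    refine integrable_of_bdd (ham.mul ((hd.sub measurable_const).pow_const 2)) 1 fun x =>
      abs_le_one_of_unit ⟨mul_nonneg (a0 _) (sq_nonneg _), mul_le_one₀ (a1 _) (sq_nonneg _) ?_⟩
    have := hdu x
    nlinarith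
  calc ∫ x, a ((m n : ℤ) • x) * |deg m ζ n a x - c|
      ≤ ∫ x, (θ + θ⁻¹ * (a ((m n : ℤ) • x) * (deg m ζ n a x - c) ^ 2)) := by
        refine integral_mono_of_nonneg
          (Filter.Eventually.of_forall fun x => mul_nonneg (a0 _) (abs_nonneg _))
          ((integrable_const _).add (i2.const_mul _)) (Filter.Eventually.of_forall fun x => ?_)
        simp only
        set z := |deg m ζ n a x - c| with hz
        have hz0 : 0 ≤ z := abs_nonneg _
        have hz2 : (deg m ζ n a x - c) ^ 2 = z ^ 2 := (sq_abs _).symm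
        rw [hz2]
        have h2 : z ≤ θ + θ⁻¹ * z ^ 2 := by
          have : θ * z ≤ θ * (θ + θ⁻¹ * z ^ 2) := by
            have e : θ * (θ + θ⁻¹ * z ^ 2) = θ ^ 2 + z ^ 2 := by field_simp
            rw [e]; nlinarith [sq_nonneg (θ - z)]
          exact le_of_mul_le_mul_left this hθ
        have h3 := mul_le_mul_of_nonneg_left h2 (a0 ((m n : ℤ) • x))
        have h4 : a ((m n : ℤ) • x) * θ ≤ θ := mul_le_of_le_one_left hθ.le (a1 _)
        nlinarith
    _ = θ + θ⁻¹ * ∫ x, a ((m n : ℤ) • x) * (deg m ζ n a x - c) ^ 2 := by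
        rw [integral_add (integrable_const _) (i2.const_mul _), integral_const_mul]; simp
    _ ≤ θ + θ⁻¹ * θ ^ 2 := by gcongr
    _ = 2 * θ := by field_simp; ring

end unit

theorem err_one : err m ζ (fun _ => 1) 1 = 0 := by
  simp [err, errT, cnt]; norm_num

end Crest.Agent.R75.Pack
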