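import Crest.Agent.R75.PackErr

/-!
# Row 75, packing module: valid segments, the covering relation and its first moments
-/

set_option autoImplicit false
set_option linter.unusedSectionVars false

open Finset MeasureTheory

namespace Crest.Agent.R75.Pack

variable {ι : Type} [Fintype ι] [DecidableEq ι] (m : ι → ℕ) (ζ : ι → ℤ)

/-- Real indicator of a set. -/
noncomputable def ind {X : Type*} (A : Set X) : X → ℝ := A.indicator fun _ => 1

theorem ind_of_mem {X : Type*} {A : Set X} {x : X} (h : x ∈ A) : ind A x = 1 := by simp [ind, h]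

theorem ind_of_notMem {X : Type*} {A : Set X} {x : X} (h : x ∉ A) : ind A x = 0 := by
  simp [ind, h]

theorem ind_nonneg {X : Type*} (A : Set X) (x : X) : 0 ≤ ind A x := by
  by_cases h : x ∈ A
  · rw [ind_of_mem h]; exact zero_le_one
  · rw [ind_of_notMem h]

theorem ind_le_one {X : Type*} (A : Set X) (x : X) : ind A x ≤ 1 := by
  by_cases h : x ∈ A
  · rw [ind_of_mem h]
  · rw [ind_of_notMem h]; exact zero_le_one

theorem measurable_ind {X : Type*} [MeasurableSpace X] {A : Set X} (hA : MeasurableSet A) :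
    Measurable (ind A) := measurable_const.indicator hA

theorem integral_ind {X : Type*} [MeasurableSpace X] (μ : Measure X) {A : Set X}
    (hA : MeasurableSet A) : ∫ x, ind A x ∂μ = μ.real A := integral_indicator_one hA

theorem integrable_ind {X : Type*} [MeasurableSpace X] (μ : Measure X) [IsFiniteMeasure μ]
    {A : Set X} (hA : MeasurableSet A) : Integrable (ind A) μ :=
  integrable_of_bdd (measurable_ind hA) 1 fun _ => abs_le_one_of_unit ⟨ind_nonneg _ _, ind_le_one _ _⟩

/-- The sum of the first frequencies. -/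
def MM : ℝ := ∑ n, (m n : ℝ)

theorem le_MM (n : ι) : (m n : ℝ) ≤ MM m :=
  Finset.single_le_sum (f := fun n => (m n : ℝ)) (fun _ _ => Nat.cast_nonneg _) (Finset.mem_univ n)

theorem MM_nonneg : 0 ≤ MM m := Finset.sum_nonneg fun _ _ => Nat.cast_nonneg _

theorem sum_signed (f : ι × ℤˣ → ℝ) : ∑ ν, f ν = ∑ n, (f (n, 1) + f (n, -1)) := by
  rw [Fintype.sum_prod_type]
  refine Finset.sum_congr rfl fun n _ => ?_
  rw [UnitsInt.univ, Finset.sum_pair (by decide)]

theorem sum_m_signed : ∑ ν : ι × ℤˣ, (m ν.1 : ℝ) = 2 * MM m := by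
  rw [sum_signed, MM, Finset.mul_sum]
  exact Finset.sum_congr rfl fun n _ => by ring

/-- Valid centres: all tile centres lie in `A \ B`, and the tiles are separated. -/
def Valid (A B : Set T) (r : ℝ) : Set (T × T) :=
  {ω | (∀ n, ctr m ζ (n, 1) ω ∈ A ∧ ctr m ζ (n, 1) ω ∉ B) ∧
    ∀ ν ν', ν ≠ ν' → 2 * MM m * r < dist (ctr m ζ ν ω) (ctr m ζ ν' ω)}

theorem measurableSet_Valid {A B : Set T} (hA : MeasurableSet A) (hB : MeasurableSet B) (r : ℝ) :
    MeasurableSet (Valid m ζ A B r) := by
  have : Valid m ζ A B r = (⋂ n, (ctr m ζ (n, 1) ⁻¹' A ∩ (ctr m ζ (n, 1) ⁻¹' B)ᶜ)) ∩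
      ⋂ ν, ⋂ ν', ⋂ (_ : ν ≠ ν'), {ω | 2 * MM m * r < dist (ctr m ζ ν ω) (ctr m ζ ν' ω)} := by
    ext ω; simp [Valid]
  rw [this]
  refine (MeasurableSet.iInter fun n => ((continuous_ctr m ζ _).measurable hA).inter
    ((continuous_ctr m ζ _).measurable hB).compl).inter ?_
  exact MeasurableSet.iInter fun ν => MeasurableSet.iInter fun ν' => MeasurableSet.iInter fun _ =>
    (isOpen_lt continuous_const (by fun_prop)).measurableSet

/-- The covering relation through the tile of type `ν`. -/
def HitAt (A B : Set T) (r : ℝ) (ν : ι × ℤˣ) : Set ((T × T) × T) :=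
  {p | p.1 ∈ Valid m ζ A B r ∧ p.2 ∈ tile m ζ ν r p.1}

/-- The covering relation. -/
def Hit (A B : Set T) (r : ℝ) : Set ((T × T) × T) := ⋃ ν, HitAt m ζ A B r ν

theorem measurableSet_HitAt {A B : Set T} (hA : MeasurableSet A) (hB : MeasurableSet B) (r : ℝ)
    (ν : ι × ℤˣ) : MeasurableSet (HitAt m ζ A B r ν) := by
  refine (measurable_fst (measurableSet_Valid m ζ hA hB r)).inter ?_
  exact (isClosed_le (f := fun p : (T × T) × T => dist p.2 (ctr m ζ ν p.1)) (by fun_prop)
    continuous_const).measurableSet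

theorem measurableSet_Hit {A B : Set T} (hA : MeasurableSet A) (hB : MeasurableSet B) (r : ℝ) :
    MeasurableSet (Hit m ζ A B r) :=
  MeasurableSet.iUnion fun ν => measurableSet_HitAt m ζ hA hB r ν

theorem tile_disjoint_of_lt {r : ℝ} (hr : 0 ≤ r) {ν ν' : ι × ℤˣ} {ω ω' : T × T}
    (h : 2 * MM m * r < dist (ctr m ζ ν ω) (ctr m ζ ν' ω')) :
    Disjoint (tile m ζ ν r ω) (tile m ζ ν' r ω') := by
  refine Metric.closedBall_disjoint_closedBall (lt_of_le_of_lt ?_ h)
  have a := mul_le_mul_of_nonneg_right (le_MM m ν.1) hr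
  have b := mul_le_mul_of_nonneg_right (le_MM m ν'.1) hr
  linarith

theorem ind_Hit_eq (A B : Set T) {r : ℝ} (hr : 0 ≤ r) (p : (T × T) × T) :
    ind (Hit m ζ A B r) p = ∑ ν, ind (HitAt m ζ A B r ν) p := by
  by_cases h : p ∈ Hit m ζ A B r
  · rw [ind_of_mem h]
    obtain ⟨ν, hν⟩ := Set.mem_iUnion.1 h
    rw [Finset.sum_eq_single ν, ind_of_mem hν]
    · intro ν' _ hne
      refine ind_of_notMem fun h' => ?_
      exact Set.disjoint_left.1 (tile_disjoint_of_lt m ζ hr (hν.1.2 ν' ν hne)) h'.2 hν.2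
    · simp
  · rw [ind_of_notMem h]
    exact (Finset.sum_eq_zero fun ν _ => ind_of_notMem fun h' => h (Set.mem_iUnion.2 ⟨ν, h'⟩)).symm

variable {m ζ}

theorem integral_HitAt_snd_le (A B : Set T) {r : ℝ} (hr : 0 ≤ r) (ν : ι × ℤˣ) (ω : T × T) :
    ∫ t, ind (HitAt m ζ A B r ν) (ω, t) ≤ 2 * (m ν.1 * r) := by
  calc ∫ t, ind (HitAt m ζ A B r ν) (ω, t) ≤ ∫ t, ind (tile m ζ ν r ω) t := by
        refine integral_mono_of_nonneg (Filter.Eventually.of_forall fun t => ind_nonneg _ _)
          (integrable_ind _ measurableSet_closedBall) (Filter.Eventually.of_forall fun t => ?_)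
        by_cases h : (ω, t) ∈ HitAt m ζ A B r ν
        · simp only; rw [ind_of_mem h, ind_of_mem h.2]
        · simp only; rw [ind_of_notMem h]; exact ind_nonneg _ _
    _ ≤ 2 * (m ν.1 * r) := by
        rw [tile, integral_ind _ measurableSet_closedBall]
        exact real_closedBall_le _ (by positivity)

theorem integral_HitAt_fst_le (hm : ∀ n, 1 ≤ m n) (A B : Set T) {r : ℝ} (hr : 0 ≤ r)
    (ν : ι × ℤˣ) (t : T) : ∫ ω, ind (HitAt m ζ A B r ν) (ω, t) ≤ 2 * (m ν.1 * r) := by
  have hmp := mp_lin2 (vec_ne_zero (ζ := ζ) hm ν)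
  have hb : MeasurableSet (Metric.closedBall t (m ν.1 * r)) := measurableSet_closedBall
  calc ∫ ω, ind (HitAt m ζ A B r ν) (ω, t)
      ≤ ∫ ω, ind (Metric.closedBall t (m ν.1 * r)) (lin2 (vec m ζ ν) ω) := by
        refine integral_mono_of_nonneg (Filter.Eventually.of_forall fun t => ind_nonneg _ _)
          (hmp.integrable_comp_of_integrable (integrable_ind _ hb))
          (Filter.Eventually.of_forall fun ω => ?_)
        by_cases h : (ω, t) ∈ HitAt m ζ A B r ν
        · simp only
          rw [ind_of_mem h, ind_of_mem]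
          exact Metric.mem_closedBall_comm.1 h.2
        · simp only; rw [ind_of_notMem h]; exact ind_nonneg _ _
    _ ≤ 2 * (m ν.1 * r) := by
        rw [integral_comp_mp hmp (measurable_ind hb), integral_ind _ hb]
        exact real_closedBall_le _ (by positivity)

theorem sum_two_mul (r : ℝ) : ∑ ν : ι × ℤˣ, 2 * ((m ν.1 : ℝ) * r) = 4 * MM m * r := by
  rw [← Finset.mul_sum, ← Finset.sum_mul, sum_m_signed]; ring

theorem integrable_HitAt_fst {A B : Set T} (hA : MeasurableSet A) (hB : MeasurableSet B) (r : ℝ)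
    (ν : ι × ℤˣ) (t : T) : Integrable fun ω => ind (HitAt m ζ A B r ν) (ω, t) :=
  integrable_of_bdd ((measurable_ind (measurableSet_HitAt m ζ hA hB r ν)).comp
    measurable_prodMk_right) 1 fun _ => abs_le_one_of_unit ⟨ind_nonneg _ _, ind_le_one _ _⟩

theorem integral_Hit_fst_eq {A B : Set T} (hA : MeasurableSet A) (hB : MeasurableSet B) {r : ℝ}
    (hr : 0 ≤ r) (t : T) :
    ∫ ω, ind (Hit m ζ A B r) (ω, t) = ∑ ν, ∫ ω, ind (HitAt m ζ A B r ν) (ω, t) := by
  simp only [ind_Hit_eq m ζ A B hr]
  exact integral_finsetSum _ fun ν _ => integrable_HitAt_fst hA hB r ν t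

theorem integral_Hit_fst_le (hm : ∀ n, 1 ≤ m n) {A B : Set T} (hA : MeasurableSet A)
    (hB : MeasurableSet B) {r : ℝ} (hr : 0 ≤ r) (t : T) :
    ∫ ω, ind (Hit m ζ A B r) (ω, t) ≤ 4 * MM m * r := by
  rw [integral_Hit_fst_eq hA hB hr, ← sum_two_mul]
  exact Finset.sum_le_sum fun ν _ => integral_HitAt_fst_le hm A B hr ν t

theorem integral_Hit_snd_le {A B : Set T} (hA : MeasurableSet A)
    (hB : MeasurableSet B) {r : ℝ} (hr : 0 ≤ r) (ω : T × T) :
    ∫ t, ind (Hit m ζ A B r) (ω, t) ≤ 4 * MM m * r := by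
  simp only [ind_Hit_eq m ζ A B hr]
  rw [integral_finsetSum, ← sum_two_mul]
  · exact Finset.sum_le_sum fun ν _ => integral_HitAt_snd_le A B hr ν ω
  · intro ν _
    exact integrable_of_bdd ((measurable_ind (measurableSet_HitAt m ζ hA hB r ν)).comp
      measurable_prodMk_left) 1 fun _ => abs_le_one_of_unit ⟨ind_nonneg _ _, ind_le_one _ _⟩

/-- The measure of centres with all tile centres in `A` that are not valid. -/
theorem integral_bad_le (hm : ∀ n, 1 ≤ m n)
    (hs : ∀ n n', (m n : ℤ) * ζ n' = m n' * ζ n → n = n') {A B : Set T} (hA : MeasurableSet A)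
    (hB : MeasurableSet B) {r : ℝ} (hr : 0 ≤ r) :
    ∫ ω, ((∏ n, ind A (ctr m ζ (n, 1) ω)) - ind (Valid m ζ A B r) ω) ≤
      Fintype.card ι * (volume : Measure T).real B +
        (Fintype.card (ι × ℤˣ)) ^ 2 * (4 * MM m * r) := by
  have hM := MM_nonneg m
  set C := Metric.closedBall (0 : T) (2 * MM m * r) with hC
  have hCm : MeasurableSet C := measurableSet_closedBall
  have mp1 : ∀ n, MeasurePreserving (ctr m ζ (n, 1)) volume volume := fun n =>
    mp_lin2 (vec_ne_zero hm _)
  have mp2 : ∀ ν ν' : ι × ℤˣ, ν' ∈ univ.erase ν →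
      MeasurePreserving (lin2 (vec m ζ ν - vec m ζ ν')) volume volume := fun ν ν' h =>
    mp_lin2 (sub_ne_zero.2 fun h' => Finset.ne_of_mem_erase h (vec_injective hm hs h').symm)
  have i1 : ∀ n, Integrable fun ω => ind B (ctr m ζ (n, 1) ω) := fun n =>
    (mp1 n).integrable_comp_of_integrable (integrable_ind _ hB)
  have i2 : ∀ ν ν' : ι × ℤˣ, ν' ∈ univ.erase ν →
      Integrable fun ω => ind C (lin2 (vec m ζ ν - vec m ζ ν') ω) := fun ν ν' h =>
    (mp2 ν ν' h).integrable_comp_of_integrable (integrable_ind _ hCm)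
  have j1 : Integrable fun ω => ∑ n, ind B (ctr m ζ (n, 1) ω) := integrable_finsetSum _ fun n _ => i1 n
  have j2 : Integrable fun ω => ∑ ν : ι × ℤˣ, ∑ ν' ∈ univ.erase ν,
      ind C (lin2 (vec m ζ ν - vec m ζ ν') ω) :=
    integrable_finsetSum _ fun ν _ => integrable_finsetSum _ fun ν' h => i2 ν ν' h
  have j0 : Integrable fun ω => (∏ n, ind A (ctr m ζ (n, 1) ω)) - ind (Valid m ζ A B r) ω := by
    refine Integrable.sub ?_ (integrable_ind _ (measurableSet_Valid m ζ hA hB r))
    exact integrable_of_bdd (Finset.measurable_prod _ fun n _ =>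
      (measurable_ind hA).comp (mp1 n).measurable) 1 fun ω => abs_le_one_of_unit
        (prod_mem_unit _ _ (fun _ => ind_nonneg _ _) (fun _ => ind_le_one _ _))
  calc _ ≤ ∫ ω, (∑ n, ind B (ctr m ζ (n, 1) ω) + ∑ ν : ι × ℤˣ, ∑ ν' ∈ univ.erase ν,
        ind C (lin2 (vec m ζ ν - vec m ζ ν') ω)) := by
        refine integral_mono j0 (j1.add j2) fun ω => ?_
        simp only
        have s1 : 0 ≤ ∑ n, ind B (ctr m ζ (n, 1) ω) := Finset.sum_nonneg fun _ _ => ind_nonneg _ _
        have s2 : 0 ≤ ∑ ν : ι × ℤˣ, ∑ ν' ∈ univ.erase ν, ind C (lin2 (vec m ζ ν - vec m ζ ν') ω) :=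
          Finset.sum_nonneg fun _ _ => Finset.sum_nonneg fun _ _ => ind_nonneg _ _
        have p1 := prod_mem_unit univ (fun n => ind A (ctr m ζ (n, 1) ω))
          (fun _ => ind_nonneg _ _) (fun _ => ind_le_one _ _)
        by_cases hv : ω ∈ Valid m ζ A B r
        · rw [ind_of_mem hv]; linarith [p1.2]
        rw [ind_of_notMem hv, sub_zero]
        by_cases hA' : ∀ n, ctr m ζ (n, 1) ω ∈ A
        swap
        · push Not at hA'
          obtain ⟨n, hn⟩ := hA'
          rw [Finset.prod_eq_zero (f := fun n => ind A (ctr m ζ (n, 1) ω)) (Finset.mem_univ n)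
            (ind_of_notMem hn)]
          linarith
        by_cases hB' : ∀ n, ctr m ζ (n, 1) ω ∉ B
        swap
        · push Not at hB'
          obtain ⟨n, hn⟩ := hB'
          have : ind B (ctr m ζ (n, 1) ω) ≤ ∑ n, ind B (ctr m ζ (n, 1) ω) :=
            Finset.single_le_sum (f := fun n => ind B (ctr m ζ (n, 1) ω))
              (fun _ _ => ind_nonneg _ _) (Finset.mem_univ n)
          rw [ind_of_mem hn] at this
          linarith [p1.2]
        have : ¬ ∀ ν ν', ν ≠ ν' → 2 * MM m * r < dist (ctr m ζ ν ω) (ctr m ζ ν' ω) :=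
          fun h => hv ⟨fun n => ⟨hA' n, hB' n⟩, h⟩
        push Not at this
        obtain ⟨ν, ν', hne, hd⟩ := this
        have t1 : ind C (lin2 (vec m ζ ν - vec m ζ ν') ω) = 1 := by
          refine ind_of_mem ?_
          rw [hC, mem_closedBall_zero_iff, lin2_sub_vec, ← dist_eq_norm]; exact hd
        have t2 : ind C (lin2 (vec m ζ ν - vec m ζ ν') ω) ≤
            ∑ ν' ∈ univ.erase ν, ind C (lin2 (vec m ζ ν - vec m ζ ν') ω) :=
          Finset.single_le_sum (f := fun ν' => ind C (lin2 (vec m ζ ν - vec m ζ ν') ω))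
            (fun _ _ => ind_nonneg _ _) (Finset.mem_erase.2 ⟨hne.symm, Finset.mem_univ _⟩)
        have t3 : ∑ ν' ∈ univ.erase ν, ind C (lin2 (vec m ζ ν - vec m ζ ν') ω) ≤
            ∑ ν : ι × ℤˣ, ∑ ν' ∈ univ.erase ν, ind C (lin2 (vec m ζ ν - vec m ζ ν') ω) :=
          Finset.single_le_sum
            (f := fun ν => ∑ ν' ∈ univ.erase ν, ind C (lin2 (vec m ζ ν - vec m ζ ν') ω))
            (fun _ _ => Finset.sum_nonneg fun _ _ => ind_nonneg _ _) (Finset.mem_univ ν)
        linarith [p1.2]
    _ ≤ _ := by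
        rw [integral_add j1 j2, integral_finsetSum _ fun n _ => i1 n,
          integral_finsetSum _ fun ν _ => integrable_finsetSum _ fun ν' h => i2 ν ν' h]
        have hCle : (volume : Measure T).real C ≤ 4 * MM m * r :=
          (real_closedBall_le _ (by positivity)).trans (by linarith)
        refine add_le_add (le_of_eq ?_) ?_
        · rw [Finset.sum_congr rfl fun n _ =>
            (integral_comp_mp (mp1 n) (measurable_ind hB)).trans (integral_ind _ hB)]
          simp
        · calc _ ≤ ∑ _ν : ι × ℤˣ, (Fintype.card (ι × ℤˣ) : ℝ) * (4 * MM m * r) := by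
                refine Finset.sum_le_sum fun ν _ => ?_
                rw [integral_finsetSum _ fun ν' h => i2 ν ν' h]
                calc _ ≤ ∑ _ν' ∈ univ.erase ν, 4 * MM m * r := Finset.sum_le_sum fun ν' h => by
                      rw [integral_comp_mp (mp2 ν ν' h) (measurable_ind hCm), integral_ind _ hCm]
                      exact hCle
                  _ ≤ ∑ _ν' : ι × ℤˣ, 4 * MM m * r := Finset.sum_le_sum_of_subset_of_nonneg
                      (Finset.erase_subset _ _) fun _ _ _ => by positivity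
                  _ = _ := by rw [Finset.sum_const, nsmul_eq_mul, Finset.card_univ]
            _ = _ := by rw [Finset.sum_const, nsmul_eq_mul, Finset.card_univ]; ring

/-- The covering probability through one tile type is close to its mean on `A`. -/
theorem l1_HitAt_pos (hm : ∀ n, 1 ≤ m n) {A B : Set T} (hA : MeasurableSet A)
    (hB : MeasurableSet B) {r c β : ℝ} (hr : 0 ≤ r) (hr1 : 2 * (MM m * r) ≤ 1)
    (hc0 : 0 ≤ c) (hc1 : c ≤ 1)
    (hAB : ∀ t, t ∉ B → ∀ t', dist t t' ≤ MM m * r → (t ∈ A ↔ t' ∈ A)) (n : ι)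
    (hβ : (∫ x, ind A ((m n : ℤ) • x) * |deg m ζ n (ind A) x - c|) +
      (∫ ω, ((∏ n, ind A (ctr m ζ (n, 1) ω)) - ind (Valid m ζ A B r) ω)) +
      (volume : Measure T).real B ≤ β) :
    ∫ t, ind A t * |(∫ ω, ind (HitAt m ζ A B r (n, 1)) (ω, t)) - 2 * (m n * r) * c| ≤
      2 * (m n * r) * β := by
  have hmn : (m n : ℤ) ≠ 0 := by have := hm n; omega
  have hmr : (m n : ℝ) * r ≤ MM m * r := mul_le_mul_of_nonneg_right (le_MM m n) hr
  have hmr0 : 0 ≤ (m n : ℝ) * r := by positivity
  have hV := measurableSet_Valid m ζ hA hB r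
  have mpθ := mp_theta hmn (ζ n)
  have mpm := mp_zsmul hmn
  set Dv : T → ℝ := fun x => ∫ s, ind (Valid m ζ A B r) (theta (m n) (ζ n) (x, s)) with hDv
  have hVθ : Measurable fun p : T × T => ind (Valid m ζ A B r) (theta (m n) (ζ n) p) :=
    (measurable_ind hV).comp mpθ.measurable
  have hDvm : Measurable Dv := (hVθ.stronglyMeasurable.integral_prod_right' (ν := volume)).measurable
  have hDvu : ∀ x, 0 ≤ Dv x ∧ Dv x ≤ 1 := fun x =>
    integral_unit fun s => ⟨ind_nonneg _ _, ind_le_one _ _⟩
  set K : Set (T × T) := {p | dist p.1 ((m n : ℤ) • p.2) ≤ m n * r} with hK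
  have hKm : MeasurableSet K :=
    (isClosed_le (f := fun p : T × T => dist p.1 ((m n : ℤ) • p.2)) (by fun_prop)
      continuous_const).measurableSet
  have hk := measurable_ind hKm
  have hk1 : ∀ t, Measurable fun x => ind K (t, x) := fun t => hk.comp measurable_prodMk_left
  have hk2 : ∀ x, Measurable fun t => ind K (t, x) := fun t => hk.comp measurable_prodMk_right
  have mul_unit : ∀ {x y : ℝ}, (0 ≤ x ∧ x ≤ 1) → (0 ≤ y ∧ y ≤ 1) → (0 ≤ x * y ∧ x * y ≤ 1) :=
    fun hx hy => ⟨mul_nonneg hx.1 hy.1, mul_le_one₀ hx.2 hy.1 hy.2⟩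
  have iu : ∀ {X : Type} (S : Set X) (x : X), 0 ≤ ind S x ∧ ind S x ≤ 1 := fun S x =>
    ⟨ind_nonneg _ _, ind_le_one _ _⟩
  have habs : ∀ x, 0 ≤ |Dv x - c| ∧ |Dv x - c| ≤ 1 := fun x =>
    ⟨abs_nonneg _, abs_le.2 ⟨by linarith [(hDvu x).1], by linarith [(hDvu x).2]⟩⟩
  -- step 1
  have e1 : ∀ t, ∫ ω, ind (HitAt m ζ A B r (n, 1)) (ω, t) = ∫ x, ind K (t, x) * Dv x := by
    intro t
    rw [← integral_comp_mp mpθ (g := fun ω => ind (HitAt m ζ A B r (n, 1)) (ω, t))
      ((measurable_ind (measurableSet_HitAt m ζ hA hB r _)).comp measurable_prodMk_right)]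
    have : ∀ p : T × T, ind (HitAt m ζ A B r (n, 1)) (theta (m n) (ζ n) p, t) =
        ind K (t, p.1) * ind (Valid m ζ A B r) (theta (m n) (ζ n) p) := by
      intro p
      have hmem : t ∈ tile m ζ (n, 1) r (theta (m n) (ζ n) p) ↔ (t, p.1) ∈ K := by
        simp [tile, ctr_theta, dl_self, hK]
      have hmem' : (theta (m n) (ζ n) p, t) ∈ HitAt m ζ A B r (n, 1) ↔
          theta (m n) (ζ n) p ∈ Valid m ζ A B r ∧ (t, p.1) ∈ K := by
        rw [← hmem]; rfl
      by_cases h1 : theta (m n) (ζ n) p ∈ Valid m ζ A B r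
      · by_cases h2 : (t, p.1) ∈ K
        · rw [ind_of_mem h1, ind_of_mem h2, ind_of_mem (hmem'.2 ⟨h1, h2⟩), mul_one]
        · rw [ind_of_notMem h2, ind_of_notMem (mt hmem'.1 fun h => h2 h.2), zero_mul]
      · rw [ind_of_notMem h1, ind_of_notMem (mt hmem'.1 fun h => h1 h.1), mul_zero]
    simp only [this]
    rw [Measure.volume_eq_prod, integral_prod]
    · exact integral_congr_ae (Filter.Eventually.of_forall fun x => by
        simp only [hDv]; rw [integral_const_mul])
    · exact integrable_of_bdd (((hk1 t).comp measurable_fst).mul hVθ) 1 fun p =>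
        abs_le_one_of_unit (mul_unit (iu _ _) (iu _ _))
  have e2 : ∀ t, ∫ x, ind K (t, x) = 2 * (m n * r) := by
    intro t
    have hb : MeasurableSet (Metric.closedBall t (m n * r)) := measurableSet_closedBall
    have : ∀ x : T, ind K (t, x) = ind (Metric.closedBall t (m n * r)) ((m n : ℤ) • x) := by
      intro x
      have : (t, x) ∈ K ↔ (m n : ℤ) • x ∈ Metric.closedBall t (m n * r) := by
        simp [hK, dist_comm]
      by_cases h : (t, x) ∈ K
      · rw [ind_of_mem h, ind_of_mem (this.1 h)]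
      · rw [ind_of_notMem h, ind_of_notMem fun h' => h (this.2 h')]
    simp only [this]
    rw [integral_comp_mp mpm (measurable_ind hb), integral_ind _ hb,
      real_closedBall_eq _ hmr0 (by linarith)]
  have e3 : ∀ t, ind A t * |(∫ ω, ind (HitAt m ζ A B r (n, 1)) (ω, t)) - 2 * (m n * r) * c| ≤
      ∫ x, ind A t * ind K (t, x) * |Dv x - c| := by
    intro t
    have i1 : Integrable fun x => ind K (t, x) * Dv x :=
      integrable_of_bdd ((hk1 t).mul hDvm) 1 fun x => abs_le_one_of_unit (mul_unit (iu _ _) (hDvu x))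
    have i2 : Integrable fun x => ind K (t, x) :=
      integrable_of_bdd (hk1 t) 1 fun x => abs_le_one_of_unit (iu _ _)
    rw [e1, ← e2 t, ← integral_mul_const, ← integral_sub i1 (i2.mul_const _)]
    simp only [mul_assoc]
    rw [integral_const_mul]
    refine mul_le_mul_of_nonneg_left ?_ (ind_nonneg _ _)
    refine abs_integral_le_integral_abs.trans (le_of_eq ?_)
    refine integral_congr_ae (Filter.Eventually.of_forall fun x => ?_)
    simp only
    rw [← mul_sub, abs_mul, abs_of_nonneg (ind_nonneg _ _)]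
  have hFm : Measurable (Function.uncurry fun (t x : T) => ind A t * ind K (t, x) * |Dv x - c|) :=
    (((measurable_ind hA).comp measurable_fst).mul hk).mul
      ((hDvm.comp measurable_snd).sub measurable_const).abs
  have hFi : Integrable (Function.uncurry fun (t x : T) => ind A t * ind K (t, x) * |Dv x - c|)
      ((volume : Measure T).prod volume) :=
    integrable_of_bdd hFm 1 fun p =>
      abs_le_one_of_unit (mul_unit (mul_unit (iu _ _) (iu _ _)) (habs _))
  -- step 2
  have hd := measurable_deg m ζ (measurable_ind hA) n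
  have hdu := deg_unit m ζ (ind_nonneg A) (ind_le_one A) n
  have ham : Measurable fun x : T => ind A ((m n : ℤ) • x) := (measurable_ind hA).comp mpm.measurable
  have hVle : ∀ x s, ind (Valid m ζ A B r) (theta (m n) (ζ n) (x, s)) ≤
      ind A ((m n : ℤ) • x) * fib m ζ n (ind A) x s := by
    intro x s
    by_cases h : theta (m n) (ζ n) (x, s) ∈ Valid m ζ A B r
    · have h1 : ∀ n', (m n' : ℤ) • x + dl m ζ n n' • s ∈ A := fun n' => by
        have := (h.1 n').1
        rwa [ctr_theta] at this
      have h2 : (m n : ℤ) • x ∈ A := by simpa [dl_self] using h1 n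
      rw [ind_of_mem h, ind_of_mem h2, fib, Finset.prod_eq_one fun n' _ => ind_of_mem (h1 n')]
      simp
    · rw [ind_of_notMem h]
      exact mul_nonneg (ind_nonneg _ _) (fib_unit m ζ (ind_nonneg A) (ind_le_one A) n x s).1
  have hfm := measurable_fib m ζ (measurable_ind hA) n
  have hDle : ∀ x, Dv x ≤ ind A ((m n : ℤ) • x) * deg m ζ n (ind A) x := by
    intro x
    rw [deg, ← integral_const_mul]
    refine integral_mono_of_nonneg (Filter.Eventually.of_forall fun s => ind_nonneg _ _) ?_
      (Filter.Eventually.of_forall fun s => hVle x s)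
    exact (integrable_of_bdd hfm.of_uncurry_left 1 fun s =>
      abs_le_one_of_unit (fib_unit m ζ (ind_nonneg A) (ind_le_one A) n x s)).const_mul _
  have e4 : ∀ x, ∫ t, ind A t * ind K (t, x) * |Dv x - c| ≤
      2 * (m n * r) * (ind A ((m n : ℤ) • x) * |deg m ζ n (ind A) x - c| +
        (ind A ((m n : ℤ) • x) * deg m ζ n (ind A) x - Dv x) + ind B ((m n : ℤ) • x)) := by
    intro x
    rw [integral_mul_const]
    have b1 : ∫ t, ind A t * ind K (t, x) ≤ 2 * (m n * r) := by
      calc _ ≤ ∫ t, ind (Metric.closedBall ((m n : ℤ) • x) (m n * r)) t := by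
            refine integral_mono_of_nonneg
              (Filter.Eventually.of_forall fun t => mul_nonneg (ind_nonneg _ _) (ind_nonneg _ _))
              (integrable_ind _ measurableSet_closedBall) (Filter.Eventually.of_forall fun t => ?_)
            simp only
            by_cases h : (t, x) ∈ K
            · rw [ind_of_mem h, ind_of_mem (A := Metric.closedBall _ _) h, mul_one]
              exact ind_le_one _ _
            · rw [ind_of_notMem h, mul_zero]; exact ind_nonneg _ _
        _ ≤ _ := by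
            rw [integral_ind _ measurableSet_closedBall]; exact real_closedBall_le _ hmr0
    have n1 : 0 ≤ ind A ((m n : ℤ) • x) * |deg m ζ n (ind A) x - c| :=
      mul_nonneg (ind_nonneg _ _) (abs_nonneg _)
    have n2 := hDle x
    have n3 := ind_nonneg B ((m n : ℤ) • x)
    by_cases hxB : (m n : ℤ) • x ∈ B
    · refine mul_le_mul b1 ?_ (abs_nonneg _) (by positivity)
      rw [ind_of_mem hxB]; linarith [(habs x).2]
    by_cases hxA : (m n : ℤ) • x ∈ A
    · refine mul_le_mul b1 ?_ (abs_nonneg _) (by positivity)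
      rw [ind_of_mem hxA] at n2 ⊢
      have := abs_sub_le (Dv x) (deg m ζ n (ind A) x) c
      rw [abs_sub_comm (Dv x) (deg m ζ n (ind A) x),
        abs_of_nonneg (a := deg m ζ n (ind A) x - Dv x) (by linarith)] at this
      linarith
    · have : ∫ t, ind A t * ind K (t, x) = 0 := by
        refine integral_eq_zero_of_ae (Filter.Eventually.of_forall fun t => ?_)
        simp only [Pi.zero_apply]
        by_cases h : (t, x) ∈ K
        · rw [ind_of_notMem, zero_mul]
          intro ht
          refine hxA ((hAB _ hxB t ?_).2 ht)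
          rw [dist_comm]; exact le_trans h hmr
        · rw [ind_of_notMem h, mul_zero]
      rw [this, zero_mul]
      exact mul_nonneg (by positivity) (by linarith)
  have i1 : Integrable fun x => ind A ((m n : ℤ) • x) * |deg m ζ n (ind A) x - c| :=
    integrable_of_bdd (ham.mul (hd.sub measurable_const).abs) 1 fun x =>
      abs_le_one_of_unit (mul_unit (iu _ _)
        ⟨abs_nonneg _, abs_le.2 ⟨by linarith [(hdu x).1], by linarith [(hdu x).2]⟩⟩)
  have i2a : Integrable fun x => ind A ((m n : ℤ) • x) * deg m ζ n (ind A) x :=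
    integrable_of_bdd (ham.mul hd) 1 fun x => abs_le_one_of_unit (mul_unit (iu _ _) (hdu x))
  have i2b : Integrable Dv := integrable_of_bdd hDvm 1 fun x => abs_le_one_of_unit (hDvu x)
  have i2 : Integrable fun x => ind A ((m n : ℤ) • x) * deg m ζ n (ind A) x - Dv x := i2a.sub i2b
  have i3 : Integrable fun x => ind B ((m n : ℤ) • x) :=
    mpm.integrable_comp_of_integrable (integrable_ind _ hB)
  have i12 : Integrable fun x => ind A ((m n : ℤ) • x) * |deg m ζ n (ind A) x - c| +
      (ind A ((m n : ℤ) • x) * deg m ζ n (ind A) x - Dv x) := i1.add i2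
  have e5 : ∫ x, (ind A ((m n : ℤ) • x) * deg m ζ n (ind A) x - Dv x) =
      ∫ ω, ((∏ n, ind A (ctr m ζ (n, 1) ω)) - ind (Valid m ζ A B r) ω) := by
    have hPm : Measurable fun ω => ∏ n, ind A (ctr m ζ (n, 1) ω) :=
      Finset.measurable_prod _ fun n _ => (measurable_ind hA).comp (continuous_ctr m ζ _).measurable
    have hPV : Measurable fun ω => (∏ n, ind A (ctr m ζ (n, 1) ω)) - ind (Valid m ζ A B r) ω :=
      hPm.sub (measurable_ind hV)
    rw [← integral_comp_mp mpθ hPV]
    have : ∀ p : T × T, ∏ n', ind A (ctr m ζ (n', 1) (theta (m n) (ζ n) p)) =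
        ind A ((m n : ℤ) • p.1) * fib m ζ n (ind A) p.1 p.2 := by
      intro p
      rw [← Finset.mul_prod_erase univ _ (Finset.mem_univ n)]
      simp [ctr_theta, dl_self, fib]
    simp only [this]
    have j1 : Measurable fun p : T × T => ind A ((m n : ℤ) • p.1) * fib m ζ n (ind A) p.1 p.2 :=
      (ham.comp measurable_fst).mul hfm
    rw [Measure.volume_eq_prod, integral_prod]
    · refine integral_congr_ae (Filter.Eventually.of_forall fun x => ?_)
      simp only
      rw [integral_sub, integral_const_mul]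
      · rfl
      · exact (integrable_of_bdd hfm.of_uncurry_left 1 fun s =>
          abs_le_one_of_unit (fib_unit m ζ (ind_nonneg A) (ind_le_one A) n x s)).const_mul _
      · exact integrable_of_bdd (hVθ.comp measurable_prodMk_left) 1 fun s =>
          abs_le_one_of_unit (iu _ _)
    · exact (integrable_of_bdd j1 1 fun p => abs_le_one_of_unit (mul_unit (iu _ _)
        (fib_unit m ζ (ind_nonneg A) (ind_le_one A) n _ _))).sub
        (integrable_of_bdd hVθ 1 fun p => abs_le_one_of_unit (iu _ _))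
  calc _ ≤ ∫ t, ∫ x, ind A t * ind K (t, x) * |Dv x - c| :=
        integral_mono_of_nonneg
          (Filter.Eventually.of_forall fun t => mul_nonneg (ind_nonneg _ _) (abs_nonneg _))
          hFi.integral_prod_left (Filter.Eventually.of_forall e3)
    _ = ∫ x, ∫ t, ind A t * ind K (t, x) * |Dv x - c| := integral_integral_swap hFi
    _ ≤ ∫ x, 2 * (m n * r) * (ind A ((m n : ℤ) • x) * |deg m ζ n (ind A) x - c| +
        (ind A ((m n : ℤ) • x) * deg m ζ n (ind A) x - Dv x) + ind B ((m n : ℤ) • x)) :=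
        integral_mono hFi.integral_prod_right ((i12.add i3).const_mul _) e4
    _ ≤ 2 * (m n * r) * β := by
        rw [integral_const_mul, integral_add i12 i3, integral_add i1 i2, e5,
          integral_comp_mp mpm (measurable_ind hB), integral_ind _ hB]
        exact mul_le_mul_of_nonneg_left hβ (by positivity)

end Crest.Agent.R75.Pack
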