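import Crest.Agent.R75.Defs

/-!
# Row 75, packing module: the abstract first-moment computation of one nibble step
-/

set_option autoImplicit false

open Finset MeasureTheory

namespace Crest.Agent.R75.Pack

/-- Bonferroni inequalities for a product of numbers `1 - h k` with `h k ∈ [0,1]`. -/
theorem bonferroni {κ : Type*} [DecidableEq κ] (s : Finset κ) (h : κ → ℝ)
    (h0 : ∀ k, 0 ≤ h k) (h1 : ∀ k, h k ≤ 1) :
    1 - ∑ k ∈ s, h k ≤ ∏ k ∈ s, (1 - h k) ∧
      ∏ k ∈ s, (1 - h k) ≤ 1 - ∑ k ∈ s, h k + ∑ k ∈ s, ∑ k' ∈ s.erase k, h k * h k' := by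
  induction s using Finset.induction_on with
  | empty => simp
  | insert i s hi ih =>
    obtain ⟨ih1, ih2⟩ := ih
    have hS : 0 ≤ ∑ k ∈ s, h k := Finset.sum_nonneg fun k _ => h0 k
    have hD : 0 ≤ ∑ k ∈ s, ∑ k' ∈ s.erase k, h k * h k' :=
      Finset.sum_nonneg fun k _ => Finset.sum_nonneg fun k' _ => mul_nonneg (h0 k) (h0 k')
    rw [Finset.sum_insert hi, Finset.prod_insert hi, Finset.sum_insert hi, Finset.erase_insert hi]
    have hi0 := h0 i
    have hi1 := h1 i
    constructor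
    · have := mul_le_mul_of_nonneg_left ih1 (sub_nonneg.2 hi1)
      nlinarith [mul_nonneg hi0 hS]
    · have h3 : ∑ k ∈ s, ∑ k' ∈ s.erase k, h k * h k' ≤
          ∑ k ∈ s, ∑ k' ∈ (insert i s).erase k, h k * h k' := by
        refine Finset.sum_le_sum fun k _ => ?_
        exact Finset.sum_le_sum_of_subset_of_nonneg
          (Finset.erase_subset_erase _ (Finset.subset_insert _ _))
          (fun k' _ _ => mul_nonneg (h0 k) (h0 k'))
      have h4 : ∑ k' ∈ s, h i * h k' = h i * ∑ k ∈ s, h k := by rw [Finset.mul_sum]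
      have := mul_le_mul_of_nonneg_left ih2 (sub_nonneg.2 hi1)
      rw [h4]
      nlinarith [mul_nonneg hi0 hD]

theorem abs_exp_neg_sub_le {x y : ℝ} (hx : 0 ≤ x) (hy : 0 ≤ y) :
    |Real.exp (-x) - Real.exp (-y)| ≤ |x - y| := by
  have key : ∀ x y : ℝ, 0 ≤ x → x ≤ y → Real.exp (-x) - Real.exp (-y) ≤ y - x ∧
      0 ≤ Real.exp (-x) - Real.exp (-y) := by
    intro x y hx hxy
    have h1 : Real.exp (-y) = Real.exp (-x) * Real.exp (-(y - x)) := by
      rw [← Real.exp_add]; congr 1; ring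
    have h2 : 1 - (y - x) ≤ Real.exp (-(y - x)) := by
      have := Real.add_one_le_exp (-(y - x)); linarith
    have h3 : Real.exp (-x) ≤ 1 := Real.exp_le_one_iff.2 (by linarith)
    have h4 : 0 < Real.exp (-x) := Real.exp_pos _
    have h5 : Real.exp (-(y - x)) ≤ 1 := Real.exp_le_one_iff.2 (by linarith)
    constructor
    · rw [h1]; nlinarith
    · rw [h1]; nlinarith
  rcases le_total x y with h | h
  · obtain ⟨a, b⟩ := key x y hx h
    rw [abs_of_nonneg b, abs_sub_comm, abs_of_nonneg (by linarith)]; exact a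
  · obtain ⟨a, b⟩ := key y x hy h
    rw [abs_sub_comm, abs_of_nonneg b, abs_of_nonneg (by linarith)]; exact a

theorem abs_one_sub_pow_sub_exp_le (J : ℕ) {Q : ℝ} (h0 : 0 ≤ Q) (h1 : Q ≤ 1) :
    |(1 - Q) ^ J - Real.exp (-(J * Q))| ≤ J * Q ^ 2 := by
  have e1 : Real.exp (-(J * Q)) = Real.exp (-Q) ^ J := by
    rw [← Real.exp_nat_mul]; congr 1; ring
  have e2 : |(1 - Q) - Real.exp (-Q)| ≤ Q ^ 2 := by
    have := Real.abs_exp_sub_one_sub_id_le (x := -Q) (by rw [abs_neg, abs_of_nonneg h0]; exact h1)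
    rw [abs_sub_comm]
    have e : Real.exp (-Q) - (1 - Q) = Real.exp (-Q) - 1 - -Q := by ring
    rw [e]; simpa using this
  have e3 : max |1 - Q| |Real.exp (-Q)| ≤ 1 := by
    apply max_le
    · rw [abs_of_nonneg (by linarith)]; linarith
    · rw [abs_of_pos (Real.exp_pos _)]; exact Real.exp_le_one_iff.2 (by linarith)
  rw [e1]
  calc |(1 - Q) ^ J - Real.exp (-Q) ^ J|
      ≤ |(1 - Q) - Real.exp (-Q)| * J * max |1 - Q| |Real.exp (-Q)| ^ (J - 1) :=
        abs_pow_sub_pow_le _ _ _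
    _ ≤ Q ^ 2 * J * 1 := by
        gcongr
        exact pow_le_one₀ (le_max_of_le_left (abs_nonneg _)) e3
    _ = J * Q ^ 2 := by ring

theorem integrable_of_bdd {X : Type*} [MeasurableSpace X] {μ : Measure X} [IsFiniteMeasure μ]
    {f : X → ℝ} (hf : Measurable f) (C : ℝ) (hC : ∀ x, |f x| ≤ C) : Integrable f μ :=
  Integrable.of_bound hf.aestronglyMeasurable C (Filter.Eventually.of_forall hC)

theorem prod_mem_unit {κ : Type*} (s : Finset κ) (f : κ → ℝ) (h0 : ∀ k, 0 ≤ f k)
    (h1 : ∀ k, f k ≤ 1) : 0 ≤ ∏ k ∈ s, f k ∧ ∏ k ∈ s, f k ≤ 1 :=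
  ⟨Finset.prod_nonneg fun k _ => h0 k, Finset.prod_le_one (fun k _ => h0 k) fun k _ => h1 k⟩

theorem abs_le_one_of_unit {x : ℝ} (h : 0 ≤ x ∧ x ≤ 1) : |x| ≤ 1 := by
  rw [abs_of_nonneg h.1]; exact h.2

section mean

variable {X Y T κ : Type*} [MeasurableSpace X] [MeasurableSpace Y] [MeasurableSpace T]
  (μ : Measure X) [IsProbabilityMeasure μ] (ν : Measure Y) [IsProbabilityMeasure ν]
  (τ : Measure T) [IsProbabilityMeasure τ] [Fintype κ] [DecidableEq κ]

/-- Survival probability of a fixed configuration of points. -/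
theorem survive_bound (h : X → T → ℝ) (hh : Measurable (Function.uncurry h))
    (h0 : ∀ ω t, 0 ≤ h ω t) (h1 : ∀ ω t, h ω t ≤ 1) (u : ℝ) (hq : ∀ t, ∫ ω, h ω t ∂μ ≤ u)
    (J : ℕ) (lam : ℝ) (hlam : 0 ≤ lam) (t : κ → T) :
    |(∫ ω, ∏ k, (1 - h ω (t k)) ∂μ) ^ J - Real.exp (-(Fintype.card κ * lam))| ≤
      J * (Fintype.card κ * u) ^ 2 + ∑ k, |J * ∫ ω, h ω (t k) ∂μ - lam| +
        J * ∑ k, ∑ k' ∈ univ.erase k, ∫ ω, h ω (t k) * h ω (t k') ∂μ := by
  have hm : ∀ s : T, Measurable fun ω => h ω s := fun s => hh.of_uncurry_right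
  have hi : ∀ s : T, Integrable (fun ω => h ω s) μ := fun s =>
    integrable_of_bdd (hm s) 1 fun ω => abs_le_one_of_unit ⟨h0 _ _, h1 _ _⟩
  have hi2 : ∀ s s' : T, Integrable (fun ω => h ω s * h ω s') μ := fun s s' =>
    integrable_of_bdd ((hm s).mul (hm s')) 1 fun ω =>
      abs_le_one_of_unit ⟨mul_nonneg (h0 _ _) (h0 _ _), mul_le_one₀ (h1 _ _) (h0 _ _) (h1 _ _)⟩
  have hpu : ∀ ω, 0 ≤ ∏ k, (1 - h ω (t k)) ∧ ∏ k, (1 - h ω (t k)) ≤ 1 := fun ω =>
    prod_mem_unit _ _ (fun k => sub_nonneg.2 (h1 _ _)) (fun k => by linarith [h0 ω (t k)])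
  have hip : Integrable (fun ω => ∏ k, (1 - h ω (t k))) μ :=
    integrable_of_bdd (Finset.measurable_prod _ fun k _ => measurable_const.sub (hm _)) 1
      fun ω => abs_le_one_of_unit (hpu ω)
  set R := ∫ ω, ∏ k, (1 - h ω (t k)) ∂μ with hR
  set S := ∑ k, ∫ ω, h ω (t k) ∂μ with hS
  set D := ∑ k, ∑ k' ∈ univ.erase k, ∫ ω, h ω (t k) * h ω (t k') ∂μ with hD
  have hR0 : 0 ≤ R := integral_nonneg fun ω => (hpu ω).1
  have hR1 : R ≤ 1 := by
    calc R ≤ ∫ _ω, (1 : ℝ) ∂μ := integral_mono hip (integrable_const _) fun ω => (hpu ω).2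
      _ = 1 := by simp
  have hiS : Integrable (fun ω => ∑ k, h ω (t k)) μ := integrable_finsetSum _ fun k _ => hi _
  have hiD : Integrable (fun ω => ∑ k, ∑ k' ∈ univ.erase k, h ω (t k) * h ω (t k')) μ :=
    integrable_finsetSum _ fun k _ => integrable_finsetSum _ fun k' _ => hi2 _ _
  have hlow : 1 - S ≤ R := by
    have : ∫ ω, (1 - ∑ k, h ω (t k)) ∂μ = 1 - S := by
      rw [integral_sub (integrable_const _) hiS, integral_finsetSum _ fun k _ => hi _]; simp [hS]
    rw [← this]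
    exact integral_mono ((integrable_const _).sub hiS) hip fun ω =>
      (bonferroni univ (fun k => h ω (t k)) (fun k => h0 _ _) (fun k => h1 _ _)).1
  have hup : R ≤ 1 - S + D := by
    have : ∫ ω, (1 - ∑ k, h ω (t k) + ∑ k, ∑ k' ∈ univ.erase k, h ω (t k) * h ω (t k')) ∂μ =
        1 - S + D := by
      have hi1S : Integrable (fun ω => 1 - ∑ k, h ω (t k)) μ := (integrable_const _).sub hiS
      rw [integral_add hi1S hiD, integral_sub (integrable_const _) hiS,
        integral_finsetSum _ fun k _ => hi _,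
        integral_finsetSum _ fun k _ => integrable_finsetSum _ fun k' _ => hi2 _ _]
      simp only [integral_const, probReal_univ, smul_eq_mul, mul_one, hS, hD]
      congr 1
      exact Finset.sum_congr rfl fun k _ => integral_finsetSum _ fun k' _ => hi2 _ _
    rw [← this]
    exact integral_mono hip (((integrable_const _).sub hiS).add hiD) fun ω =>
      (bonferroni univ (fun k => h ω (t k)) (fun k => h0 _ _) (fun k => h1 _ _)).2
  have hSu : S ≤ Fintype.card κ * u := by
    calc S ≤ ∑ _k : κ, u := Finset.sum_le_sum fun k _ => hq _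
      _ = Fintype.card κ * u := by simp
  set Q := 1 - R with hQ
  have hQ0 : 0 ≤ Q := by linarith
  have hQ1 : Q ≤ 1 := by linarith
  have hJ : (0 : ℝ) ≤ J := Nat.cast_nonneg _
  have e1 := abs_one_sub_pow_sub_exp_le J hQ0 hQ1
  have e2 := abs_exp_neg_sub_le (x := J * Q) (y := Fintype.card κ * lam) (by positivity)
    (by positivity)
  have e3 : |J * S - Fintype.card κ * lam| ≤ ∑ k, |J * ∫ ω, h ω (t k) ∂μ - lam| := by
    have : J * S - Fintype.card κ * lam = ∑ k, (J * ∫ ω, h ω (t k) ∂μ - lam) := by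
      rw [Finset.sum_sub_distrib, ← Finset.mul_sum]; simp [hS]
    rw [this]; exact Finset.abs_sum_le_sum_abs _ _
  have e4 : |J * Q - J * S| ≤ J * D := by
    rw [← mul_sub, abs_mul, abs_of_nonneg hJ]
    refine mul_le_mul_of_nonneg_left ?_ hJ
    rw [abs_sub_comm, abs_of_nonneg (by linarith)]; linarith
  have e5 : J * Q ^ 2 ≤ J * (Fintype.card κ * u) ^ 2 := by
    refine mul_le_mul_of_nonneg_left ?_ hJ
    exact pow_le_pow_left₀ hQ0 (by linarith) 2
  have e6 : R = 1 - Q := by ring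
  rw [e6]
  have t1 := abs_sub_le ((1 - Q) ^ J) (Real.exp (-(J * Q)))
    (Real.exp (-(Fintype.card κ * lam)))
  have t2 := abs_sub_le (J * Q) (J * S) (Fintype.card κ * lam)
  linarith

omit [DecidableEq κ] in
/-- Measurability in the random choices of the count of surviving configurations. -/
theorem measurable_count (L : κ → Y → T) (hL : ∀ k, Measurable (L k)) (a : T → ℝ)
    (ha : Measurable a) (h : X → T → ℝ) (hh : Measurable (Function.uncurry h)) (J : ℕ) :
    Measurable (Function.uncurry fun (w : Fin J → X) (y : Y) =>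
      ∏ k, (a (L k y) * ∏ j, (1 - h (w j) (L k y)))) := by
  refine Finset.measurable_prod _ fun k _ => ?_
  refine (ha.comp ((hL k).comp measurable_snd)).mul ?_
  refine Finset.measurable_prod _ fun j _ => measurable_const.sub ?_
  have : Measurable fun p : (Fin J → X) × Y => (p.1 j, L k p.2) :=
    ((measurable_pi_apply j).comp measurable_fst).prodMk ((hL k).comp measurable_snd)
  exact hh.comp this

/-- First moment of the count of configurations that survive `J` independent random covers. -/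
theorem nibble_mean (L : κ → Y → T) (hL : ∀ k, MeasurePreserving (L k) ν τ)
    (hLL : ∀ k k', k ≠ k' → MeasurePreserving (fun y => (L k y, L k' y)) ν (τ.prod τ))
    (a : T → ℝ) (ha : Measurable a) (a0 : ∀ t, 0 ≤ a t) (a1 : ∀ t, a t ≤ 1)
    (h : X → T → ℝ) (hh : Measurable (Function.uncurry h))
    (h0 : ∀ ω t, 0 ≤ h ω t) (h1 : ∀ ω t, h ω t ≤ 1) (u : ℝ) (hq : ∀ t, ∫ ω, h ω t ∂μ ≤ u)
    (hc : ∀ ω, ∫ t, h ω t ∂τ ≤ u) (J : ℕ) (lam e₁ : ℝ) (hlam : 0 ≤ lam)
    (he : ∫ t, a t * |J * ∫ ω, h ω t ∂μ - lam| ∂τ ≤ e₁) :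
    |∫ w : Fin J → X, (∫ y, ∏ k, (a (L k y) * ∏ j, (1 - h (w j) (L k y))) ∂ν)
        ∂(Measure.pi fun _ => μ) -
      Real.exp (-(Fintype.card κ * lam)) * ∫ y, ∏ k, a (L k y) ∂ν| ≤
      Fintype.card κ * e₁ + 2 * J * (Fintype.card κ * u) ^ 2 := by
  have hLm : ∀ k, Measurable (L k) := fun k => (hL k).measurable
  have hmeas := measurable_count L hLm a ha h hh J
  have hunit : ∀ (w : Fin J → X) (y : Y),
      0 ≤ ∏ k, (a (L k y) * ∏ j, (1 - h (w j) (L k y))) ∧
        ∏ k, (a (L k y) * ∏ j, (1 - h (w j) (L k y))) ≤ 1 := by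
    intro w y
    have hp : ∀ k, 0 ≤ ∏ j, (1 - h (w j) (L k y)) ∧ ∏ j, (1 - h (w j) (L k y)) ≤ 1 := fun k =>
      prod_mem_unit _ _ (fun j => sub_nonneg.2 (h1 _ _)) (fun j => by linarith [h0 (w j) (L k y)])
    exact prod_mem_unit _ _ (fun k => mul_nonneg (a0 _) (hp k).1)
      (fun k => mul_le_one₀ (a1 _) (hp k).1 (hp k).2)
  rw [integral_integral_swap (integrable_of_bdd hmeas 1 fun p => abs_le_one_of_unit (hunit _ _))]
  have hinner : ∀ y : Y, ∫ w : Fin J → X, ∏ k, (a (L k y) * ∏ j, (1 - h (w j) (L k y)))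
      ∂(Measure.pi fun _ => μ) =
      (∏ k, a (L k y)) * (∫ ω, ∏ k, (1 - h ω (L k y)) ∂μ) ^ J := by
    intro y
    have : ∀ w : Fin J → X, ∏ k, (a (L k y) * ∏ j, (1 - h (w j) (L k y))) =
        (∏ k, a (L k y)) * ∏ j, ∏ k, (1 - h (w j) (L k y)) := by
      intro w; rw [Finset.prod_mul_distrib, Finset.prod_comm]
    simp only [this]
    rw [integral_const_mul,
      integral_fintype_prod_eq_pow (ι := Fin J) (fun ω => ∏ k, (1 - h ω (L k y)))]
    simp
  simp only [hinner]
  -- measurability facts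
  have hqm : Measurable fun t => ∫ ω, h ω t ∂μ :=
    (hh.stronglyMeasurable.integral_prod_left' (μ := μ)).measurable
  have hq0 : ∀ t, 0 ≤ ∫ ω, h ω t ∂μ := fun t => integral_nonneg fun ω => h0 ω t
  have hq2m : Measurable fun p : T × T => ∫ ω, h ω p.1 * h ω p.2 ∂μ := by
    have : Measurable (Function.uncurry fun (ω : X) (p : T × T) => h ω p.1 * h ω p.2) :=
      (hh.comp (measurable_fst.prodMk (measurable_fst.comp measurable_snd))).mul
        (hh.comp (measurable_fst.prodMk (measurable_snd.comp measurable_snd)))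
    exact (this.stronglyMeasurable.integral_prod_left' (μ := μ)).measurable
  have hh2u : ∀ ω s s', 0 ≤ h ω s * h ω s' ∧ h ω s * h ω s' ≤ 1 := fun ω s s' =>
    ⟨mul_nonneg (h0 _ _) (h0 _ _), mul_le_one₀ (h1 _ _) (h0 _ _) (h1 _ _)⟩
  have hq2u : ∀ p : T × T, 0 ≤ ∫ ω, h ω p.1 * h ω p.2 ∂μ ∧ ∫ ω, h ω p.1 * h ω p.2 ∂μ ≤ 1 := by
    intro p
    refine ⟨integral_nonneg fun ω => (hh2u _ _ _).1, ?_⟩
    calc ∫ ω, h ω p.1 * h ω p.2 ∂μ ≤ ∫ _ω, (1 : ℝ) ∂μ :=
          integral_mono_of_nonneg (Filter.Eventually.of_forall fun ω => (hh2u _ _ _).1)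
            (integrable_const _) (Filter.Eventually.of_forall fun ω => (hh2u _ _ _).2)
      _ = 1 := by simp
  have hPm : Measurable fun y => ∏ k, a (L k y) :=
    Finset.measurable_prod _ fun k _ => ha.comp (hLm k)
  have hPu : ∀ y, 0 ≤ ∏ k, a (L k y) ∧ ∏ k, a (L k y) ≤ 1 := fun y =>
    prod_mem_unit _ _ (fun k => a0 _) (fun k => a1 _)
  have hPk : ∀ y k, ∏ k, a (L k y) ≤ a (L k y) := by
    intro y k
    rw [← Finset.mul_prod_erase univ (fun k => a (L k y)) (Finset.mem_univ k)]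
    exact mul_le_of_le_one_right (a0 _) (prod_mem_unit _ _ (fun k => a0 _) (fun k => a1 _)).2
  have hRm : Measurable fun y => ∫ ω, ∏ k, (1 - h ω (L k y)) ∂μ := by
    have : Measurable (Function.uncurry fun (ω : X) (y : Y) => ∏ k, (1 - h ω (L k y))) :=
      Finset.measurable_prod _ fun k _ => measurable_const.sub
        (hh.comp (measurable_fst.prodMk ((hLm k).comp measurable_snd)))
    exact (this.stronglyMeasurable.integral_prod_left' (μ := μ)).measurable
  have hRu : ∀ y, 0 ≤ ∫ ω, ∏ k, (1 - h ω (L k y)) ∂μ ∧ ∫ ω, ∏ k, (1 - h ω (L k y)) ∂μ ≤ 1 := by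
    intro y
    have hp : ∀ ω, 0 ≤ ∏ k, (1 - h ω (L k y)) ∧ ∏ k, (1 - h ω (L k y)) ≤ 1 := fun ω =>
      prod_mem_unit _ _ (fun k => sub_nonneg.2 (h1 _ _)) (fun k => by linarith [h0 ω (L k y)])
    refine ⟨integral_nonneg fun ω => (hp ω).1, ?_⟩
    calc _ ≤ ∫ _ω, (1 : ℝ) ∂μ :=
          integral_mono_of_nonneg (Filter.Eventually.of_forall fun ω => (hp ω).1)
            (integrable_const _) (Filter.Eventually.of_forall fun ω => (hp ω).2)
      _ = 1 := by simp
  have hiP : Integrable (fun y => ∏ k, a (L k y)) ν :=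
    integrable_of_bdd hPm 1 fun y => abs_le_one_of_unit (hPu y)
  have hiPR : Integrable (fun y => (∏ k, a (L k y)) * (∫ ω, ∏ k, (1 - h ω (L k y)) ∂μ) ^ J) ν :=
    integrable_of_bdd (hPm.mul (hRm.pow_const J)) 1 fun y => abs_le_one_of_unit
      ⟨mul_nonneg (hPu y).1 (pow_nonneg (hRu y).1 _),
        mul_le_one₀ (hPu y).2 (pow_nonneg (hRu y).1 _) (pow_le_one₀ (hRu y).1 (hRu y).2)⟩
  rw [← integral_const_mul, ← integral_sub hiPR (hiP.const_mul _)]
  -- the dominating function
  have hgm : Measurable fun t => a t * |J * ∫ ω, h ω t ∂μ - lam| :=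
    ha.mul ((measurable_const.mul hqm).sub measurable_const).abs
  have hgi : Integrable (fun t => a t * |J * ∫ ω, h ω t ∂μ - lam|) τ := by
    refine integrable_of_bdd hgm (J * |u| + lam) fun t => ?_
    rw [abs_mul, abs_abs, abs_of_nonneg (a0 t)]
    have : |J * ∫ ω, h ω t ∂μ - lam| ≤ J * |u| + lam := by
      refine (abs_sub _ _).trans ?_
      rw [abs_of_nonneg hlam, abs_mul, abs_of_nonneg (hq0 t), Nat.abs_cast]
      gcongr
      exact (hq t).trans (le_abs_self _)
    exact (mul_le_of_le_one_left (abs_nonneg _) (a1 t)).trans this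
  have hgk : ∀ k, Integrable (fun y => a (L k y) * |J * ∫ ω, h ω (L k y) ∂μ - lam|) ν := fun k =>
    (hL k).integrable_comp_of_integrable hgi
  have hgke : ∀ k, ∫ y, a (L k y) * |J * ∫ ω, h ω (L k y) ∂μ - lam| ∂ν ≤ e₁ := by
    intro k
    have := integral_map (μ := ν) (hLm k).aemeasurable
      (f := fun t => a t * |J * ∫ ω, h ω t ∂μ - lam|) hgm.aestronglyMeasurable
    rw [(hL k).map_eq] at this
    rw [← this]; exact he
  have hq2k : ∀ k k', Integrable (fun y => ∫ ω, h ω (L k y) * h ω (L k' y) ∂μ) ν := fun k k' =>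
    integrable_of_bdd (hq2m.comp ((hLm k).prodMk (hLm k'))) 1 fun y =>
      abs_le_one_of_unit (hq2u (L k y, L k' y))
  have hq2e : ∀ k k', k ≠ k' → ∫ y, ∫ ω, h ω (L k y) * h ω (L k' y) ∂μ ∂ν ≤ u ^ 2 := by
    intro k k' hkk
    have := integral_map (μ := ν) (hLL k k' hkk).measurable.aemeasurable
      (f := fun p : T × T => ∫ ω, h ω p.1 * h ω p.2 ∂μ) hq2m.aestronglyMeasurable
    rw [(hLL k k' hkk).map_eq] at this
    rw [← this]
    have hm2 : Measurable (Function.uncurry fun (p : T × T) (ω : X) => h ω p.1 * h ω p.2) :=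
      (hh.comp (measurable_snd.prodMk (measurable_fst.comp measurable_fst))).mul
        (hh.comp (measurable_snd.prodMk (measurable_snd.comp measurable_fst)))
    rw [integral_integral_swap (integrable_of_bdd hm2 1 fun p => abs_le_one_of_unit (hh2u _ _ _))]
    have hb : ∀ ω, ∫ p : T × T, h ω p.1 * h ω p.2 ∂(τ.prod τ) ≤ u ^ 2 := by
      intro ω
      rw [integral_prod_mul (f := fun s => h ω s) (g := fun s => h ω s), ← sq]
      exact pow_le_pow_left₀ (integral_nonneg fun t => h0 ω t) (hc ω) 2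
    calc _ ≤ ∫ _ω, u ^ 2 ∂μ :=
          integral_mono_of_nonneg
            (Filter.Eventually.of_forall fun ω => integral_nonneg fun p => (hh2u _ _ _).1)
            (integrable_const _) (Filter.Eventually.of_forall hb)
      _ = u ^ 2 := by simp
  have hJ : (0 : ℝ) ≤ J := Nat.cast_nonneg _
  have hi1 : Integrable (fun y => ∑ k, a (L k y) * |J * ∫ ω, h ω (L k y) ∂μ - lam|) ν :=
    integrable_finsetSum _ fun k _ => hgk k
  have hi2 : Integrable
      (fun y => ∑ k, ∑ k' ∈ univ.erase k, ∫ ω, h ω (L k y) * h ω (L k' y) ∂μ) ν :=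
    integrable_finsetSum _ fun k _ => integrable_finsetSum _ fun k' _ => hq2k k k'
  calc |∫ y, ((∏ k, a (L k y)) * (∫ ω, ∏ k, (1 - h ω (L k y)) ∂μ) ^ J -
          Real.exp (-(Fintype.card κ * lam)) * ∏ k, a (L k y)) ∂ν|
      ≤ ∫ y, (J * (Fintype.card κ * u) ^ 2 +
          ∑ k, a (L k y) * |J * ∫ ω, h ω (L k y) ∂μ - lam| +
          J * ∑ k, ∑ k' ∈ univ.erase k, ∫ ω, h ω (L k y) * h ω (L k' y) ∂μ) ∂ν := by
        refine abs_integral_le_integral_abs.trans ?_
        refine integral_mono_of_nonneg (Filter.Eventually.of_forall fun y => abs_nonneg _)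
          (((integrable_const _).add hi1).add (hi2.const_mul _))
          (Filter.Eventually.of_forall fun y => ?_)
        have hs := survive_bound μ h hh h0 h1 u hq J lam hlam (fun k => L k y)
        have hD0 : 0 ≤ ∑ k, ∑ k' ∈ univ.erase k, ∫ ω, h ω (L k y) * h ω (L k' y) ∂μ :=
          Finset.sum_nonneg fun k _ => Finset.sum_nonneg fun k' _ => (hq2u (L k y, L k' y)).1
        have hS : (∏ k, a (L k y)) * ∑ k, |J * ∫ ω, h ω (L k y) ∂μ - lam| ≤
            ∑ k, a (L k y) * |J * ∫ ω, h ω (L k y) ∂μ - lam| := by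
          rw [Finset.mul_sum]
          exact Finset.sum_le_sum fun k _ => mul_le_mul_of_nonneg_right (hPk y k) (abs_nonneg _)
        simp only
        rw [mul_comm (Real.exp _), ← mul_sub, abs_mul, abs_of_nonneg (hPu y).1]
        have h5 := mul_le_mul_of_nonneg_left hs (hPu y).1
        have h6 : (∏ k, a (L k y)) * (J * (Fintype.card κ * u) ^ 2) ≤
            J * (Fintype.card κ * u) ^ 2 := mul_le_of_le_one_left (by positivity) (hPu y).2
        have h7 : (∏ k, a (L k y)) *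
            (J * ∑ k, ∑ k' ∈ univ.erase k, ∫ ω, h ω (L k y) * h ω (L k' y) ∂μ) ≤
            J * ∑ k, ∑ k' ∈ univ.erase k, ∫ ω, h ω (L k y) * h ω (L k' y) ∂μ :=
          mul_le_of_le_one_left (by positivity) (hPu y).2
        rw [mul_add, mul_add] at h5
        linarith
    _ ≤ Fintype.card κ * e₁ + 2 * J * (Fintype.card κ * u) ^ 2 := by
        have hi3 : Integrable (fun y => J * (Fintype.card κ * u) ^ 2 +
            ∑ k, a (L k y) * |J * ∫ ω, h ω (L k y) ∂μ - lam|) ν := (integrable_const _).add hi1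
        rw [integral_add hi3 (hi2.const_mul _),
          integral_add (integrable_const _) hi1, integral_const_mul, integral_const_mul,
          integral_finsetSum _ fun k _ => hgk k,
          integral_finsetSum _ fun k _ => integrable_finsetSum _ fun k' _ => hq2k k k']
        have s1 : ∑ k, ∫ y, a (L k y) * |J * ∫ ω, h ω (L k y) ∂μ - lam| ∂ν ≤
            Fintype.card κ * e₁ := by
          calc _ ≤ ∑ _k : κ, e₁ := Finset.sum_le_sum fun k _ => hgke k
            _ = _ := by simp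
        have s2 : ∑ k, ∫ y, ∑ k' ∈ univ.erase k, ∫ ω, h ω (L k y) * h ω (L k' y) ∂μ ∂ν ≤
            (Fintype.card κ * u) ^ 2 := by
          calc _ ≤ ∑ _k : κ, Fintype.card κ * u ^ 2 := by
                refine Finset.sum_le_sum fun k _ => ?_
                rw [integral_finsetSum _ fun k' _ => hq2k k k']
                calc _ ≤ ∑ _k' ∈ univ.erase k, u ^ 2 := Finset.sum_le_sum fun k' hk' =>
                      hq2e k k' (Finset.ne_of_mem_erase hk').symm
                  _ ≤ ∑ _k' : κ, u ^ 2 := Finset.sum_le_sum_of_subset_of_nonneg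
                      (Finset.erase_subset _ _) fun _ _ _ => sq_nonneg _
                  _ = _ := by simp
            _ = _ := by simp; ring
        have s3 := mul_le_mul_of_nonneg_left s2 hJ
        simp only [integral_const, probReal_univ, smul_eq_mul, one_mul]
        linarith

end mean

end Crest.Agent.R75.Pack
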