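import Crest.Agent.R75.PackHit

/-!
# Row 75, packing module: one nibble step
-/

set_option autoImplicit false
set_option linter.unusedSectionVars false

open Finset MeasureTheory

namespace Crest.Agent.R75.Pack

variable {ι : Type} [Fintype ι] [DecidableEq ι] {m : ι → ℕ} {ζ : ι → ℤ}

/-- Symmetric sets. -/
def Symm (A : Set T) : Prop := ∀ t, -t ∈ A ↔ t ∈ A

theorem mem_tile_neg (n : ι) (s : ℤˣ) (r : ℝ) (ω : T × T) (t : T) :
    t ∈ tile m ζ (n, -s) r ω ↔ -t ∈ tile m ζ (n, s) r ω := by
  simp only [tile, Metric.mem_closedBall, ctr_neg]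
  rw [← dist_neg_neg, neg_neg]

theorem ind_congr {X Y : Type*} {A : Set X} {B : Set Y} {x : X} {y : Y} (h : x ∈ A ↔ y ∈ B) :
    ind A x = ind B y := by
  by_cases hx : x ∈ A
  · rw [ind_of_mem hx, ind_of_mem (h.1 hx)]
  · rw [ind_of_notMem hx, ind_of_notMem fun h' => hx (h.2 h')]

theorem l1_Hit (hm : ∀ n, 1 ≤ m n) {A B : Set T} (hA : MeasurableSet A) (hsA : Symm A)
    (hB : MeasurableSet B) {r c β : ℝ} (hr : 0 ≤ r) (hr1 : 2 * (MM m * r) ≤ 1)
    (hc0 : 0 ≤ c) (hc1 : c ≤ 1)
    (hAB : ∀ t, t ∉ B → ∀ t', dist t t' ≤ MM m * r → (t ∈ A ↔ t' ∈ A))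
    (hβ : ∀ n, (∫ x, ind A ((m n : ℤ) • x) * |deg m ζ n (ind A) x - c|) +
      (∫ ω, ((∏ n, ind A (ctr m ζ (n, 1) ω)) - ind (Valid m ζ A B r) ω)) +
      (volume : Measure T).real B ≤ β) (J : ℕ) (lam : ℝ) :
    ∫ t, ind A t * |J * (∫ ω, ind (Hit m ζ A B r) (ω, t)) - lam| ≤
      J * (4 * MM m * r) * β + |J * (4 * MM m * r) * c - lam| := by
  set q : ι × ℤˣ → T → ℝ := fun ν t => ∫ ω, ind (HitAt m ζ A B r ν) (ω, t) with hq
  have hqm : ∀ ν, Measurable (q ν) := fun ν =>
    ((measurable_ind (measurableSet_HitAt m ζ hA hB r ν)).stronglyMeasurable.integral_prod_left'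
      (μ := volume)).measurable
  have hqu : ∀ ν t, 0 ≤ q ν t ∧ q ν t ≤ 1 := fun ν t =>
    integral_unit fun ω => ⟨ind_nonneg _ _, ind_le_one _ _⟩
  have hν : ∀ ν : ι × ℤˣ, ∫ t, ind A t * |q ν t - 2 * (m ν.1 * r) * c| ≤ 2 * (m ν.1 * r) * β := by
    rintro ⟨n, s⟩
    have h1 := l1_HitAt_pos (ζ := ζ) hm hA hB hr hr1 hc0 hc1 hAB n (hβ n)
    rcases Int.units_eq_one_or s with rfl | rfl
    · exact h1
    · rw [← integral_neg_eq_self]
      refine le_of_eq_of_le ?_ h1
      refine integral_congr_ae (Filter.Eventually.of_forall fun t => ?_)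
      simp only [hq]
      rw [ind_congr (hsA t)]
      congr 3
      refine integral_congr_ae (Filter.Eventually.of_forall fun ω => ?_)
      refine ind_congr ?_
      simp only [HitAt, Set.mem_ofPred_eq, mem_tile_neg, neg_neg]
  have hi : ∀ ν : ι × ℤˣ, Integrable fun t => ind A t * |q ν t - 2 * (m ν.1 * r) * c| := by
    intro ν
    refine integrable_of_bdd ((measurable_ind hA).mul ((hqm ν).sub measurable_const).abs)
      (1 + |2 * (m ν.1 * r) * c|) fun t => ?_
    rw [abs_mul, abs_abs, abs_of_nonneg (ind_nonneg _ _)]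
    refine (mul_le_of_le_one_left (abs_nonneg _) (ind_le_one _ _)).trans ((abs_sub _ _).trans ?_)
    rw [abs_of_nonneg (hqu ν t).1]; linarith [(hqu ν t).2]
  have hiS : Integrable fun t => ∑ ν : ι × ℤˣ, ind A t * |q ν t - 2 * (m ν.1 * r) * c| :=
    integrable_finsetSum _ fun ν _ => hi ν
  have hJ : (0 : ℝ) ≤ J := Nat.cast_nonneg _
  calc _ ≤ ∫ t, (J * ∑ ν : ι × ℤˣ, ind A t * |q ν t - 2 * (m ν.1 * r) * c| +
        |J * (4 * MM m * r) * c - lam|) := by
        refine integral_mono_of_nonneg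
          (Filter.Eventually.of_forall fun t => mul_nonneg (ind_nonneg _ _) (abs_nonneg _))
          ((hiS.const_mul _).add (integrable_const _)) (Filter.Eventually.of_forall fun t => ?_)
        simp only
        rw [integral_Hit_fst_eq hA hB hr]
        have e : J * ∑ ν, q ν t - lam = J * ∑ ν : ι × ℤˣ, (q ν t - 2 * (m ν.1 * r) * c) +
            (J * (4 * MM m * r) * c - lam) := by
          rw [Finset.sum_sub_distrib, ← Finset.sum_mul, sum_two_mul]; ring
        change ind A t * |J * ∑ ν, q ν t - lam| ≤ _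
        rw [e, ← Finset.mul_sum]
        have b1 : |J * ∑ ν : ι × ℤˣ, (q ν t - 2 * (m ν.1 * r) * c) +
            (J * (4 * MM m * r) * c - lam)| ≤
            J * ∑ ν : ι × ℤˣ, |q ν t - 2 * (m ν.1 * r) * c| + |J * (4 * MM m * r) * c - lam| := by
          refine (abs_add_le _ _).trans (add_le_add_left ?_ _)
          rw [abs_mul, abs_of_nonneg hJ]
          exact mul_le_mul_of_nonneg_left (Finset.abs_sum_le_sum_abs _ _) hJ
        have b2 := mul_le_mul_of_nonneg_left b1 (ind_nonneg A t)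
        have b3 : ind A t * |J * (4 * MM m * r) * c - lam| ≤ |J * (4 * MM m * r) * c - lam| :=
          mul_le_of_le_one_left (abs_nonneg _) (ind_le_one _ _)
        nlinarith
    _ ≤ _ := by
        rw [integral_add (hiS.const_mul _) (integrable_const _), integral_const_mul,
          integral_finsetSum _ fun ν _ => hi ν]
        simp only [integral_const, probReal_univ, smul_eq_mul, one_mul]
        refine add_le_add_left ?_ _
        rw [mul_assoc]
        refine mul_le_mul_of_nonneg_left ?_ hJ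
        rw [← sum_two_mul, Finset.sum_mul]
        exact Finset.sum_le_sum fun ν _ => hν ν

variable (m ζ)

open Classical in
/-- The uncovered set after the random choice `w`. -/
def newA (A B : Set T) (r : ℝ) {J : ℕ} (w : Fin J → T × T) : Set T :=
  A \ ⋃ p ∈ (univ.filter fun p : Fin J × (ι × ℤˣ) => w p.1 ∈ Valid m ζ A B r),
    Metric.closedBall (ctr m ζ p.2 (w p.1)) (m p.2.1 * r)

theorem mem_newA {A B : Set T} {r : ℝ} {J : ℕ} {w : Fin J → T × T} {t : T} :
    t ∈ newA m ζ A B r w ↔ t ∈ A ∧ ∀ j, (w j, t) ∉ Hit m ζ A B r := by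
  simp only [newA, Set.mem_sdiff, Set.mem_iUnion, Finset.mem_filter, Finset.mem_univ, true_and,
    exists_prop, not_exists, not_and, Hit, HitAt, Set.mem_ofPred_eq, tile, Prod.forall]

theorem ind_newA (A B : Set T) (r : ℝ) {J : ℕ} (w : Fin J → T × T) (t : T) :
    ind (newA m ζ A B r w) t = ind A t * ∏ j, (1 - ind (Hit m ζ A B r) (w j, t)) := by
  by_cases h : t ∈ newA m ζ A B r w
  · rw [ind_of_mem h]
    obtain ⟨h1, h2⟩ := (mem_newA m ζ).1 h
    rw [ind_of_mem h1, Finset.prod_eq_one fun j _ => by rw [ind_of_notMem (h2 j), sub_zero]]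
    simp
  · rw [ind_of_notMem h]
    by_cases h1 : t ∈ A
    · have : ¬ ∀ j, (w j, t) ∉ Hit m ζ A B r := fun h2 => h ((mem_newA m ζ).2 ⟨h1, h2⟩)
      push Not at this
      obtain ⟨j, hj⟩ := this
      rw [Finset.prod_eq_zero (f := fun j => 1 - ind (Hit m ζ A B r) (w j, t)) (Finset.mem_univ j)
        (by rw [ind_of_mem hj, sub_self]), mul_zero]
    · rw [ind_of_notMem h1, zero_mul]

theorem symm_newA {A : Set T} (hA : Symm A) (B : Set T) (r : ℝ) {J : ℕ} (w : Fin J → T × T) :
    Symm (newA m ζ A B r w) := by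
  have key : ∀ ω t, (ω, t) ∈ Hit m ζ A B r → (ω, -t) ∈ Hit m ζ A B r := by
    intro ω t h
    obtain ⟨⟨n, s⟩, hν⟩ := Set.mem_iUnion.1 h
    refine Set.mem_iUnion.2 ⟨(n, -s), hν.1, ?_⟩
    rw [mem_tile_neg, neg_neg]; exact hν.2
  intro t
  rw [mem_newA, mem_newA, hA t]
  refine and_congr_right fun _ => forall_congr' fun j => not_congr ⟨fun h => ?_, key _ _⟩
  simpa using key _ _ h

/-- The number of near collisions between tiles of different segments. -/
noncomputable def coll (r : ℝ) {J : ℕ} (w : Fin J → T × T) : ℝ :=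
  ∑ j, ∑ j' ∈ univ.erase j, ∑ ν, ∑ ν',
    ind (Metric.closedBall (0 : T) (2 * MM m * r)) (ctr m ζ ν (w j) - ctr m ζ ν' (w j'))

theorem coll_nonneg (r : ℝ) {J : ℕ} (w : Fin J → T × T) : 0 ≤ coll m ζ r w :=
  Finset.sum_nonneg fun _ _ => Finset.sum_nonneg fun _ _ => Finset.sum_nonneg fun _ _ =>
    Finset.sum_nonneg fun _ _ => ind_nonneg _ _

variable {m ζ}

theorem coll_mean (hm : ∀ n, 1 ≤ m n) {r : ℝ} (hr : 0 ≤ r) (J : ℕ) :
    Integrable (coll m ζ r (J := J)) (Measure.pi fun _ => volume) ∧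
    ∫ w, coll m ζ r (J := J) w ∂(Measure.pi fun _ => volume) ≤
      J ^ 2 * (Fintype.card (ι × ℤˣ)) ^ 2 * (4 * MM m * r) := by
  have hM := MM_nonneg m
  set C := Metric.closedBall (0 : T) (2 * MM m * r) with hC
  have hCm : MeasurableSet C := measurableSet_closedBall
  have hCle : (volume : Measure T).real C ≤ 4 * MM m * r :=
    (real_closedBall_le _ (by positivity)).trans (by linarith)
  have mp : ∀ (j j' : Fin J), j' ∈ univ.erase j → ∀ ν ν' : ι × ℤˣ,
      MeasurePreserving (fun w : Fin J → T × T => ctr m ζ ν (w j) - ctr m ζ ν' (w j'))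
        (Measure.pi fun _ => volume) volume := fun j j' h ν ν' =>
    mp_pi_diff (Finset.ne_of_mem_erase h).symm (vec_ne_zero hm ν) _
  have i0 : ∀ (j j' : Fin J), j' ∈ univ.erase j → ∀ ν ν' : ι × ℤˣ,
      Integrable (fun w : Fin J → T × T => ind C (ctr m ζ ν (w j) - ctr m ζ ν' (w j')))
        (Measure.pi fun _ => volume) := fun j j' h ν ν' =>
    (mp j j' h ν ν').integrable_comp_of_integrable (integrable_ind _ hCm)
  have i1 : ∀ (j j' : Fin J), j' ∈ univ.erase j → ∀ ν : ι × ℤˣ,
      Integrable (fun w : Fin J → T × T => ∑ ν', ind C (ctr m ζ ν (w j) - ctr m ζ ν' (w j')))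
        (Measure.pi fun _ => volume) := fun j j' h ν =>
    integrable_finsetSum _ fun ν' _ => i0 j j' h ν ν'
  have i2 : ∀ (j j' : Fin J), j' ∈ univ.erase j →
      Integrable (fun w : Fin J → T × T => ∑ ν, ∑ ν', ind C (ctr m ζ ν (w j) - ctr m ζ ν' (w j')))
        (Measure.pi fun _ => volume) := fun j j' h =>
    integrable_finsetSum _ fun ν _ => i1 j j' h ν
  have i3 : ∀ j : Fin J, Integrable (fun w : Fin J → T × T => ∑ j' ∈ univ.erase j,
      ∑ ν, ∑ ν', ind C (ctr m ζ ν (w j) - ctr m ζ ν' (w j'))) (Measure.pi fun _ => volume) :=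
    fun j => integrable_finsetSum _ fun j' h => i2 j j' h
  refine ⟨integrable_finsetSum _ fun j _ => i3 j, ?_⟩
  unfold coll
  rw [integral_finsetSum _ fun j _ => i3 j]
  calc _ ≤ ∑ _j : Fin J, J * ((Fintype.card (ι × ℤˣ) : ℝ) ^ 2 * (4 * MM m * r)) := by
        refine Finset.sum_le_sum fun j _ => ?_
        rw [integral_finsetSum _ fun j' h => i2 j j' h]
        calc _ ≤ ∑ _j' ∈ univ.erase j, (Fintype.card (ι × ℤˣ) : ℝ) ^ 2 * (4 * MM m * r) := by
              refine Finset.sum_le_sum fun j' h => ?_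
              rw [integral_finsetSum _ fun ν _ => i1 j j' h ν]
              calc _ ≤ ∑ _ν : ι × ℤˣ, (Fintype.card (ι × ℤˣ) : ℝ) * (4 * MM m * r) := by
                    refine Finset.sum_le_sum fun ν _ => ?_
                    rw [integral_finsetSum _ fun ν' _ => i0 j j' h ν ν']
                    calc _ ≤ ∑ _ν' : ι × ℤˣ, 4 * MM m * r := Finset.sum_le_sum fun ν' _ => by
                          rw [integral_comp_mp (mp j j' h ν ν') (measurable_ind hCm),
                            integral_ind _ hCm]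
                          exact hCle
                      _ = _ := by rw [Finset.sum_const, nsmul_eq_mul, Finset.card_univ]
                _ = _ := by rw [Finset.sum_const, nsmul_eq_mul, Finset.card_univ]; ring
          _ ≤ ∑ _j' : Fin J, (Fintype.card (ι × ℤˣ) : ℝ) ^ 2 * (4 * MM m * r) :=
              Finset.sum_le_sum_of_subset_of_nonneg (Finset.erase_subset _ _)
                fun _ _ _ => by positivity
          _ = _ := by rw [Finset.sum_const, nsmul_eq_mul, Finset.card_univ, Fintype.card_fin]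
    _ = _ := by rw [Finset.sum_const, nsmul_eq_mul, Finset.card_univ, Fintype.card_fin]; ring

variable (m ζ)

/-- The kept segments: valid and far from all other segments. -/
def Kept (A B : Set T) (r : ℝ) {J : ℕ} (w : Fin J → T × T) (j : Fin J) : Prop :=
  w j ∈ Valid m ζ A B r ∧
    ∀ j', j' ≠ j → ∀ ν ν', 2 * MM m * r < dist (ctr m ζ ν (w j)) (ctr m ζ ν' (w j'))

variable {m ζ}

open Classical in
theorem waste_le {A B : Set T} {r : ℝ} (hr : 0 ≤ r) {J : ℕ} (w : Fin J → T × T) :
    (volume : Measure T).real A - (volume : Measure T).real (newA m ζ A B r w) -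
      4 * MM m * r * Fintype.card {j // Kept m ζ A B r w j} ≤ 4 * MM m * r * coll m ζ r w := by
  have hM := MM_nonneg m
  set V := univ.filter fun j : Fin J => w j ∈ Valid m ζ A B r with hV
  have h1 : (volume : Measure T).real A ≤
      (volume : Measure T).real (newA m ζ A B r w) + 4 * MM m * r * V.card := by
    have hsub : A ⊆ newA m ζ A B r w ∪ ⋃ j ∈ V, ⋃ ν ∈ (univ : Finset (ι × ℤˣ)),
        tile m ζ ν r (w j) := by
      intro t ht
      by_cases h : t ∈ newA m ζ A B r w
      · exact Or.inl h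
      · right
        have : ¬ ∀ j, (w j, t) ∉ Hit m ζ A B r := fun h2 => h ((mem_newA m ζ).2 ⟨ht, h2⟩)
        push Not at this
        obtain ⟨j, hj⟩ := this
        obtain ⟨ν, hν⟩ := Set.mem_iUnion.1 hj
        simp only [Set.mem_iUnion, exists_prop]
        exact ⟨j, by simpa [hV] using hν.1, ν, Finset.mem_univ _, hν.2⟩
    refine (measureReal_mono hsub).trans ((measureReal_union_le _ _).trans (add_le_add_right ?_ _))
    refine (measureReal_biUnion_finset_le _ _).trans ?_
    calc _ ≤ ∑ _j ∈ V, 4 * MM m * r := by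
          refine Finset.sum_le_sum fun j _ => (measureReal_biUnion_finset_le _ _).trans ?_
          rw [← sum_two_mul]
          exact Finset.sum_le_sum fun ν _ => real_closedBall_le _ (by positivity)
      _ = _ := by rw [Finset.sum_const, nsmul_eq_mul, mul_comm]
  have h2 : (V.card : ℝ) ≤ Fintype.card {j // Kept m ζ A B r w j} + coll m ζ r w := by
    rw [Fintype.card_subtype, hV, Finset.card_filter, Finset.card_filter, coll]
    push_cast
    rw [← Finset.sum_add_distrib]
    refine Finset.sum_le_sum fun j _ => ?_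
    have n0 : 0 ≤ ∑ j' ∈ univ.erase j, ∑ ν, ∑ ν', ind (Metric.closedBall (0 : T) (2 * MM m * r))
        (ctr m ζ ν (w j) - ctr m ζ ν' (w j')) :=
      Finset.sum_nonneg fun _ _ => Finset.sum_nonneg fun _ _ =>
        Finset.sum_nonneg fun _ _ => ind_nonneg _ _
    by_cases hk : Kept m ζ A B r w j
    · rw [if_pos hk, if_pos hk.1]; linarith
    rw [if_neg hk]
    by_cases hv : w j ∈ Valid m ζ A B r
    swap
    · rw [if_neg hv]; linarith
    rw [if_pos hv, zero_add]
    have : ¬ ∀ j', j' ≠ j → ∀ ν ν', 2 * MM m * r < dist (ctr m ζ ν (w j)) (ctr m ζ ν' (w j')) :=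
      fun h => hk ⟨hv, h⟩
    push Not at this
    obtain ⟨j', hj', ν, ν', hd⟩ := this
    have t1 : ind (Metric.closedBall (0 : T) (2 * MM m * r))
        (ctr m ζ ν (w j) - ctr m ζ ν' (w j')) = 1 := by
      refine ind_of_mem ?_
      rw [mem_closedBall_zero_iff, ← dist_eq_norm]; exact hd
    refine le_of_eq_of_le t1.symm ?_
    refine le_trans ?_ (Finset.single_le_sum (f := fun j' => ∑ ν, ∑ ν',
      ind (Metric.closedBall (0 : T) (2 * MM m * r)) (ctr m ζ ν (w j) - ctr m ζ ν' (w j')))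
      (fun _ _ => Finset.sum_nonneg fun _ _ => Finset.sum_nonneg fun _ _ => ind_nonneg _ _)
      (Finset.mem_erase.2 ⟨hj', Finset.mem_univ _⟩))
    refine le_trans ?_ (Finset.single_le_sum (f := fun ν => ∑ ν',
      ind (Metric.closedBall (0 : T) (2 * MM m * r)) (ctr m ζ ν (w j) - ctr m ζ ν' (w j')))
      (fun _ _ => Finset.sum_nonneg fun _ _ => ind_nonneg _ _) (Finset.mem_univ ν))
    exact Finset.single_le_sum (f := fun ν' =>
      ind (Metric.closedBall (0 : T) (2 * MM m * r)) (ctr m ζ ν (w j) - ctr m ζ ν' (w j')))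
      (fun _ _ => ind_nonneg _ _) (Finset.mem_univ ν')
  have h3 := mul_le_mul_of_nonneg_left h2 (show 0 ≤ 4 * MM m * r by positivity)
  linarith

/-- First moment of a configuration count for the new uncovered set. -/
theorem cnt_mean (hm : ∀ n, 1 ≤ m n) {A B : Set T} (hA : MeasurableSet A) (hB : MeasurableSet B)
    {r : ℝ} (hr : 0 ≤ r) (J : ℕ) {γ e₁ : ℝ} (hγ : 0 ≤ γ)
    (he : ∫ t, ind A t * |J * (∫ ω, ind (Hit m ζ A B r) (ω, t)) - γ| ≤ e₁)
    {κ : Type} [Fintype κ] [DecidableEq κ] (v : κ → ℤ × ℤ × ℤ) (hv : ∀ k, (v k).1 ≠ 0)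
    (hvv : ∀ k k', k ≠ k' → Indep (v k) (v k')) :
    Integrable (fun w : Fin J → T × T => cnt v (ind (newA m ζ A B r w)))
      (Measure.pi fun _ => volume) ∧
    |∫ w : Fin J → T × T, cnt v (ind (newA m ζ A B r w)) ∂(Measure.pi fun _ => volume) -
      Real.exp (-γ) ^ Fintype.card κ * cnt v (ind A)| ≤
      Fintype.card κ * e₁ + 2 * J * (Fintype.card κ * (4 * MM m * r)) ^ 2 := by
  have hh : Measurable (Function.uncurry fun (ω : T × T) (t : T) => ind (Hit m ζ A B r) (ω, t)) :=
    measurable_ind (measurableSet_Hit m ζ hA hB r)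
  constructor
  · refine integrable_of_bdd ?_ 1 fun w =>
      abs_le_one_of_unit (cnt_unit (ind_nonneg _) (ind_le_one _) v)
    simp only [cnt, ind_newA]
    exact ((measurable_count (fun k => lin3 (v k)) (fun k => (continuous_lin3 _).measurable)
      (ind A) (measurable_ind hA) _ hh J).stronglyMeasurable.integral_prod_right'
        (ν := volume)).measurable
  · have := nibble_mean (volume : Measure (T × T)) (volume : Measure (T × T × T))
      (volume : Measure T) (fun k => lin3 (v k)) (fun k => mp_lin3 (hv k))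
      (fun k k' h => mp_lin3_pair (hvv k k' h)) (ind A) (measurable_ind hA) (ind_nonneg A)
      (ind_le_one A) (fun ω t => ind (Hit m ζ A B r) (ω, t)) hh (fun _ _ => ind_nonneg _ _)
      (fun _ _ => ind_le_one _ _) (4 * MM m * r) (integral_Hit_fst_le hm hA hB hr)
      (integral_Hit_snd_le hA hB hr) J γ e₁ hγ he
    simp only [cnt, ind_newA]
    rw [← Real.exp_nat_mul, mul_neg]
    exact this

theorem cnt_single {A : Set T} (hA : MeasurableSet A) :
    cnt (fun _ : Unit => ((1, 0, 0) : ℤ × ℤ × ℤ)) (ind A) = (volume : Measure T).real A := by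
  simp only [cnt, Finset.univ_unique, Finset.prod_singleton]
  rw [integral_comp_mp (mp_lin3 (by simp)) (measurable_ind hA), integral_ind _ hA]

end Crest.Agent.R75.Pack
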