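import Crest.Agent.R75.PackMean

/-!
# Row 75, packing module: measure preserving integer linear maps between tori
-/

set_option autoImplicit false

open Finset MeasureTheory

namespace Crest.Agent.R75.Pack

/-- The circle `ℝ / ℤ`. -/
abbrev T : Type := UnitAddCircle

instance instProbT : IsProbabilityMeasure (volume : Measure T) := ⟨UnitAddCircle.measure_univ⟩

instance instHaarT2 : Measure.IsAddHaarMeasure (volume : Measure (T × T)) :=
  Measure.prod.instIsAddHaarMeasure _ _

instance instHaarT3 : Measure.IsAddHaarMeasure (volume : Measure (T × T × T)) :=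
  Measure.prod.instIsAddHaarMeasure _ _

instance instBorelPi (J : ℕ) : BorelSpace (Fin J → T × T) := Pi.borelSpace

instance instHaarPi (J : ℕ) :
    Measure.IsAddHaarMeasure (Measure.pi fun _ : Fin J => (volume : Measure (T × T))) :=
  haveI h : MeasurableAdd (T × T) := inferInstance
  haveI : ∀ _ : Fin J, MeasurableAdd (T × T) := fun _ => h
  Measure.pi.isAddHaarMeasure _

theorem exists_zsmul_eq {d : ℤ} (hd : d ≠ 0) (t : T) : ∃ u : T, d • u = t :=
  DivisibleBy.surjective_smul T ℤ hd t

/-- An integer linear form on the two-dimensional torus. -/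
def lin2 (v : ℤ × ℤ) (ω : T × T) : T := v.1 • ω.1 + v.2 • ω.2

/-- An integer linear form on the three-dimensional torus. -/
def lin3 (v : ℤ × ℤ × ℤ) (y : T × T × T) : T := v.1 • y.1 + v.2.1 • y.2.1 + v.2.2 • y.2.2

@[fun_prop] theorem continuous_lin2 (v : ℤ × ℤ) : Continuous (lin2 v) := by
  unfold lin2; fun_prop

@[fun_prop] theorem continuous_lin3 (v : ℤ × ℤ × ℤ) : Continuous (lin3 v) := by
  unfold lin3; fun_prop

theorem lin2_add (v : ℤ × ℤ) (x y : T × T) : lin2 v (x + y) = lin2 v x + lin2 v y := by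
  simp only [lin2, Prod.fst_add, Prod.snd_add, smul_add]; abel

theorem lin3_add (v : ℤ × ℤ × ℤ) (x y : T × T × T) : lin3 v (x + y) = lin3 v x + lin3 v y := by
  simp only [lin3, Prod.fst_add, Prod.snd_add, smul_add]; abel

theorem lin2_sub_vec (v w : ℤ × ℤ) (x : T × T) : lin2 (v - w) x = lin2 v x - lin2 w x := by
  simp only [lin2, Prod.fst_sub, Prod.snd_sub, sub_smul]; abel

theorem lin2_neg_vec (v : ℤ × ℤ) (x : T × T) : lin2 (-v) x = -lin2 v x := by
  simp only [lin2, Prod.fst_neg, Prod.snd_neg, neg_smul]; abel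

theorem lin2_surj {v : ℤ × ℤ} (hv : v ≠ 0) : Function.Surjective (lin2 v) := by
  intro t
  by_cases h1 : v.1 = 0
  · have h2 : v.2 ≠ 0 := fun h => hv (Prod.ext h1 h)
    obtain ⟨u, hu⟩ := exists_zsmul_eq h2 t
    exact ⟨(0, u), by simp [lin2, hu]⟩
  · obtain ⟨u, hu⟩ := exists_zsmul_eq h1 t
    exact ⟨(u, 0), by simp [lin2, hu]⟩

theorem mp_lin2 {v : ℤ × ℤ} (hv : v ≠ 0) : MeasurePreserving (lin2 v) volume volume :=
  AddMonoidHom.measurePreserving (f := AddMonoidHom.mk' (lin2 v) (lin2_add v))
    (continuous_lin2 v) (lin2_surj hv) (by simp)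

theorem mp_lin3 {v : ℤ × ℤ × ℤ} (hv : v.1 ≠ 0) : MeasurePreserving (lin3 v) volume volume := by
  refine AddMonoidHom.measurePreserving (f := AddMonoidHom.mk' (lin3 v) (lin3_add v))
    (continuous_lin3 v) ?_ (by simp)
  intro t
  obtain ⟨u, hu⟩ := exists_zsmul_eq hv t
  exact ⟨(u, 0, 0), by simp [lin3, hu]⟩

/-- Linear independence of two integer vectors through the minors that contain coordinate `1`. -/
def Indep (v w : ℤ × ℤ × ℤ) : Prop := v.1 * w.2.1 ≠ v.2.1 * w.1 ∨ v.1 * w.2.2 ≠ v.2.2 * w.1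

theorem mp_lin3_pair {v w : ℤ × ℤ × ℤ} (h : Indep v w) :
    MeasurePreserving (fun y => (lin3 v y, lin3 w y)) volume
      ((volume : Measure T).prod (volume : Measure T)) := by
  refine AddMonoidHom.measurePreserving (μ := volume) (ν := (volume : Measure (T × T)))
    (f := AddMonoidHom.mk' (fun y => (lin3 v y, lin3 w y)) (fun x y => by simp [lin3_add]))
    (by change Continuous fun y => (lin3 v y, lin3 w y); fun_prop) ?_ (by simp)
  rintro ⟨t, t'⟩
  rcases h with h | h
  · obtain ⟨u, hu⟩ := exists_zsmul_eq (sub_ne_zero.2 h) t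
    obtain ⟨u', hu'⟩ := exists_zsmul_eq (sub_ne_zero.2 h) t'
    refine ⟨(w.2.1 • u - v.2.1 • u', v.1 • u' - w.1 • u, 0), ?_⟩
    simp only [AddMonoidHom.mk'_apply, lin3, smul_zero, add_zero, Prod.mk.injEq]
    rw [← hu, ← hu']
    constructor <;> module
  · obtain ⟨u, hu⟩ := exists_zsmul_eq (sub_ne_zero.2 h) t
    obtain ⟨u', hu'⟩ := exists_zsmul_eq (sub_ne_zero.2 h) t'
    refine ⟨(w.2.2 • u - v.2.2 • u', 0, v.1 • u' - w.1 • u), ?_⟩
    simp only [AddMonoidHom.mk'_apply, lin3, smul_zero, add_zero, Prod.mk.injEq]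
    rw [← hu, ← hu']
    constructor <;> module

/-- The parametrisation of `T × T` adapted to the form `(m, z)`. -/
def theta (m z : ℤ) (p : T × T) : T × T := (p.1 - z • p.2, m • p.2)

theorem lin2_theta (m z : ℤ) (v : ℤ × ℤ) (p : T × T) :
    lin2 v (theta m z p) = v.1 • p.1 + (v.2 * m - v.1 * z) • p.2 := by
  simp only [lin2, theta]; module

theorem mp_theta {m : ℤ} (hm : m ≠ 0) (z : ℤ) : MeasurePreserving (theta m z) volume volume := by
  refine AddMonoidHom.measurePreserving
    (f := AddMonoidHom.mk' (theta m z) (fun x y => by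
      simp only [theta, Prod.fst_add, Prod.snd_add, smul_add, Prod.mk_add_mk]
      congr 1; abel))
    (by change Continuous (theta m z); unfold theta; fun_prop) ?_ rfl
  rintro ⟨t, t'⟩
  obtain ⟨u, hu⟩ := exists_zsmul_eq hm t'
  exact ⟨(t + z • u, u), by simp [theta, hu]⟩

theorem mp_zsmul {m : ℤ} (hm : m ≠ 0) : MeasurePreserving (fun x : T => m • x) volume volume :=
  Measure.measurePreserving_zsmul volume hm

theorem mp_pi_diff {J : ℕ} {j j' : Fin J} (hj : j ≠ j') {v : ℤ × ℤ} (hv : v ≠ 0) (w : ℤ × ℤ) :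
    MeasurePreserving (fun x : Fin J → T × T => lin2 v (x j) - lin2 w (x j'))
      (Measure.pi fun _ => volume) volume := by
  refine AddMonoidHom.measurePreserving
    (f := AddMonoidHom.mk' (fun x : Fin J → T × T => lin2 v (x j) - lin2 w (x j'))
      (fun x y => by simp only [Pi.add_apply, lin2_add]; abel))
    (by change Continuous fun x : Fin J → T × T => lin2 v (x j) - lin2 w (x j'); fun_prop) ?_
    (by simp)
  intro t
  obtain ⟨ω, hω⟩ := lin2_surj hv t
  refine ⟨Pi.single j ω, ?_⟩
  simp [Pi.single_eq_of_ne hj.symm, lin2]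
  simpa [lin2] using hω

theorem real_closedBall_le (x : T) {r : ℝ} (hr : 0 ≤ r) :
    (volume : Measure T).real (Metric.closedBall x r) ≤ 2 * r := by
  rw [Measure.real, AddCircle.volume_closedBall, ENNReal.toReal_ofReal (by positivity)]
  exact min_le_right _ _

theorem real_closedBall_eq (x : T) {r : ℝ} (hr : 0 ≤ r) (hr' : 2 * r ≤ 1) :
    (volume : Measure T).real (Metric.closedBall x r) = 2 * r := by
  rw [Measure.real, AddCircle.volume_closedBall, ENNReal.toReal_ofReal (by positivity)]
  exact min_eq_right hr'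

theorem integral_comp_mp {X Y : Type*} [MeasurableSpace X] [MeasurableSpace Y] {μ : Measure X}
    {ν : Measure Y} {f : X → Y} (hf : MeasurePreserving f μ ν) {g : Y → ℝ} (hg : Measurable g) :
    ∫ x, g (f x) ∂μ = ∫ y, g y ∂ν := by
  have := integral_map (μ := μ) hf.measurable.aemeasurable (f := g) hg.aestronglyMeasurable
  rw [hf.map_eq] at this
  exact this.symm

/-- A regular set: measurable, and locally constant away from sets of small measure. -/
def Reg (A : Set T) : Prop :=
  MeasurableSet A ∧ ∀ ε : ℝ, 0 < ε → ∃ r : ℝ, 0 < r ∧ ∃ B : Set T, MeasurableSet B ∧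
    (volume : Measure T).real B ≤ ε ∧ ∀ t, t ∉ B → ∀ t', dist t t' ≤ r → (t ∈ A ↔ t' ∈ A)

theorem reg_univ : Reg Set.univ :=
  ⟨MeasurableSet.univ, fun ε hε => ⟨1, one_pos, ∅, MeasurableSet.empty, by simpa using hε.le,
    by simp⟩⟩

theorem Reg.diff_closedBall {A : Set T} (hA : Reg A) (x : T) {R : ℝ} (hR : 0 < R) :
    Reg (A \ Metric.closedBall x R) := by
  refine ⟨hA.1.diff measurableSet_closedBall, fun ε hε => ?_⟩
  obtain ⟨r, hr, B, hB, hBε, hAB⟩ := hA.2 (ε / 2) (by positivity)
  set ρ := min r (min R (ε / 8)) with hρ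
  have hρ0 : 0 < ρ := by positivity
  have hρr : ρ ≤ r := min_le_left _ _
  have hρR : ρ ≤ R := (min_le_right _ _).trans (min_le_left _ _)
  have hρε : ρ ≤ ε / 8 := (min_le_right _ _).trans (min_le_right _ _)
  refine ⟨ρ, hρ0, B ∪ (Metric.closedBall x (R + ρ) \ Metric.closedBall x (R - ρ)),
    hB.union (measurableSet_closedBall.diff measurableSet_closedBall), ?_, ?_⟩
  · refine (measureReal_union_le _ _).trans ?_
    have : (volume : Measure T).real (Metric.closedBall x (R + ρ) \ Metric.closedBall x (R - ρ)) ≤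
        4 * ρ := by
      rw [measureReal_sdiff (Metric.closedBall_subset_closedBall (by linarith))
        measurableSet_closedBall]
      simp only [Measure.real, AddCircle.volume_closedBall]
      rw [ENNReal.toReal_ofReal (by positivity),
        ENNReal.toReal_ofReal (le_min zero_le_one (by linarith))]
      rcases le_total 1 (2 * (R - ρ)) with h | h
      · rw [min_eq_left h]; linarith [min_le_left (1 : ℝ) (2 * (R + ρ))]
      · rw [min_eq_right h]; linarith [min_le_right (1 : ℝ) (2 * (R + ρ))]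
    linarith
  · intro t ht t' htt
    simp only [Set.mem_union, Set.mem_sdiff, Metric.mem_closedBall, not_or, not_and, not_not] at ht
    have h1 := hAB t ht.1 t' (htt.trans hρr)
    simp only [Set.mem_sdiff, Metric.mem_closedBall]
    have d1 := dist_triangle t t' x
    have d2 := dist_triangle t' t x
    rw [dist_comm t' t] at d2
    by_cases hc : dist t x ≤ R + ρ
    · have := ht.2 hc
      constructor
      · rintro ⟨_, h⟩; exact absurd (by linarith) h
      · rintro ⟨_, h⟩; exact absurd (by linarith) h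
    · push Not at hc
      constructor
      · rintro ⟨h, _⟩; exact ⟨h1.1 h, by intro h'; linarith⟩
      · rintro ⟨h, _⟩; exact ⟨h1.2 h, by intro h'; linarith⟩

theorem Reg.diff_biUnion {κ : Type*} {A : Set T} (hA : Reg A) (s : Finset κ) (x : κ → T)
    (R : κ → ℝ) (hR : ∀ k, 0 < R k) : Reg (A \ ⋃ k ∈ s, Metric.closedBall (x k) (R k)) := by
  classical
  induction s using Finset.induction_on with
  | empty => simpa using hA
  | insert i s hi ih =>
    have := ih.diff_closedBall (x i) (hR i)
    convert this using 1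
    ext t
    simp only [Finset.mem_insert, Set.mem_sdiff, Set.mem_iUnion, exists_prop]
    constructor
    · rintro ⟨h1, h2⟩
      exact ⟨⟨h1, fun ⟨k, hk, hk'⟩ => h2 ⟨k, Or.inr hk, hk'⟩⟩, fun h => h2 ⟨i, Or.inl rfl, h⟩⟩
    · rintro ⟨⟨h1, h2⟩, h3⟩
      refine ⟨h1, ?_⟩
      rintro ⟨k, rfl | hk, hk'⟩
      · exact h3 hk'
      · exact h2 ⟨k, hk, hk'⟩

end Crest.Agent.R75.Pack
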