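import Crest.Agent.R75.Defs

/-! Row 75, module F: perfect sequences (Milewski times Chu). -/

set_option autoImplicit false

open Finset

namespace Crest.Agent.R75

namespace PerfectAux

theorem sum_shift {f : ℕ → ℂ} {q : ℕ} (hf : ∀ x, f (x + q) = f x) (h : ℕ) :
    ∑ x ∈ range q, f (x + h) = ∑ x ∈ range q, f x := by
  induction h with
  | zero => simp
  | succ h ih =>
    have h1 := Finset.sum_range_succ (fun x => f (x + h)) q
    have h2 := Finset.sum_range_succ' (fun x => f (x + h)) q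
    have h3 : f (q + h) = f (0 + h) := by rw [add_comm q h, hf, zero_add]
    have h4 : ∑ x ∈ range q, f (x + (h + 1)) = ∑ x ∈ range q, f (x + 1 + h) :=
      Finset.sum_congr rfl fun x _ => by congr 1; ring
    rw [h4, ← ih]
    rw [h1, h3] at h2
    exact (add_right_cancel h2).symm

theorem card_filter_dvd_le (d g : ℕ) (hd : 0 < d) :
    ((range (g * d)).filter fun h => d ∣ h).card ≤ g := by
  have : ((range (g * d)).filter fun h => d ∣ h).card ≤ (range g).card := by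
    refine Finset.card_le_card_of_injOn (fun h => h / d) ?_ ?_
    · intro h hh
      simp only [coe_filter, mem_range, Set.mem_ofPred_eq] at hh
      simp only [coe_range, Set.mem_Iio]
      exact (Nat.div_lt_iff_lt_mul hd).2 hh.1
    · intro h hh h' hh' e
      simp only [coe_filter, mem_range, Set.mem_ofPred_eq] at hh hh'
      have e' : h / d = h' / d := e
      rw [← Nat.div_mul_cancel hh.2, ← Nat.div_mul_cancel hh'.2, e']
  simpa using this

/-- The quadratic phase. -/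
noncomputable def qf (Q a : ℕ) (j : ℤ) (k : ℕ) : ℂ := ee (((a : ℝ) * k ^ 2 + j * k) / Q)

theorem qf_periodic {Q : ℕ} (hQ : 0 < Q) (a : ℕ) (j : ℤ) (k : ℕ) :
    qf Q a j (k + Q) = qf Q a j k := by
  have hQ' : (Q : ℝ) ≠ 0 := by positivity
  rw [qf, qf, ← ee_add_intCast (((a : ℝ) * k ^ 2 + j * k) / Q) (a * (2 * k + Q) + j)]
  congr 1
  push_cast
  field_simp
  ring

theorem quad_norm_sq_le {Q : ℕ} (hQ : Odd Q) (a : ℕ) (j : ℤ) :
    ‖∑ k ∈ range Q, qf Q a j k‖ ^ 2 ≤ (Nat.gcd a Q : ℝ) * Q := by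
  have hQ0 : 0 < Q := hQ.pos
  have hQ' : (Q : ℝ) ≠ 0 := by positivity
  set S := ∑ k ∈ range Q, qf Q a j k with hS
  have h1 : S * (starRingEnd ℂ) S =
      ∑ h ∈ range Q, qf Q a j h * (if (Q : ℤ) ∣ 2 * a * h then (Q : ℂ) else 0) := by
    have h2 : S * (starRingEnd ℂ) S =
        ∑ k ∈ range Q, ∑ h ∈ range Q, qf Q a j (h + k) * (starRingEnd ℂ) (qf Q a j k) := by
      rw [hS, map_sum, Finset.mul_sum]
      refine Finset.sum_congr rfl fun k _ => ?_
      rw [← Finset.sum_mul, sum_shift (qf_periodic hQ0 a j)]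
    rw [h2, Finset.sum_comm]
    refine Finset.sum_congr rfl fun h _ => ?_
    rw [← sum_ee_div Q hQ0 (2 * a * h), Finset.mul_sum]
    refine Finset.sum_congr rfl fun k _ => ?_
    rw [qf, qf, qf, ← ee_sub, ← ee_add]
    congr 1
    push_cast
    field_simp
    ring
  have h3 : ‖S‖ ^ 2 = ‖S * (starRingEnd ℂ) S‖ := by
    rw [norm_mul, Complex.norm_conj, sq]
  rw [h3, h1]
  obtain ⟨d, hd⟩ : Nat.gcd a Q ∣ Q := Nat.gcd_dvd_right a Q
  set g := Nat.gcd a Q with hg
  have hg0 : 0 < g := Nat.gcd_pos_of_pos_right a hQ0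
  have hd0 : 0 < d := Nat.pos_of_mul_pos_left (hd ▸ hQ0)
  calc ‖∑ h ∈ range Q, qf Q a j h * (if (Q : ℤ) ∣ 2 * a * h then (Q : ℂ) else 0)‖
      ≤ ∑ h ∈ range Q, ‖qf Q a j h * (if (Q : ℤ) ∣ 2 * a * h then (Q : ℂ) else 0)‖ :=
        norm_sum_le _ _
    _ ≤ ∑ h ∈ range Q, (if d ∣ h then (Q : ℝ) else 0) := by
        refine Finset.sum_le_sum fun h _ => ?_
        rw [norm_mul, qf, norm_ee, one_mul]
        by_cases hdiv : (Q : ℤ) ∣ 2 * a * h
        · have h4 : Q ∣ 2 * (a * h) := by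
            have : ((2 * (a * h) : ℕ) : ℤ) = 2 * a * h := by push_cast; ring
            rw [← this] at hdiv
            exact_mod_cast hdiv
          have h5 : Q ∣ a * h := (Nat.coprime_two_right.2 hQ).dvd_of_dvd_mul_left h4
          have h6 : d ∣ h := by
            obtain ⟨a', ha'⟩ : g ∣ a := Nat.gcd_dvd_left a Q
            have hcop : Nat.Coprime a' d := by
              have h7 := Nat.coprime_div_gcd_div_gcd (m := a) (n := Q) hg0
              rw [← hg] at h7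
              have e1 : a / g = a' := by
                rw [ha']; exact Nat.mul_div_cancel_left a' hg0
              have e2 : Q / g = d := by
                conv_lhs => rw [hd]
                exact Nat.mul_div_cancel_left d hg0
              rwa [e1, e2] at h7
            have h8 : g * d ∣ g * (a' * h) := by
              rw [← hd, ← mul_assoc, ← ha']; exact h5
            exact hcop.symm.dvd_of_dvd_mul_left (Nat.dvd_of_mul_dvd_mul_left hg0 h8)
          rw [if_pos hdiv, if_pos h6]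
          simp
        · rw [if_neg hdiv, norm_zero]
          split_ifs <;> positivity
    _ = ((range Q).filter fun h => d ∣ h).card * (Q : ℝ) := by
        rw [← Finset.sum_filter]; simp
    _ ≤ (g : ℝ) * Q := by
        refine mul_le_mul_of_nonneg_right ?_ (by positivity)
        have h9 := card_filter_dvd_le d g hd0
        rw [← hd] at h9
        exact_mod_cast h9

theorem quad_eq_zero {Q : ℕ} (hQ0 : 0 < Q) (a : ℕ) (j : ℤ) (hj : ¬ ((Nat.gcd a Q : ℕ) : ℤ) ∣ j) :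
    ∑ k ∈ range Q, qf Q a j k = 0 := by
  obtain ⟨d, hd⟩ : Nat.gcd a Q ∣ Q := Nat.gcd_dvd_right a Q
  obtain ⟨a', ha'⟩ : Nat.gcd a Q ∣ a := Nat.gcd_dvd_left a Q
  set g := Nat.gcd a Q with hg
  have hg0 : 0 < g := Nat.gcd_pos_of_pos_right a hQ0
  have hd0 : 0 < d := Nat.pos_of_mul_pos_left (hd ▸ hQ0)
  have hg' : (g : ℝ) ≠ 0 := by positivity
  have hd' : (d : ℝ) ≠ 0 := by positivity
  have hQr : (Q : ℝ) = g * d := by exact_mod_cast hd
  have har : (a : ℝ) = g * a' := by exact_mod_cast ha'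
  have h1 : ∀ k, qf Q a j (k + d) = qf Q a j k * ee (j / g) := by
    intro k
    rw [qf, qf, ← ee_add, ← ee_add_intCast (((a : ℝ) * k ^ 2 + j * k) / Q + j / g)
      (a' * (2 * k + d))]
    congr 1
    push_cast
    rw [hQr, har]
    field_simp
    ring
  have h2 := sum_shift (qf_periodic hQ0 a j) d
  simp only [h1] at h2
  rw [← Finset.sum_mul] at h2
  have h3 : ee (j / g) ≠ 1 := by
    intro h
    obtain ⟨n, hn⟩ := (ee_eq_one_iff _).1 h
    apply hj
    refine ⟨n, ?_⟩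
    have : (j : ℝ) = g * n := by field_simp at hn; linarith
    exact_mod_cast this
  have h4 : (∑ k ∈ range Q, qf Q a j k) * (ee (j / g) - 1) = 0 := by
    rw [mul_sub, h2, mul_one, sub_self]
  exact (mul_eq_zero.1 h4).resolve_right (sub_ne_zero.2 h3)

/-- Chu sequences. -/
theorem flat_chu {Q : ℕ} (hQ : Odd Q) (m : ℕ) :
    Flat (fun x => ee (m * ((x : ℝ) ^ 2 / Q))) Q (Nat.gcd m Q) := by
  have hQ0 : 0 < Q := hQ.pos
  refine ⟨Nat.gcd_pos_of_pos_right m hQ0, Nat.gcd_dvd_right m Q, fun ξ => ?_⟩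
  have h1 : ∑ x ∈ range Q, ee (m * ((x : ℝ) ^ 2 / Q)) * ee (-(ξ * x / Q)) =
      ∑ x ∈ range Q, qf Q m (-ξ) x := by
    refine Finset.sum_congr rfl fun x _ => ?_
    rw [qf, ← ee_add]
    congr 1
    push_cast
    ring
  simp only [h1]
  refine ⟨quad_norm_sq_le hQ m (-ξ), fun h => quad_eq_zero hQ0 m (-ξ) ?_⟩
  rwa [dvd_neg]

theorem sum_crt {q₁ q₂ : ℕ} (hc : Nat.Coprime q₁ q₂) (h₁ : 0 < q₁) (h₂ : 0 < q₂) {f₁ f₂ : ℕ → ℂ}
    (hf₁ : ∀ x, f₁ (x + q₁) = f₁ x) (hf₂ : ∀ x, f₂ (x + q₂) = f₂ x) :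
    ∑ x ∈ range (q₁ * q₂), f₁ x * f₂ x = (∑ x ∈ range q₁, f₁ x) * ∑ x ∈ range q₂, f₂ x := by
  rw [Finset.sum_mul_sum, ← Finset.sum_product']
  refine Finset.sum_bij (fun x _ => (x % q₁, x % q₂)) ?_ ?_ ?_ ?_
  · intro x _
    simp [Nat.mod_lt _ h₁, Nat.mod_lt _ h₂]
  · intro x hx y hy e
    simp only [Prod.mk.injEq] at e
    have h : x ≡ y [MOD q₁ * q₂] := (Nat.modEq_and_modEq_iff_modEq_mul hc).1 ⟨e.1, e.2⟩
    exact Nat.ModEq.eq_of_lt_of_lt h (mem_range.1 hx) (mem_range.1 hy)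
  · rintro ⟨a, b⟩ hab
    simp only [mem_product, mem_range] at hab
    refine ⟨Nat.chineseRemainder hc a b,
      mem_range.2 (Nat.chineseRemainder_lt_mul hc a b h₁.ne' h₂.ne'), ?_⟩
    have h3 := (Nat.chineseRemainder hc a b).2
    have h4 : (Nat.chineseRemainder hc a b : ℕ) % q₁ = a % q₁ := h3.1
    have h5 : (Nat.chineseRemainder hc a b : ℕ) % q₂ = b % q₂ := h3.2
    rw [h4, h5, Nat.mod_eq_of_lt hab.1, Nat.mod_eq_of_lt hab.2]
  · intro x _
    have e1 : f₁ (x % q₁) = f₁ x := Function.Periodic.map_mod_nat hf₁ x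
    have e2 : f₂ (x % q₂) = f₂ x := Function.Periodic.map_mod_nat hf₂ x
    simp only [e1, e2]

theorem flat_mul {q₁ q₂ D₁ D₂ : ℕ} (hc : Nat.Coprime q₁ q₂) (h₁ : 0 < q₁) (h₂ : 0 < q₂)
    {u₁ u₂ : ℕ → ℂ} (hu₁ : ∀ x, u₁ (x + q₁) = u₁ x) (hu₂ : ∀ x, u₂ (x + q₂) = u₂ x)
    (F₁ : Flat u₁ q₁ D₁) (F₂ : Flat u₂ q₂ D₂) :
    Flat (fun x => u₁ x * u₂ x) (q₁ * q₂) (D₁ * D₂) := by
  obtain ⟨hD₁, hd₁, H₁⟩ := F₁
  obtain ⟨hD₂, hd₂, H₂⟩ := F₂
  refine ⟨Nat.mul_pos hD₁ hD₂, Nat.mul_dvd_mul hd₁ hd₂, fun ξ => ?_⟩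
  obtain ⟨b, a, hab⟩ : IsCoprime (q₁ : ℤ) (q₂ : ℤ) := Nat.isCoprime_iff_coprime.2 hc
  have hq₁ : (q₁ : ℝ) ≠ 0 := by positivity
  have hq₂ : (q₂ : ℝ) ≠ 0 := by positivity
  have habr : (b : ℝ) * q₁ + a * q₂ = 1 := by exact_mod_cast hab
  have key : ∑ x ∈ range (q₁ * q₂), u₁ x * u₂ x * ee (-(ξ * x / ((q₁ * q₂ : ℕ) : ℝ))) =
      (∑ x ∈ range q₁, u₁ x * ee (-(((ξ * a : ℤ) : ℝ) * x / q₁))) *
        ∑ x ∈ range q₂, u₂ x * ee (-(((ξ * b : ℤ) : ℝ) * x / q₂)) := by
    rw [← sum_crt hc h₁ h₂]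
    · refine Finset.sum_congr rfl fun x _ => ?_
      have : -(ξ * x / ((q₁ * q₂ : ℕ) : ℝ)) =
          -(((ξ * a : ℤ) : ℝ) * x / q₁) + -(((ξ * b : ℤ) : ℝ) * x / q₂) := by
        push_cast
        field_simp
        linear_combination (ξ * x : ℝ) * habr
      rw [this, ee_add]; ring
    · intro x
      rw [hu₁, ← ee_add_intCast (-(((ξ * a : ℤ) : ℝ) * x / q₁)) (-(ξ * a))]
      congr 2
      push_cast
      field_simp
      ring
    · intro x
      rw [hu₂, ← ee_add_intCast (-(((ξ * b : ℤ) : ℝ) * x / q₂)) (-(ξ * b))]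
      congr 2
      push_cast
      field_simp
      ring
  simp only [key]
  refine ⟨?_, fun hξ => ?_⟩
  · rw [norm_mul, mul_pow]
    calc _ ≤ ((D₁ : ℝ) * q₁) * ((D₂ : ℝ) * q₂) :=
          mul_le_mul (H₁ _).1 (H₂ _).1 (by positivity) (by positivity)
      _ = _ := by push_cast; ring
  · have hD : IsCoprime (D₁ : ℤ) (D₂ : ℤ) :=
      Nat.isCoprime_iff_coprime.2 (Nat.Coprime.coprime_dvd_right hd₂
        (Nat.Coprime.coprime_dvd_left hd₁ hc))
    by_cases hx₁ : (D₁ : ℤ) ∣ ξ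
    · have hx₂ : ¬ (D₂ : ℤ) ∣ ξ := fun hx₂ => hξ (by push_cast; exact hD.mul_dvd hx₁ hx₂)
      have h3 : ¬ (D₂ : ℤ) ∣ ξ * b := by
        intro h
        apply hx₂
        have h4 : (D₂ : ℤ) ∣ (q₂ : ℤ) := by exact_mod_cast hd₂
        have : ξ = ξ * b * q₁ + ξ * a * q₂ := by linear_combination (-ξ) * hab
        rw [this]
        exact dvd_add (h.mul_right _) (h4.mul_left _)
      rw [(H₂ _).2 h3, mul_zero]
    · have h3 : ¬ (D₁ : ℤ) ∣ ξ * a := by
        intro h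
        apply hx₁
        have h4 : (D₁ : ℤ) ∣ (q₁ : ℤ) := by exact_mod_cast hd₁
        have : ξ = ξ * b * q₁ + ξ * a * q₂ := by linear_combination (-ξ) * hab
        rw [this]
        exact dvd_add (h4.mul_left _) (h.mul_right _)
      rw [(H₁ _).2 h3, zero_mul]

/-- The Milewski phase. -/
noncomputable def mil (p c x : ℕ) : ℝ :=
  ((x / p : ℕ) : ℝ) ^ 2 / (p : ℝ) ^ c + ((x % p : ℕ) : ℝ) * ((x / p : ℕ) : ℝ) / (p : ℝ) ^ (c + 1)

theorem mil_periodic {p : ℕ} (hp : 0 < p) (c m x : ℕ) :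
    ee (m * mil p c (x + p ^ (c + 2))) = ee (m * mil p c x) := by
  have hp' : (p : ℝ) ≠ 0 := by positivity
  have e1 : (x + p ^ (c + 2)) / p = x / p + p ^ (c + 1) := by
    rw [pow_succ' p (c + 1), Nat.add_mul_div_left _ _ hp]
  have e2 : (x + p ^ (c + 2)) % p = x % p := by
    rw [pow_succ' p (c + 1), Nat.add_mul_mod_self_left]
  rw [← ee_add_intCast (m * mil p c x)
    (m * (2 * ((x / p : ℕ) : ℤ) * p + p ^ (c + 2) + ((x % p : ℕ) : ℤ)))]
  congr 1
  rw [mil, mil, e1, e2]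
  generalize x / p = k
  generalize x % p = l
  push_cast
  field_simp
  ring

theorem sum_range_mul_eq {p n : ℕ} (f : ℕ → ℂ) :
    ∑ x ∈ range (p * n), f x = ∑ l ∈ range p, ∑ k ∈ range n, f (p * k + l) := by
  rw [Finset.sum_comm]
  induction n with
  | zero => simp
  | succ n ih => rw [Nat.mul_succ, Finset.sum_range_add, ih, Finset.sum_range_succ]

theorem flat_mil_small {p : ℕ} (hp : p.Prime) (hodd : Odd p) (c m : ℕ) (hm : m ≠ 0)
    (hv : m.factorization p ≤ c) :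
    Flat (fun x => ee (m * mil p c x)) (p ^ (c + 2)) (p ^ m.factorization p) := by
  have hp0 : 0 < p := hp.pos
  have hp' : (p : ℝ) ≠ 0 := by positivity
  set v := m.factorization p with hvdef
  obtain ⟨m', hm', hpm'⟩ : ∃ m', m = p ^ v * m' ∧ ¬ p ∣ m' :=
    ⟨m / p ^ v, (Nat.ordProj_mul_ordCompl_eq_self m p).symm, Nat.not_dvd_ordCompl hp hm⟩
  refine ⟨pow_pos hp0 _, pow_dvd_pow _ (by omega), fun ξ => ?_⟩
  have hgcd : Nat.gcd (m * p) (p ^ (c + 1)) = p ^ (v + 1) := by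
    have e1 : m * p = p ^ (v + 1) * m' := by rw [hm']; ring
    have e2 : p ^ (c + 1) = p ^ (v + 1) * p ^ (c - v) := by
      rw [← pow_add]; congr 1; omega
    rw [e1, e2, Nat.gcd_mul_left, Nat.Coprime.gcd_eq_one, mul_one]
    exact (Nat.Coprime.pow_left _ ((Nat.Prime.coprime_iff_not_dvd hp).2 hpm')).symm
  have key : ∑ x ∈ range (p ^ (c + 2)), ee (m * mil p c x) * ee (-(ξ * x / ((p ^ (c + 2) : ℕ) : ℝ)))
      = ∑ l ∈ range p, ee (-(ξ * l / (p : ℝ) ^ (c + 2))) *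
          ∑ k ∈ range (p ^ (c + 1)), qf (p ^ (c + 1)) (m * p) (m * l - ξ) k := by
    rw [pow_succ' p (c + 1), sum_range_mul_eq]
    refine Finset.sum_congr rfl fun l hl => ?_
    rw [Finset.mul_sum]
    refine Finset.sum_congr rfl fun k _ => ?_
    have e1 : (p * k + l) / p = k := by
      rw [Nat.mul_add_div hp0, Nat.div_eq_of_lt (mem_range.1 hl), add_zero]
    have e2 : (p * k + l) % p = l := by
      rw [Nat.mul_add_mod, Nat.mod_eq_of_lt (mem_range.1 hl)]
    rw [qf, mil, e1, e2, ← ee_add, ← ee_add]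
    congr 1
    push_cast
    field_simp
    ring
  simp only [key]
  have hzero : ∀ l : ℕ, ¬ ((p : ℤ) ^ (v + 1)) ∣ (m * l - ξ) →
      ∑ k ∈ range (p ^ (c + 1)), qf (p ^ (c + 1)) (m * p) (m * l - ξ) k = 0 := by
    intro l hl
    refine quad_eq_zero (pow_pos hp0 _) _ _ ?_
    rw [hgcd]
    exact_mod_cast hl
  refine ⟨?_, fun hξ => ?_⟩
  · by_cases hex : ∃ l ∈ range p, ((p : ℤ) ^ (v + 1)) ∣ (m * l - ξ)
    · obtain ⟨l₀, hl₀, hd₀⟩ := hex
      rw [Finset.sum_eq_single_of_mem l₀ hl₀]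
      · rw [norm_mul, norm_ee, one_mul]
        refine (quad_norm_sq_le (hodd.pow) _ _).trans (le_of_eq ?_)
        rw [hgcd]
        push_cast
        ring
      · intro l hl hne
        rw [hzero l, mul_zero]
        intro hd
        apply hne
        have h1 := dvd_sub hd hd₀
        have e : (m : ℤ) * l - ξ - (m * l₀ - ξ) = (p : ℤ) ^ v * (m' * (l - l₀)) := by
          rw [hm']; push_cast; ring
        rw [e, pow_succ] at h1
        have h2 : (p : ℤ) ∣ m' * (l - l₀) :=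
          (mul_dvd_mul_iff_left (pow_ne_zero _ (by exact_mod_cast hp0.ne'))).1 h1
        have hpi : Prime (p : ℤ) := Nat.prime_iff_prime_int.1 hp
        have h3 : (p : ℤ) ∣ (l : ℤ) - l₀ := by
          refine (hpi.dvd_or_dvd h2).resolve_left ?_
          exact_mod_cast hpm'
        have h4 : l₀ ≡ l [MOD p] := (Nat.modEq_iff_dvd).2 h3
        exact (Nat.ModEq.eq_of_lt_of_lt h4 (mem_range.1 hl₀) (mem_range.1 hl)).symm
    · push Not at hex
      rw [Finset.sum_eq_zero fun l hl => by rw [hzero l (hex l hl), mul_zero]]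
      simp only [norm_zero, ne_eq, OfNat.ofNat_ne_zero, not_false_eq_true, zero_pow]
      positivity
  · refine Finset.sum_eq_zero fun l _ => ?_
    rw [hzero l, mul_zero]
    intro hd
    apply hξ
    have h1 : (p : ℤ) ^ v ∣ m * l - ξ := (pow_dvd_pow _ (Nat.le_succ v)).trans hd
    have h2 : (p : ℤ) ^ v ∣ m * l := by
      rw [hm']; push_cast
      exact (dvd_mul_right _ _).mul_right _
    have h3 := dvd_sub h2 h1
    push_cast
    simpa using h3

theorem flat_mil_large {p : ℕ} (hp : p.Prime) (c m : ℕ) (hv : c < m.factorization p) :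
    Flat (fun x => ee (m * mil p c x)) (p ^ (c + 2)) (p ^ (c + 2)) := by
  have hp0 : 0 < p := hp.pos
  have hp' : (p : ℝ) ≠ 0 := by positivity
  obtain ⟨m', hm'⟩ : p ^ (c + 1) ∣ m := (pow_dvd_pow p hv).trans (Nat.ordProj_dvd m p)
  have h1 : ∀ x, ee (m * mil p c x) = 1 := by
    intro x
    rw [← ee_natCast (m' * ((x / p) ^ 2 * p + (x % p) * (x / p)))]
    congr 1
    rw [mil, hm']
    generalize x / p = k
    generalize x % p = l
    push_cast
    field_simp
    ring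
  refine ⟨pow_pos hp0 _, dvd_rfl, fun ξ => ?_⟩
  have h2 : ∑ x ∈ range (p ^ (c + 2)), ee (m * mil p c x) *
      ee (-(ξ * x / ((p ^ (c + 2) : ℕ) : ℝ))) =
      if ((p ^ (c + 2) : ℕ) : ℤ) ∣ -ξ then ((p ^ (c + 2) : ℕ) : ℂ) else 0 := by
    rw [← sum_ee_div _ (pow_pos hp0 _)]
    refine Finset.sum_congr rfl fun x _ => ?_
    rw [h1, one_mul]
    congr 1
    push_cast
    ring
  simp only [h2]
  refine ⟨?_, fun h => by rw [if_neg (by rwa [dvd_neg])]⟩
  split_ifs
  · rw [Complex.norm_natCast, sq]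
  · simp only [norm_zero, ne_eq, OfNat.ofNat_ne_zero, not_false_eq_true, zero_pow]
    positivity

end PerfectAux

open PerfectAux in
theorem perfect : PerfectStmt := by
  intro M p c hp hodd
  have hp0 : 0 < p := hp.pos
  have hp' : (p : ℝ) ≠ 0 := by positivity
  set T := (range (M + 1)).filter fun k => Odd k ∧ ¬ p ∣ k with hT
  set Q := ∏ k ∈ T, k with hQ
  have hQodd : Odd Q := by
    rw [hQ]
    refine Finset.prod_induction _ Odd (fun a b ha hb => ha.mul hb) odd_one ?_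
    intro k hk
    exact (mem_filter.1 hk).2.1
  have hQp : Nat.Coprime p Q := by
    rw [hQ]
    refine Nat.Coprime.prod_right fun k hk => ?_
    exact (Nat.Prime.coprime_iff_not_dvd hp).2 (mem_filter.1 hk).2.2
  have hQ0 : 0 < Q := hQodd.pos
  have hQ' : (Q : ℝ) ≠ 0 := by positivity
  refine ⟨p ^ (c + 2) * Q, fun x => mil p c x + (x : ℝ) ^ 2 / Q,
    fun m => (if m.factorization p ≤ c then p ^ m.factorization p else p ^ (c + 2)) * Nat.gcd m Q,
    Nat.mul_pos (pow_pos hp0 _) hQ0, fun m hm hmM => ⟨?_, ?_⟩⟩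
  · have e : (fun x : ℕ => ee (m * (mil p c x + (x : ℝ) ^ 2 / Q))) =
        fun x : ℕ => ee (m * mil p c x) * ee (m * ((x : ℝ) ^ 2 / Q)) := by
      funext x
      rw [mul_add, ee_add]
    rw [e]
    refine flat_mul (Nat.Coprime.pow_left _ hQp) (pow_pos hp0 _) hQ0
      (mil_periodic hp0 c m) ?_ ?_ (flat_chu hQodd m)
    · intro x
      rw [← ee_add_intCast (m * ((x : ℝ) ^ 2 / Q)) (m * (2 * x + Q))]
      congr 1
      push_cast
      field_simp
      ring
    · split_ifs with hv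
      · exact flat_mil_small hp hodd c m hm.pos.ne' hv
      · exact flat_mil_large hp c m (not_le.1 hv)
  · set v := m.factorization p with hvdef
    obtain ⟨m', hm', hpm'⟩ : ∃ m', m = p ^ v * m' ∧ ¬ p ∣ m' :=
      ⟨m / p ^ v, (Nat.ordProj_mul_ordCompl_eq_self m p).symm,
        Nat.not_dvd_ordCompl hp hm.pos.ne'⟩
    have hm'odd : Odd m' := (Nat.odd_mul.1 (hm' ▸ hm)).2
    have hm'le : m' ≤ M := (Nat.le_of_dvd hm.pos ⟨p ^ v, by rw [mul_comm]; exact hm'⟩).trans hmM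
    have hm'Q : m' ∣ Q := by
      rw [hQ]
      refine Finset.dvd_prod_of_mem (fun k => k) ?_
      exact mem_filter.2 ⟨mem_range.2 (by omega), hm'odd, hpm'⟩
    have hg : Nat.gcd m Q = m' := by
      conv_lhs => rw [hm']
      rw [Nat.Coprime.gcd_mul_left_cancel m' (Nat.Coprime.pow_left _ hQp)]
      exact Nat.gcd_eq_left hm'Q
    have hm'0 : (m' : ℝ) ≠ 0 := by exact_mod_cast hm'odd.pos.ne'
    have hmr : (m : ℝ) = (p : ℝ) ^ v * m' := by exact_mod_cast hm'
    simp only [rho, hg, ← hvdef]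
    split_ifs with hv
    · rw [hmr]
      push_cast
      field_simp
    · rw [hmr, show (v : ℤ) - c - 2 = (v : ℤ) - ((c + 2 : ℕ) : ℤ) by push_cast; ring,
        zpow_sub₀ hp', zpow_natCast, zpow_natCast]
      push_cast
      field_simp

end Crest.Agent.R75
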