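import Crest.Agent.R75.Defs

/-! Row 75, module H: the ratios `m ^ (-a)` are achievable. -/

set_option autoImplicit false

open Finset

namespace Crest.Agent.R75

namespace PowerAux

theorem inR_congr {M : ℕ} {ρ ρ' : ℕ → ℝ} (h : InR M ρ)
    (e : ∀ m : ℕ, Odd m → m ≤ M → ρ m = ρ' m) : InR M ρ' := by
  intro ε hε
  obtain ⟨n, S, β, hn, hS, hy⟩ := h ε hε
  refine ⟨n, S, β, hn, fun m hm hmM => ?_, hy⟩
  rw [← e m hm hmM]
  exact hS m hm hmM

theorem inR_one (M : ℕ) : InR M (fun _ => 1) := by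
  intro ε hε
  refine ⟨1, fun _ => {0}, fun _ _ => 1, one_pos, fun m _ _ => ⟨by simp, by simp⟩, fun y => ?_⟩
  refine ⟨1, 0, zero_le_one, le_rfl, fun m _ _ => ?_⟩
  simp [hε.le]

theorem inR_mul {M : ℕ} {ρ ρ' : ℕ → ℝ} (h : InR M ρ) (h' : InR M ρ') :
    InR M (fun m => ρ m * ρ' m) := by
  intro ε hε
  set e : ℝ := min 1 (ε / 3) with he
  have he0 : 0 < e := lt_min one_pos (by positivity)
  have he1 : e ≤ 1 := min_le_left _ _
  have he2 : e ≤ ε / 3 := min_le_right _ _
  obtain ⟨n, S, β, hn, hS, hy⟩ := h e he0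
  obtain ⟨n', S', β', hn', hS', hy'⟩ := h' e he0
  obtain ⟨L, hL0, hL⟩ : ∃ L : ℕ, 0 < L ∧ ∀ m ≤ M, ∀ ξ ∈ S m, ξ < L := by
    refine ⟨((range (M + 1)).biUnion S).sup id + 1, Nat.succ_pos _, fun m hm ξ hξ => ?_⟩
    refine Nat.lt_succ_of_le (Finset.le_sup (f := id) ?_)
    exact mem_biUnion.2 ⟨m, mem_range.2 (by omega), hξ⟩
  have hmod : ∀ m ≤ M, ∀ ξ ∈ S m, ∀ ξ' : ℕ, (ξ + L * ξ') % L = ξ ∧ (ξ + L * ξ') / L = ξ' := by
    intro m hm ξ hξ ξ'
    have := hL m hm ξ hξ
    refine ⟨by rw [Nat.add_mul_mod_self_left, Nat.mod_eq_of_lt this], ?_⟩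
    rw [Nat.add_mul_div_left _ _ hL0, Nat.div_eq_of_lt this, zero_add]
  have hinj : ∀ m ≤ M, Set.InjOn (fun x : ℕ × ℕ => x.1 + L * x.2) (S m ×ˢ S' m : Finset (ℕ × ℕ)) := by
    rintro m hm ⟨a, b⟩ hab ⟨a', b'⟩ hab' e
    simp only [coe_product, Set.mem_prod, mem_coe] at hab hab'
    have e' : a + L * b = a' + L * b' := e
    have h1 := hmod m hm a hab.1 b
    have h2 := hmod m hm a' hab'.1 b'
    rw [e'] at h1
    exact Prod.ext (h1.1.symm.trans h2.1) (h1.2.symm.trans h2.2)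
  refine ⟨n * n', fun m => (S m ×ˢ S' m).image fun x => x.1 + L * x.2,
    fun m z => β m (z % L) * β' m (z / L), mul_pos hn hn', fun m hm hmM => ?_, fun y => ?_⟩
  · have hc : (((S m ×ˢ S' m).image fun x => x.1 + L * x.2).card : ℝ) =
        (S m).card * (S' m).card := by
      rw [Finset.card_image_of_injOn (hinj m hmM), Finset.card_product]
      push_cast; rfl
    refine ⟨?_, fun z hz => ?_⟩
    · rw [hc, (hS m hm hmM).1, (hS' m hm hmM).1]; ring
    · obtain ⟨⟨a, b⟩, hab, rfl⟩ := Finset.mem_image.1 hz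
      rw [Finset.mem_product] at hab
      have h1 := hmod m hmM a hab.1 b
      simp only [h1.1, h1.2]
      rw [hc, norm_mul, mul_pow, (hS m hm hmM).2 a hab.1, (hS' m hm hmM).2 b hab.2,
        div_mul_div_comm, one_mul]
  · obtain ⟨g, ψ, hg0, hg1, hg⟩ := hy y
    obtain ⟨g', ψ', hg0', hg1', hg'⟩ := hy' (L * y)
    refine ⟨g * g', ψ + ψ', mul_nonneg hg0 hg0', mul_le_one₀ hg1 hg0' hg1', fun m hm hmM => ?_⟩
    rw [Finset.sum_image (hinj m hmM)]
    have h1 : ∑ x ∈ S m ×ˢ S' m, β m ((x.1 + L * x.2) % L) * β' m ((x.1 + L * x.2) / L) *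
        ee (((x.1 + L * x.2 : ℕ) : ℝ) * y) =
        (∑ ξ ∈ S m, β m ξ * ee (ξ * y)) * ∑ ξ ∈ S' m, β' m ξ * ee (ξ * (L * y)) := by
      rw [Finset.sum_mul_sum, ← Finset.sum_product']
      refine Finset.sum_congr rfl fun x hx => ?_
      rw [Finset.mem_product] at hx
      have h2 := hmod m hmM x.1 hx.1 x.2
      rw [h2.1, h2.2]
      have h3 : ((x.1 + L * x.2 : ℕ) : ℝ) * y = x.1 * y + x.2 * (L * y) := by push_cast; ring
      rw [h3, ee_add]; ring
    rw [h1]
    have h2 := hg m hm hmM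
    have h3 := hg' m hm hmM
    set A := ∑ ξ ∈ S m, β m ξ * ee (ξ * y)
    set B := ∑ ξ ∈ S' m, β' m ξ * ee (ξ * (L * y))
    set a : ℂ := (g : ℂ) * ee (m * ψ) with ha
    set b : ℂ := (g' : ℂ) * ee (m * ψ') with hb
    have ha1 : ‖a‖ ≤ 1 := by
      rw [ha, norm_mul, norm_ee, mul_one, Complex.norm_real, Real.norm_of_nonneg hg0]; exact hg1
    have hb1 : ‖b‖ ≤ 1 := by
      rw [hb, norm_mul, norm_ee, mul_one, Complex.norm_real, Real.norm_of_nonneg hg0']; exact hg1'
    have h4 : A * B - ((g * g' : ℝ) : ℂ) * ee (m * (ψ + ψ')) =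
        (A - a) * (B - b) + (A - a) * b + a * (B - b) := by
      rw [mul_add, ee_add, ha, hb]; push_cast; ring
    rw [h4]
    have h5 : ‖(A - a) * (B - b)‖ ≤ e * 1 := by
      rw [norm_mul]
      exact mul_le_mul h2 (h3.trans he1) (norm_nonneg _) he0.le
    have h6 : ‖(A - a) * b‖ ≤ e * 1 := by
      rw [norm_mul]
      exact mul_le_mul h2 hb1 (norm_nonneg _) he0.le
    have h7 : ‖a * (B - b)‖ ≤ 1 * e := by
      rw [norm_mul]
      exact mul_le_mul ha1 h3 (norm_nonneg _) zero_le_one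
    have h8 := norm_add₃_le (a := (A - a) * (B - b)) (b := (A - a) * b) (c := a * (B - b))
    linarith

theorem inR_prod {M : ℕ} {ι : Type*} (T : Finset ι) (ρ : ι → ℕ → ℝ) (h : ∀ i ∈ T, InR M (ρ i)) :
    InR M (fun m => ∏ i ∈ T, ρ i m) := by
  classical
  induction T using Finset.induction_on with
  | empty => simpa using inR_one M
  | insert i T hi ih =>
    have h1 := inR_mul (h i (mem_insert_self _ _)) (ih fun j hj => h j (mem_insert_of_mem hj))
    exact inR_congr h1 fun m _ _ => by rw [Finset.prod_insert hi]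

theorem inR_pow {M : ℕ} {ρ : ℕ → ℝ} (h : InR M ρ) (a : ℕ) : InR M (fun m => ρ m ^ a) := by
  induction a with
  | zero => simpa using inR_one M
  | succ a ih => exact inR_congr (inR_mul ih h) fun m _ _ => by rw [pow_succ]

theorem inR_rho (hP : PerfectStmt) (hB : BaseStmt) (M p c : ℕ) (hp : p.Prime) (hodd : Odd p) :
    InR M (rho p c) := by
  obtain ⟨q, ψ, D, hq, h⟩ := hP M p c hp hodd
  exact inR_congr (hB M q ψ D hq fun m hm hmM => (h m hm hmM).1) fun m hm hmM => (h m hm hmM).2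

theorem inR_mu (hP : PerfectStmt) (hB : BaseStmt) (M p : ℕ) (hp : p.Prime) (hodd : Odd p) :
    ∀ j c : ℕ, M ≤ c + j → InR M (fun m => 1 / (p : ℝ) ^ (m.factorization p - c)) := by
  have hp' : (p : ℝ) ≠ 0 := by exact_mod_cast hp.pos.ne'
  intro j
  induction j with
  | zero =>
    intro c hc
    refine inR_congr (inR_one M) fun m hm hmM => ?_
    have h1 : m.factorization p < m := Nat.factorization_lt p hm.pos.ne'
    have h2 : m.factorization p - c = 0 := by omega
    rw [h2]; simp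
  | succ j ih =>
    intro c hc
    have h1 := inR_mul (inR_rho hP hB M p c hp hodd) (inR_pow (ih (c + 1) (by omega)) 2)
    refine inR_congr h1 fun m _ _ => ?_
    simp only [rho]
    split_ifs with hv
    · have h2 : m.factorization p - (c + 1) = 0 := by omega
      have h3 : m.factorization p - c = 0 := by omega
      rw [h2, h3]; simp
    · obtain ⟨w, hw⟩ : ∃ w, m.factorization p = c + 1 + w := ⟨m.factorization p - (c + 1), by omega⟩
      have h2 : m.factorization p - (c + 1) = w := by omega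
      have h3 : m.factorization p - c = w + 1 := by omega
      rw [h2, h3, hw, show ((c + 1 + w : ℕ) : ℤ) - c - 2 = (w : ℤ) - ((1 : ℕ) : ℤ) by push_cast; ring,
        zpow_sub₀ hp', zpow_natCast, zpow_natCast]
      field_simp
      ring

end PowerAux

open PowerAux in
theorem power_of (hP : PerfectStmt) (hB : BaseStmt) : PowerStmt := by
  intro M a
  set T := (range (M + 1)).filter fun p => p.Prime ∧ Odd p with hT
  have h1 := inR_prod T (fun p m => 1 / (p : ℝ) ^ (m.factorization p - 0)) fun p hp =>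
    inR_mu hP hB M p (mem_filter.1 hp).2.1 (mem_filter.1 hp).2.2 M 0 (by omega)
  refine inR_congr (inR_pow h1 a) fun m hm hmM => ?_
  have hm0 : m ≠ 0 := hm.pos.ne'
  have h2 : ∏ p ∈ T, p ^ m.factorization p = m := by
    conv_rhs => rw [← Nat.prod_factorization_pow_eq_self hm0]
    symm
    refine Finset.prod_subset (fun p hp => ?_) fun p _ hp => ?_
    · rw [Nat.support_factorization] at hp
      have h3 := Nat.dvd_of_mem_primeFactors hp
      refine mem_filter.2 ⟨mem_range.2 ?_, Nat.prime_of_mem_primeFactors hp, hm.of_dvd_nat h3⟩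
      have := Nat.le_of_dvd hm.pos h3
      omega
    · rw [Finsupp.notMem_support_iff.1 hp]
      exact pow_zero p
  have h3 : ∏ p ∈ T, (p : ℝ) ^ m.factorization p = m := by exact_mod_cast h2
  simp only [Nat.sub_zero, Finset.prod_div_distrib, Finset.prod_const_one, h3, div_pow, one_pow]

end Crest.Agent.R75
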