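import Crest.Agent.R75.Defs

/-!
# Row 75, module C: rounding an ultraflat real polynomial to signs
-/

set_option autoImplicit false

open Finset

namespace Crest.Agent.R75

namespace Rounding

/-- One may ask the signs given by Spencer's bound to have a nonpositive sum. -/
theorem signs_nonpos (S : Finset ℕ) (b : ℕ → ℂ) (X : ℝ) (s : ℕ → ℝ)
    (hs : ∀ k, s k = 1 ∨ s k = -1)
    (hb : ∀ t : ℝ, ‖∑ k ∈ S, (s k : ℂ) * b k * ee (k * t)‖ ≤ X) :
    ∃ s : ℕ → ℝ, (∀ k, s k = 1 ∨ s k = -1) ∧ ∑ k ∈ S, s k ≤ 0 ∧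
      ∀ t : ℝ, ‖∑ k ∈ S, (s k : ℂ) * b k * ee (k * t)‖ ≤ X := by
  by_cases h : ∑ k ∈ S, s k ≤ 0
  · exact ⟨s, hs, h, hb⟩
  · refine ⟨fun k => -s k, fun k => ?_, ?_, fun t => ?_⟩
    · rcases hs k with h1 | h1 <;> simp [h1]
    · rw [Finset.sum_neg_distrib]; linarith
    · have : ∑ k ∈ S, ((-s k : ℝ) : ℂ) * b k * ee (k * t)
          = -∑ k ∈ S, (s k : ℂ) * b k * ee (k * t) := by
        rw [← Finset.sum_neg_distrib]
        refine Finset.sum_congr rfl fun k _ => ?_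
        push_cast; ring
      rw [this, norm_neg]; exact hb t

/-- Dyadic rounding. -/
theorem dyadic (C : ℝ)
    (h : ∀ (N : ℕ) (S : Finset ℕ) (b : ℕ → ℂ) (d x : ℝ),
      S ⊆ range N → 0 ≤ d → (∀ k ∈ S, ‖b k‖ ≤ d) → 0 ≤ x → (S.card : ℝ) * (N : ℝ) ^ 2 ≤ x ^ 6 →
      ∃ s : ℕ → ℝ, (∀ k, s k = 1 ∨ s k = -1) ∧
        ∀ t : ℝ, ‖∑ k ∈ S, (s k : ℂ) * b k * ee (k * t)‖ ≤ C * d * x)
    (N : ℕ) (b : ℕ → ℂ) (hb : ∀ k, ‖b k‖ ≤ 1) (E x₀ : ℝ) (hx₀ : 0 ≤ x₀)
    (hE : E * (N : ℝ) ^ 2 ≤ x₀ ^ 6) (J : ℕ) :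
    ∀ m : ℕ → ℕ, (∀ k, m k ≤ 2 ^ J) → (∑ k ∈ range N, (m k : ℝ)) ≤ 2 ^ J * E →
      ∃ y : ℕ → ℝ, (∀ k, y k = 0 ∨ y k = 1) ∧ ∀ t : ℝ,
        ‖∑ k ∈ range N, b k * (((m k : ℝ) / 2 ^ J - y k : ℝ) : ℂ) * ee (k * t)‖
          ≤ 2 * C * x₀ * (1 - (2 / 3) ^ J) := by
  induction J with
  | zero =>
    intro m hm _
    refine ⟨fun k => m k, fun k => ?_, fun t => ?_⟩
    · have := hm k
      have h2 : m k = 0 ∨ m k = 1 := by omega
      rcases h2 with h2 | h2 <;> simp [h2]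
    · simp
  | succ J ih =>
    intro m hm hsum
    classical
    set S := (range N).filter (fun k => Odd (m k)) with hS
    have hcard : (S.card : ℝ) ≤ 2 ^ (J + 1) * E := by
      refine le_trans ?_ hsum
      calc (S.card : ℝ) = ∑ k ∈ S, (1 : ℝ) := by simp
        _ ≤ ∑ k ∈ S, (m k : ℝ) := by
            refine Finset.sum_le_sum fun k hk => ?_
            have := (Finset.mem_filter.mp hk).2.pos
            exact_mod_cast this
        _ ≤ ∑ k ∈ range N, (m k : ℝ) :=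
            Finset.sum_le_sum_of_subset_of_nonneg (Finset.filter_subset _ _)
              fun _ _ _ => Nat.cast_nonneg _
    have hx : (S.card : ℝ) * (N : ℝ) ^ 2 ≤ ((4 / 3) ^ (J + 1) * x₀) ^ 6 := by
      have h1 : (2 : ℝ) ^ (J + 1) ≤ ((4 / 3) ^ (J + 1)) ^ 6 := by
        rw [← pow_mul, mul_comm, pow_mul]
        exact pow_le_pow_left₀ (by norm_num) (by norm_num) _
      calc (S.card : ℝ) * (N : ℝ) ^ 2 ≤ 2 ^ (J + 1) * E * (N : ℝ) ^ 2 :=
            mul_le_mul_of_nonneg_right hcard (by positivity)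
        _ = 2 ^ (J + 1) * (E * (N : ℝ) ^ 2) := by ring
        _ ≤ 2 ^ (J + 1) * x₀ ^ 6 := mul_le_mul_of_nonneg_left hE (by positivity)
        _ ≤ ((4 / 3) ^ (J + 1)) ^ 6 * x₀ ^ 6 := mul_le_mul_of_nonneg_right h1 (by positivity)
        _ = _ := by rw [mul_pow]
    obtain ⟨s₀, hs₀, hb₀⟩ := h N S b 1 ((4 / 3) ^ (J + 1) * x₀) (Finset.filter_subset _ _)
      zero_le_one (fun k _ => hb k) (by positivity) hx
    obtain ⟨s, hs, hsum0, hbs⟩ := signs_nonpos S b _ s₀ hs₀ hb₀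
    let m' : ℕ → ℕ := fun k => if Odd (m k) ∧ s k = 1 then (m k + 1) / 2 else m k / 2
    have hm' : ∀ k, (2 * m' k : ℝ) = m k + if Odd (m k) then s k else 0 := by
      intro k
      by_cases ho : Odd (m k)
      · rcases hs k with h1 | h1
        · have : 2 * m' k = m k + 1 := by
            simp only [m', ho, h1, and_self, if_true]
            obtain ⟨r, hr⟩ := ho
            omega
          rw [if_pos ho, h1]
          exact_mod_cast this
        · have hne : ¬ (s k = 1) := by rw [h1]; norm_num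
          have : 2 * m' k + 1 = m k := by
            simp only [m', hne, and_false, if_false]
            obtain ⟨r, hr⟩ := ho
            omega
          rw [if_pos ho, h1]
          have h3 : (2 * m' k + 1 : ℝ) = m k := by exact_mod_cast this
          linarith
      · have : 2 * m' k = m k := by
          simp only [m', ho, false_and, if_false]
          obtain ⟨r, hr⟩ := Nat.not_odd_iff_even.mp ho
          omega
        rw [if_neg ho, add_zero]
        exact_mod_cast this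
    have hm'le : ∀ k, m' k ≤ 2 ^ J := by
      intro k
      have := hm k
      rw [pow_succ] at this
      simp only [m']
      split_ifs with h1
      · obtain ⟨r, hr⟩ := h1.1
        omega
      · omega
    have hsumS : ∑ k ∈ range N, (if Odd (m k) then s k else 0) = ∑ k ∈ S, s k := by
      rw [hS, Finset.sum_filter]
    have hsum' : (∑ k ∈ range N, (m' k : ℝ)) ≤ 2 ^ J * E := by
      have : 2 * ∑ k ∈ range N, (m' k : ℝ) = ∑ k ∈ range N, (m k : ℝ) + ∑ k ∈ S, s k := by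
        rw [Finset.mul_sum, ← hsumS, ← Finset.sum_add_distrib]
        exact Finset.sum_congr rfl fun k _ => hm' k
      rw [pow_succ] at hsum
      linarith
    obtain ⟨y, hy, hyb⟩ := ih m' hm'le hsum'
    refine ⟨y, hy, fun t => ?_⟩
    have e : ∑ k ∈ range N, b k * (((m k : ℝ) / 2 ^ (J + 1) - y k : ℝ) : ℂ) * ee (k * t)
        = ∑ k ∈ range N, b k * (((m' k : ℝ) / 2 ^ J - y k : ℝ) : ℂ) * ee (k * t)
          - ((1 / 2 ^ (J + 1) : ℝ) : ℂ) * ∑ k ∈ S, (s k : ℂ) * b k * ee (k * t) := by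
      rw [hS, Finset.sum_filter, Finset.mul_sum, ← Finset.sum_sub_distrib]
      refine Finset.sum_congr rfl fun k _ => ?_
      have h1 : ((m k : ℝ) / 2 ^ (J + 1) - y k : ℝ)
          = ((m' k : ℝ) / 2 ^ J - y k) - (1 / 2 ^ (J + 1)) * (if Odd (m k) then s k else 0) := by
        have h2 : (m k : ℝ) = 2 * m' k - if Odd (m k) then s k else 0 := by linarith [hm' k]
        rw [h2]; field_simp; ring
      rw [h1]
      split_ifs <;> push_cast <;> ring
    rw [e]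
    refine le_trans (norm_sub_le _ _) ?_
    rw [norm_mul, Complex.norm_real, Real.norm_eq_abs, abs_of_pos (by positivity)]
    have h3 := mul_le_mul_of_nonneg_left (hbs t) (show (0 : ℝ) ≤ 1 / 2 ^ (J + 1) by positivity)
    have h4 : (1 / 2 ^ (J + 1) : ℝ) * (C * 1 * ((4 / 3) ^ (J + 1) * x₀))
        = C * x₀ * (2 / 3) ^ (J + 1) := by
      have : ((2 : ℝ) / 3) ^ (J + 1) = (4 / 3) ^ (J + 1) / 2 ^ (J + 1) := by
        rw [← div_pow]; norm_num
      rw [this]; ring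
    rw [h4] at h3
    have h5 := hyb t
    have h6 : 2 * C * x₀ * (1 - (2 / 3) ^ J) + C * x₀ * (2 / 3) ^ (J + 1)
        = 2 * C * x₀ * (1 - (2 / 3 : ℝ) ^ (J + 1)) := by
      rw [pow_succ]; ring
    linarith

theorem exists_ee (z : ℂ) (hz : ‖z‖ = 1) : ∃ t : ℝ, z = ee t := by
  refine ⟨Complex.arg z / (2 * Real.pi), ?_⟩
  have h := Complex.norm_mul_exp_arg_mul_I z
  rw [hz] at h
  rw [ee]
  have : (2 * Real.pi * Complex.I * ((Complex.arg z / (2 * Real.pi) : ℝ) : ℂ) : ℂ)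
      = Complex.arg z * Complex.I := by
    have hp : (Real.pi : ℂ) ≠ 0 := by exact_mod_cast Real.pi_ne_zero
    push_cast; field_simp
  rw [this]
  simpa using h.symm

/-- Parseval lower bound for the coefficients of a flat polynomial. -/
theorem sum_sq_ge (N : ℕ) (a : ℕ → ℝ) (e : ℝ) (he : e ≤ 1)
    (h : ∀ t : ℝ, |‖∑ k ∈ range N, (a k : ℂ) * ee (k * t)‖ - √(N : ℝ)| ≤ e * √(N : ℝ)) :
    (1 - e) ^ 2 * N ≤ ∑ k ∈ range N, a k ^ 2 := by
  have hP := integral_norm_sq_trig (range N) (fun k : ℕ => (k : ℤ))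
    (fun a _ b _ hab => Int.natCast_inj.mp hab) (fun k => (a k : ℂ))
  simp only [Int.cast_natCast, Complex.norm_real, Real.norm_eq_abs, sq_abs] at hP
  rw [← hP]
  have hs : 0 ≤ √(N : ℝ) := Real.sqrt_nonneg _
  have hN : √(N : ℝ) ^ 2 = N := Real.sq_sqrt (Nat.cast_nonneg N)
  have : ∫ _t in (0 : ℝ)..1, (1 - e) ^ 2 * (N : ℝ) = (1 - e) ^ 2 * N := by simp
  rw [← this]
  refine intervalIntegral.integral_mono_on zero_le_one (by simp)
    (Continuous.intervalIntegrable (by fun_prop) _ _) fun t _ => ?_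
  have h1 := (abs_le.mp (h t)).1
  have h2 : (1 - e) * √(N : ℝ) ≤ ‖∑ k ∈ range N, (a k : ℂ) * ee (k * t)‖ := by linarith
  have h3 : 0 ≤ (1 - e) * √(N : ℝ) := mul_nonneg (by linarith) hs
  calc (1 - e) ^ 2 * (N : ℝ) = ((1 - e) * √(N : ℝ)) ^ 2 := by rw [mul_pow, hN]
    _ ≤ _ := pow_le_pow_left₀ h3 h2 2

end Rounding

open Rounding in
theorem main_of (h : TrigSpencerStmt) (hF : FlatRealStmt) : MainStmt := by
  obtain ⟨C, hC, hT⟩ := h
  intro ε hε hε1
  set θ : ℝ := ε / (4 + 4 * C) with hθ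
  have hθ0 : 0 < θ := by positivity
  have hθε : (4 + 4 * C) * θ = ε := by rw [hθ]; field_simp
  have hθ1 : θ ≤ 1 := by nlinarith
  set e : ℝ := θ ^ 6 / 2 with he
  have he0 : 0 < e := by positivity
  have heθ : 2 * e ≤ θ := by
    have : θ ^ 6 ≤ θ ^ 1 := pow_le_pow_of_le_one hθ0.le hθ1 (by norm_num)
    rw [he]; linarith
  obtain ⟨N₀, hN₀⟩ := hF e he0
  refine ⟨N₀, fun N hN => ?_⟩
  obtain ⟨a, ha, hflat⟩ := hN₀ N hN
  have hs : 0 ≤ √(N : ℝ) := Real.sqrt_nonneg _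
  have hNN : √(N : ℝ) ^ 2 = N := Real.sq_sqrt (Nat.cast_nonneg N)
  have h1e : 0 < 1 + e := by linarith
  -- normalised coefficients
  set a' : ℕ → ℝ := fun k => a k / (1 + e) with ha'
  have ha'1 : ∀ k, |a' k| ≤ 1 := by
    intro k
    simp only [ha']
    rw [abs_div, abs_of_pos h1e, div_le_one h1e]
    exact ha k
  set η : ℕ → ℝ := fun k => (1 - |a' k|) / 2 with hη
  have hη0 : ∀ k, 0 ≤ η k := fun k => by simp only [hη]; linarith [ha'1 k]
  have hη1 : ∀ k, η k ≤ 1 := fun k => by simp only [hη]; linarith [abs_nonneg (a' k)]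
  have hηsum : ∑ k ∈ range N, η k ≤ 2 * e * N := by
    have h1 := sum_sq_ge N a e (by linarith) hflat
    have h2 : ∀ k, η k ≤ (1 - a k ^ 2 / (1 + e) ^ 2) / 2 := by
      intro k
      have h3 : a k ^ 2 / (1 + e) ^ 2 = |a' k| ^ 2 := by
        simp only [ha']; rw [sq_abs, div_pow]
      rw [h3]
      simp only [hη]
      nlinarith [ha'1 k, abs_nonneg (a' k)]
    have h4 : ∑ k ∈ range N, (1 - a k ^ 2 / (1 + e) ^ 2) / 2
        = ((N : ℝ) - (∑ k ∈ range N, a k ^ 2) / (1 + e) ^ 2) / 2 := by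
      rw [← Finset.sum_div, Finset.sum_sub_distrib, ← Finset.sum_div]
      simp
    have h5 : (1 - 4 * e) * N ≤ (∑ k ∈ range N, a k ^ 2) / (1 + e) ^ 2 := by
      rw [le_div_iff₀ (by positivity)]
      refine le_trans ?_ h1
      have : (1 - 4 * e) * (1 + e) ^ 2 ≤ (1 - e) ^ 2 := by nlinarith [sq_nonneg e, mul_pos he0 he0]
      nlinarith [Nat.cast_nonneg (α := ℝ) N]
    calc ∑ k ∈ range N, η k ≤ _ := Finset.sum_le_sum fun k _ => h2 k
      _ = _ := h4
      _ ≤ _ := by linarith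
  -- the dyadic level
  obtain ⟨J, hJ⟩ : ∃ J : ℕ, (N : ℝ) / 2 ^ J ≤ θ * √(N : ℝ) := by
    obtain ⟨J, hJ⟩ := pow_unbounded_of_one_lt (√(N : ℝ) / θ) (show (1 : ℝ) < 2 by norm_num)
    refine ⟨J, ?_⟩
    rw [div_le_iff₀ (by positivity)]
    rw [div_lt_iff₀ hθ0] at hJ
    nlinarith
  set sg : ℕ → ℝ := fun k => if 0 ≤ a' k then 1 else -1 with hsg
  have hsg1 : ∀ k, |sg k| = 1 := fun k => by simp only [hsg]; split_ifs <;> simp
  have hsga : ∀ k, a' k = sg k * (1 - 2 * η k) := by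
    intro k
    simp only [hsg, hη]
    split_ifs with h1
    · rw [abs_of_nonneg h1]; ring
    · rw [abs_of_neg (not_le.mp h1)]; ring
  set m : ℕ → ℕ := fun k => ⌊2 ^ J * η k⌋₊ with hm
  have hm1 : ∀ k, (m k : ℝ) ≤ 2 ^ J * η k := fun k =>
    Nat.floor_le (mul_nonneg (by positivity) (hη0 k))
  have hm2 : ∀ k, 2 ^ J * η k < m k + 1 := fun k => Nat.lt_floor_add_one _
  obtain ⟨y, hy, hyb⟩ := dyadic C hT N (fun k => (sg k : ℂ))
    (fun k => by rw [Complex.norm_real, Real.norm_eq_abs, hsg1]) (2 * e * N) (θ * √(N : ℝ))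
    (by positivity)
    (by
      have : (θ * √(N : ℝ)) ^ 6 = θ ^ 6 * (√(N : ℝ) ^ 2) ^ 3 := by ring
      rw [this, hNN, he]; apply le_of_eq; ring)
    J m
    (fun k => by
      have h1 : (m k : ℝ) ≤ 2 ^ J := by
        refine le_trans (hm1 k) ?_
        have : (0 : ℝ) < 2 ^ J := by positivity
        nlinarith [hη1 k]
      exact_mod_cast h1)
    (by
      calc ∑ k ∈ range N, (m k : ℝ) ≤ ∑ k ∈ range N, 2 ^ J * η k :=
            Finset.sum_le_sum fun k _ => hm1 k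
        _ = 2 ^ J * ∑ k ∈ range N, η k := by rw [Finset.mul_sum]
        _ ≤ _ := mul_le_mul_of_nonneg_left hηsum (by positivity))
  have hc : ∀ k, ∃ c : ℤˣ, ((c : ℤ) : ℝ) = sg k * (1 - 2 * y k) := by
    intro k
    simp only [hsg]
    rcases hy k with h1 | h1 <;> rw [h1] <;> split_ifs
    · exact ⟨1, by simp⟩
    · exact ⟨-1, by simp⟩
    · exact ⟨-1, by norm_num⟩
    · exact ⟨1, by norm_num⟩
  choose c hc using hc
  refine ⟨fun k => c k, fun z hz => ?_⟩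
  obtain ⟨t, rfl⟩ := exists_ee z hz
  have e1 : ∑ k : Fin N, ((c k : ℤ) : ℂ) * ee t ^ (k : ℕ)
      = ∑ k ∈ range N, ((c k : ℤ) : ℂ) * ee (k * t) := by
    rw [← Fin.sum_univ_eq_sum_range (fun k => ((c k : ℤ) : ℂ) * ee (k * t))]
    refine Finset.sum_congr rfl fun k _ => ?_
    rw [ee_nat_mul]
  rw [e1]
  -- decomposition of the error
  have e2 : ∑ k ∈ range N, ((c k : ℤ) : ℂ) * ee (k * t)
      = ∑ k ∈ range N, (a k : ℂ) * ee (k * t)
        - ((e / (1 + e) : ℝ) : ℂ) * ∑ k ∈ range N, (a k : ℂ) * ee (k * t)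
        + 2 * ∑ k ∈ range N, (sg k : ℂ) * (((m k : ℝ) / 2 ^ J - y k : ℝ) : ℂ) * ee (k * t)
        + 2 * ∑ k ∈ range N, ((sg k * (η k - (m k : ℝ) / 2 ^ J) : ℝ) : ℂ) * ee (k * t) := by
    rw [Finset.mul_sum, Finset.mul_sum, Finset.mul_sum, ← Finset.sum_sub_distrib,
      ← Finset.sum_add_distrib, ← Finset.sum_add_distrib]
    refine Finset.sum_congr rfl fun k _ => ?_
    have h1 : ((c k : ℤ) : ℝ) = a k - e / (1 + e) * a k + 2 * (sg k * ((m k : ℝ) / 2 ^ J - y k))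
        + 2 * (sg k * (η k - (m k : ℝ) / 2 ^ J)) := by
      have h2 : a k - e / (1 + e) * a k = a' k := by
        simp only [ha']; field_simp; ring
      rw [h2, hc k, hsga k]; ring
    have h3 : ((c k : ℤ) : ℂ) = (((c k : ℤ) : ℝ) : ℂ) := by push_cast; rfl
    rw [h3, h1]
    push_cast; ring
  have b0 := abs_le.mp (hflat t)
  have b1 : ‖((e / (1 + e) : ℝ) : ℂ) * ∑ k ∈ range N, (a k : ℂ) * ee (k * t)‖ ≤ e * √(N : ℝ) := by
    rw [norm_mul, Complex.norm_real, Real.norm_eq_abs, abs_of_pos (by positivity)]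
    have h1 : ‖∑ k ∈ range N, (a k : ℂ) * ee (k * t)‖ ≤ (1 + e) * √(N : ℝ) := by linarith [b0.2]
    calc _ ≤ e / (1 + e) * ((1 + e) * √(N : ℝ)) := mul_le_mul_of_nonneg_left h1 (by positivity)
      _ = _ := by field_simp
  have b2 : ‖2 * ∑ k ∈ range N, (sg k : ℂ) * (((m k : ℝ) / 2 ^ J - y k : ℝ) : ℂ) * ee (k * t)‖
      ≤ 4 * C * (θ * √(N : ℝ)) := by
    rw [norm_mul, Complex.norm_two]
    have h1 := hyb t
    have h2 : 0 ≤ 2 * C * (θ * √(N : ℝ)) * (2 / 3 : ℝ) ^ J := by positivity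
    nlinarith
  have b3 : ‖2 * ∑ k ∈ range N, ((sg k * (η k - (m k : ℝ) / 2 ^ J) : ℝ) : ℂ) * ee (k * t)‖
      ≤ 2 * (θ * √(N : ℝ)) := by
    rw [norm_mul, Complex.norm_two]
    refine mul_le_mul_of_nonneg_left (le_trans (norm_sum_le _ _) (le_trans ?_ hJ)) zero_le_two
    calc _ ≤ ∑ _k ∈ range N, (1 / 2 ^ J : ℝ) := by
          refine Finset.sum_le_sum fun k _ => ?_
          rw [norm_mul, norm_ee, mul_one, Complex.norm_real, Real.norm_eq_abs, abs_mul, hsg1,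
            one_mul]
          have hp : (0 : ℝ) < 2 ^ J := by positivity
          have h1 : η k - (m k : ℝ) / 2 ^ J = (2 ^ J * η k - m k) / 2 ^ J := by field_simp
          rw [h1, abs_div, abs_of_pos hp]
          refine div_le_div_of_nonneg_right ?_ hp.le
          rw [abs_le]
          constructor <;> linarith [hm1 k, hm2 k]
      _ = (N : ℝ) / 2 ^ J := by simp [div_eq_mul_inv]
  have key : ∀ (P u v w : ℂ), |‖P - u + v + w‖ - ‖P‖| ≤ ‖u‖ + ‖v‖ + ‖w‖ := by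
    intro P u v w
    refine le_trans (abs_norm_sub_norm_le _ _) ?_
    have : P - u + v + w - P = -u + v + w := by ring
    rw [this]
    refine le_trans norm_add₃_le ?_
    rw [norm_neg]
  have k1 := abs_le.mp (le_trans (key (∑ k ∈ range N, (a k : ℂ) * ee (k * t)) _ _ _)
    (add_le_add (add_le_add b1 b2) b3))
  rw [← e2] at k1
  have hsum : e * √(N : ℝ) + (e * √(N : ℝ) + 4 * C * (θ * √(N : ℝ)) + 2 * (θ * √(N : ℝ)))
      ≤ ε * √(N : ℝ) := by
    rw [← hθε]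
    nlinarith [mul_nonneg hθ0.le hs, mul_le_mul_of_nonneg_right heθ hs]
  constructor <;> linarith [k1.1, k1.2, b0.1, b0.2]

end Crest.Agent.R75
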