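import Crest.Agent.R75.Defs

/-!
# Module A: a Spencer-type full colouring by iterated partial colouring
-/

set_option autoImplicit false

open Finset

namespace Crest.Agent.R75

namespace Spencer

/-- the sign attached to `j` by the subset `T` -/
noncomputable def sg (T : Finset ℕ) (j : ℕ) : ℝ := if j ∈ T then 1 else -1

/-- the signed sum -/
noncomputable def X (S T : Finset ℕ) (a : ℕ → ℝ) : ℝ := ∑ j ∈ S, sg T j * a j

theorem moments (S : Finset ℕ) (a : ℕ → ℝ) (ha : ∀ j, |a j| ≤ 1) :
    ∑ T ∈ S.powerset, X S T a ^ 2 ≤ S.card * 2 ^ S.card ∧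
      ∑ T ∈ S.powerset, X S T a ^ 4 ≤ 3 * (S.card : ℝ) ^ 2 * 2 ^ S.card := by
  induction S using Finset.induction_on with
  | empty => simp [X]
  | insert k S hk ih =>
    have h1 : ∀ T ∈ S.powerset, X (insert k S) T a = X S T a - a k := by
      intro T hT
      have : k ∉ T := fun h => hk (mem_powerset.1 hT h)
      simp only [X, sum_insert hk, sg, if_neg this]
      ring
    have h2 : ∀ T ∈ S.powerset, X (insert k S) (insert k T) a = X S T a + a k := by
      intro T _
      simp only [X, sum_insert hk, sg, mem_insert, true_or, if_true]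
      rw [add_comm, one_mul]
      congr 1
      refine sum_congr rfl fun j hj => ?_
      have : j ≠ k := fun h => hk (h ▸ hj)
      simp [this]
    have ha2 : a k ^ 2 ≤ 1 := by
      have := ha k
      rw [← sq_abs]; nlinarith [abs_nonneg (a k)]
    have ha4 : a k ^ 4 ≤ 1 := by nlinarith [sq_nonneg (a k)]
    rw [sum_powerset_insert hk, sum_powerset_insert hk, sum_congr rfl fun T hT => by rw [h1 T hT],
      sum_congr (s₁ := S.powerset) (f := fun T => X (insert k S) (insert k T) a ^ 2) rfl
        fun T hT => by rw [h2 T hT],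
      sum_congr (s₁ := S.powerset) (f := fun T => X (insert k S) T a ^ 4) rfl
        fun T hT => by rw [h1 T hT],
      sum_congr (s₁ := S.powerset) (f := fun T => X (insert k S) (insert k T) a ^ 4) rfl
        fun T hT => by rw [h2 T hT], ← sum_add_distrib, ← sum_add_distrib,
      card_insert_of_notMem hk]
    constructor
    · calc _ ≤ ∑ T ∈ S.powerset, (2 * X S T a ^ 2 + 2) := sum_le_sum fun T _ => by nlinarith
        _ = 2 * ∑ T ∈ S.powerset, X S T a ^ 2 + 2 * 2 ^ S.card := by
          rw [sum_add_distrib, ← mul_sum]; simp [mul_comm]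
        _ ≤ _ := by push_cast; rw [pow_succ]; nlinarith [ih.1]
    · calc _ ≤ ∑ T ∈ S.powerset, (2 * X S T a ^ 4 + 12 * X S T a ^ 2 + 2) :=
          sum_le_sum fun T _ => by nlinarith [mul_le_mul_of_nonneg_left ha2 (sq_nonneg (X S T a))]
        _ = 2 * ∑ T ∈ S.powerset, X S T a ^ 4 + 12 * ∑ T ∈ S.powerset, X S T a ^ 2
              + 2 * 2 ^ S.card := by
          rw [sum_add_distrib, sum_add_distrib, ← mul_sum, ← mul_sum]; simp [mul_comm]
        _ ≤ _ := by
          push_cast; rw [pow_succ (2 : ℝ)]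
          have : (0 : ℝ) < 2 ^ S.card := by positivity
          nlinarith [ih.1, ih.2]

/-- the set where two sign patterns differ -/
def D (S T T' : Finset ℕ) : Finset ℕ := S.filter fun j => ¬ (j ∈ T ↔ j ∈ T')

theorem sum_dist (S T' : Finset ℕ) :
    ∑ T ∈ S.powerset, (1 / 9 : ℝ) ^ (D S T T').card = (10 / 9) ^ S.card := by
  induction S using Finset.induction_on with
  | empty => simp [D]
  | insert k S hk ih =>
    have h1 : ∀ T ∈ S.powerset, (1 / 9 : ℝ) ^ (D (insert k S) T T').card +
        (1 / 9 : ℝ) ^ (D (insert k S) (insert k T) T').card =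
          10 / 9 * (1 / 9 : ℝ) ^ (D S T T').card := by
      intro T hT
      have hkT : k ∉ T := fun h => hk (mem_powerset.1 hT h)
      have e : D S (insert k T) T' = D S T T' := by
        unfold D
        refine filter_congr fun j hj => ?_
        have : j ≠ k := fun h => hk (h ▸ hj)
        simp [this]
      have hkD : k ∉ D S T T' := fun h => hk (mem_filter.1 h).1
      unfold D at *
      rw [filter_insert, filter_insert, e]
      by_cases h : k ∈ T'
      · rw [if_pos (by simp [h, hkT]), if_neg (by simp [h]), card_insert_of_notMem hkD, pow_succ]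
        ring
      · rw [if_neg (by simp [h, hkT]), if_pos (by simp [h]), card_insert_of_notMem hkD, pow_succ]
        ring
    rw [sum_powerset_insert hk, ← sum_add_distrib, sum_congr rfl h1, ← mul_sum, ih,
      card_insert_of_notMem hk, pow_succ]
    ring

theorem ball_card (S T' : Finset ℕ) (F : Finset (Finset ℕ)) (hF : F ⊆ S.powerset)
    (h : ∀ T ∈ F, 10 * (D S T T').card < S.card) : (F.card : ℝ) ≤ (25 / 18) ^ S.card := by
  have h1 : ∀ T ∈ F, (4 / 5 : ℝ) ^ S.card ≤ (1 / 9 : ℝ) ^ (D S T T').card := by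
    intro T hT
    calc (4 / 5 : ℝ) ^ S.card ≤ (4 / 5 : ℝ) ^ (10 * (D S T T').card) :=
          pow_le_pow_of_le_one (by norm_num) (by norm_num) (h T hT).le
      _ = ((4 / 5 : ℝ) ^ 10) ^ (D S T T').card := by rw [pow_mul]
      _ ≤ _ := pow_le_pow_left₀ (by norm_num) (by norm_num) _
  have h2 : (F.card : ℝ) * (4 / 5 : ℝ) ^ S.card ≤ (10 / 9) ^ S.card := by
    calc (F.card : ℝ) * (4 / 5 : ℝ) ^ S.card = ∑ _T ∈ F, (4 / 5 : ℝ) ^ S.card := by simp
      _ ≤ ∑ T ∈ F, (1 / 9 : ℝ) ^ (D S T T').card := sum_le_sum h1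
      _ ≤ ∑ T ∈ S.powerset, (1 / 9 : ℝ) ^ (D S T T').card :=
          sum_le_sum_of_subset_of_nonneg hF fun _ _ _ => by positivity
      _ = _ := sum_dist S T'
  have h3 : (10 / 9 : ℝ) ^ S.card = (25 / 18) ^ S.card * (4 / 5 : ℝ) ^ S.card := by
    rw [← mul_pow]; norm_num
  rw [h3] at h2
  exact le_of_mul_le_mul_right h2 (by positivity)

/-- the cost of a rounded value -/
noncomputable def cost (A : ℝ) (b : ℤ) : ℝ := if b = 0 then 0 else A + |(b : ℝ)|

theorem cost_nonneg {A : ℝ} (hA : 0 ≤ A) (b : ℤ) : 0 ≤ cost A b := by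
  unfold cost; split_ifs <;> positivity

theorem abs_le_cost {A : ℝ} (hA : 0 ≤ A) (b : ℤ) : |(b : ℝ)| ≤ cost A b := by
  unfold cost; split_ifs with h
  · simp [h]
  · linarith

theorem cost_round {A : ℝ} (hA : 0 ≤ A) (y : ℝ) : cost A (round y) ≤ (A + 1) * (16 * y ^ 4) := by
  unfold cost; split_ifs with h
  · positivity
  · have h1 : (1 : ℝ) ≤ |((round y : ℤ) : ℝ)| := by
      rw [← Int.cast_abs]; exact_mod_cast Int.one_le_abs h
    have h2 := abs_sub_round y
    have h3 : |((round y : ℤ) : ℝ)| ≤ |y| + 1 / 2 := by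
      have := abs_sub_abs_le_abs_sub ((round y : ℤ) : ℝ) y
      rw [abs_sub_comm] at this
      linarith
    have h4 : 1 ≤ 2 * |y| := by linarith
    have h5 : 16 * y ^ 4 = (2 * |y|) ^ 4 := by
      rw [mul_pow, show |y| ^ 4 = y ^ 4 from Even.pow_abs (by norm_num) y]; norm_num
    have h6 : 2 * |y| ≤ (2 * |y|) ^ 4 := le_self_pow₀ h4 (by norm_num)
    rw [h5]
    nlinarith

theorem sum_exp_cost (A : ℝ) (B : ℕ) :
    ∑ j ∈ Icc (-(B : ℤ)) B, Real.exp (-cost A j) ≤ 1 + 2 * Real.exp (-A) * (1 - (1 / 2) ^ B) := by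
  induction B with
  | zero => simp [cost]
  | succ B ih =>
    have e : Icc (-((B + 1 : ℕ) : ℤ)) (B + 1 : ℕ) =
        insert ((B : ℤ) + 1) (insert (-((B : ℤ) + 1)) (Icc (-(B : ℤ)) B)) := by
      ext j; simp only [mem_Icc, mem_insert]; push_cast; omega
    rw [e, sum_insert (by simp only [mem_Icc, mem_insert]; omega),
      sum_insert (by simp only [mem_Icc]; omega)]
    have h1 : Real.exp (-(A + ((B : ℝ) + 1))) ≤ Real.exp (-A) * (1 / 2) ^ (B + 1) := by
      rw [neg_add, Real.exp_add]
      refine mul_le_mul_of_nonneg_left ?_ (Real.exp_pos _).le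
      have : Real.exp (-((B : ℝ) + 1)) = Real.exp (-1) ^ (B + 1) := by
        rw [← Real.exp_nat_mul]; congr 1; push_cast; ring
      rw [this]
      refine pow_le_pow_left₀ (Real.exp_pos _).le ?_ _
      rw [Real.exp_neg, one_div]
      refine inv_anti₀ (by norm_num) ?_
      have := Real.add_one_le_exp 1
      linarith
    have h2 : cost A ((B : ℤ) + 1) = A + (B + 1) := by
      unfold cost
      rw [if_neg (by omega)]
      push_cast
      rw [abs_of_nonneg (by positivity)]
    have h3 : cost A (-((B : ℤ) + 1)) = A + (B + 1) := by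
      unfold cost
      rw [if_neg (by omega)]
      push_cast
      rw [abs_neg, abs_of_nonneg (by positivity)]
    rw [h2, h3]
    have : (1 / 2 : ℝ) ^ B = 2 * (1 / 2) ^ (B + 1) := by rw [pow_succ]; ring
    rw [this] at ih
    nlinarith

/-- partial colouring -/
theorem partial_colouring (R : ℕ) (S : Finset ℕ) (a : ℕ → ℕ → ℝ) (x : ℝ)
    (ha : ∀ i j, |a i j| ≤ 1) (hSR : S.card ≤ R) (hx : 0 ≤ x)
    (hx6 : (S.card : ℝ) * (R : ℝ) ^ 2 ≤ x ^ 6) (h3 : 3 ≤ S.card) :
    ∃ T T' : Finset ℕ, S.card ≤ 10 * (D S T T').card ∧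
      ∀ i < R, |X S T (a i) - X S T' (a i)| ≤ 16 * x := by
  classical
  obtain ⟨n, hn⟩ : ∃ n, n = S.card := ⟨_, rfl⟩
  rw [← hn] at hSR hx6 h3 ⊢
  have hn3 : (3 : ℝ) ≤ n := by exact_mod_cast h3
  have hnR : (n : ℝ) ≤ R := by exact_mod_cast hSR
  obtain ⟨y, hy2, hy0⟩ : ∃ y : ℝ, y ^ 2 = n ∧ 0 < y :=
    ⟨√(n : ℝ), Real.sq_sqrt (by positivity), Real.sqrt_pos.2 (by linarith)⟩
  obtain ⟨t, hxt, ht0⟩ : ∃ t : ℝ, x = t * y ∧ 0 ≤ t :=
    ⟨x / y, by field_simp, by positivity⟩
  have hR : (R : ℝ) ≤ t ^ 3 * n := by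
    have : (R : ℝ) ^ 2 ≤ (t ^ 3 * n) ^ 2 := by
      have h1 : x ^ 6 = n * (t ^ 3 * n) ^ 2 := by rw [hxt, ← hy2]; ring
      rw [h1] at hx6
      exact le_of_mul_le_mul_left hx6 (by linarith)
    exact (pow_le_pow_iff_left₀ (by positivity) (by positivity) (by norm_num)).1 this
  have ht1 : 1 ≤ t := by
    have : 1 ≤ t ^ 3 := by
      by_contra h
      push Not at h
      nlinarith
    by_contra h
    push Not at h
    have := pow_lt_one₀ ht0 h (n := 3) (by norm_num)
    linarith
  have hx0 : 0 < x := by rw [hxt]; positivity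
  let β : Finset ℕ → Fin R → ℤ := fun T i => round (X S T (a i) / (16 * x))
  let c : Finset ℕ → ℝ := fun T => ∑ i : Fin R, cost (11 * t) (β T i)
  have hA : 0 ≤ 11 * t := by positivity
  have hc0 : ∀ T, 0 ≤ c T := fun T => sum_nonneg fun i _ => cost_nonneg hA _
  -- total cost
  have htot : ∑ T ∈ S.powerset, c T ≤ n / 100 * 2 ^ n := by
    have h1 : ∀ i : Fin R, ∑ T ∈ S.powerset, cost (11 * t) (β T i) ≤
        2 ^ n / (100 * t ^ 3) := by
      intro i
      calc ∑ T ∈ S.powerset, cost (11 * t) (β T i)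
          ≤ ∑ T ∈ S.powerset, (11 * t + 1) * 16 / (16 * x) ^ 4 * X S T (a i) ^ 4 := by
            refine sum_le_sum fun T _ => (cost_round hA _).trans (le_of_eq ?_)
            rw [div_pow]; ring
        _ ≤ (11 * t + 1) * 16 / (16 * x) ^ 4 * (3 * (n : ℝ) ^ 2 * 2 ^ n) := by
            rw [← mul_sum]
            exact mul_le_mul_of_nonneg_left (hn ▸ (moments S (a i) (ha i)).2) (by positivity)
        _ = (11 * t + 1) * 48 / (16 ^ 4 * t ^ 4) * 2 ^ n := by
            rw [hxt, ← hy2]; field_simp; ring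
        _ ≤ 1 / (100 * t ^ 3) * 2 ^ n := by
            refine mul_le_mul_of_nonneg_right ?_ (by positivity)
            rw [div_le_div_iff₀ (by positivity) (by positivity)]
            have : 0 < t ^ 3 := by positivity
            nlinarith
        _ = _ := by ring
    calc ∑ T ∈ S.powerset, c T = ∑ i : Fin R, ∑ T ∈ S.powerset, cost (11 * t) (β T i) := sum_comm
      _ ≤ ∑ _i : Fin R, 2 ^ n / (100 * t ^ 3) := sum_le_sum fun i _ => h1 i
      _ = R * (2 ^ n / (100 * t ^ 3)) := by simp
      _ ≤ t ^ 3 * n * (2 ^ n / (100 * t ^ 3)) := mul_le_mul_of_nonneg_right hR (by positivity)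
      _ = _ := by field_simp
  -- good sign patterns
  let G := S.powerset.filter fun T => c T ≤ n / 50
  have hG : (2 : ℝ) ^ n ≤ 2 * G.card := by
    let G' := S.powerset.filter fun T => ¬ c T ≤ n / 50
    have h1 : G.card + G'.card = 2 ^ n := by
      rw [card_filter_add_card_filter_not, card_powerset, hn]
    have h1' : (G.card : ℝ) + G'.card = 2 ^ n := by exact_mod_cast h1
    have h2 : (G'.card : ℝ) * (n / 50) ≤ n / 100 * 2 ^ n := by
      calc (G'.card : ℝ) * (n / 50) = ∑ _T ∈ G', (n : ℝ) / 50 := by simp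
        _ ≤ ∑ T ∈ G', c T := sum_le_sum fun T hT => (not_le.1 (mem_filter.1 hT).2).le
        _ ≤ ∑ T ∈ S.powerset, c T :=
            sum_le_sum_of_subset_of_nonneg (filter_subset _ _) fun T _ _ => hc0 T
        _ ≤ _ := htot
    nlinarith
  -- few rounded vectors
  have him : ((G.image β).card : ℝ) ≤ Real.exp (3 / 100 * n) := by
    have h1 : ((G.image β).card : ℝ) * Real.exp (-(n / 50)) ≤ Real.exp (n / 100) := by
      calc ((G.image β).card : ℝ) * Real.exp (-(n / 50))
          = ∑ _b ∈ G.image β, Real.exp (-(n / 50)) := by simp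
        _ ≤ ∑ b ∈ G.image β, ∏ i, Real.exp (-cost (11 * t) (b i)) := by
            refine sum_le_sum fun b hb => ?_
            obtain ⟨T, hT, rfl⟩ := mem_image.1 hb
            rw [← Real.exp_sum, sum_neg_distrib]
            exact Real.exp_le_exp.2 (neg_le_neg (mem_filter.1 hT).2)
        _ ≤ ∑ b ∈ Fintype.piFinset fun _ : Fin R => Icc (-(n : ℤ)) n,
              ∏ i, Real.exp (-cost (11 * t) (b i)) := by
            refine sum_le_sum_of_subset_of_nonneg ?_ fun _ _ _ => by positivity
            intro b hb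
            obtain ⟨T, hT, rfl⟩ := mem_image.1 hb
            rw [Fintype.mem_piFinset]
            intro i
            have h2 : cost (11 * t) (β T i) ≤ c T :=
              single_le_sum (f := fun i => cost (11 * t) (β T i))
                (fun i _ => cost_nonneg hA _) (mem_univ i)
            have h3 : |((β T i : ℤ) : ℝ)| ≤ n := by
              have := abs_le_cost hA (β T i)
              have := (mem_filter.1 hT).2
              linarith
            rw [mem_Icc, ← abs_le]
            exact_mod_cast h3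
        _ = ∏ _i : Fin R, ∑ j ∈ Icc (-(n : ℤ)) n, Real.exp (-cost (11 * t) j) :=
            (prod_univ_sum (fun _ : Fin R => Icc (-(n : ℤ)) n)
              (fun _ j => Real.exp (-cost (11 * t) j))).symm
        _ ≤ ∏ _i : Fin R, Real.exp (2 * Real.exp (-(11 * t))) := by
            refine prod_le_prod (fun _ _ => by positivity) fun _ _ => ?_
            refine (sum_exp_cost _ _).trans ?_
            have := Real.add_one_le_exp (2 * Real.exp (-(11 * t)))
            have h2 : (0 : ℝ) ≤ 2 * Real.exp (-(11 * t)) * (1 / 2) ^ n := by positivity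
            nlinarith
        _ = Real.exp (R * (2 * Real.exp (-(11 * t)))) := by
            rw [prod_const, ← Real.exp_nat_mul]; simp
        _ ≤ _ := by
            refine Real.exp_le_exp.2 ?_
            have h2 : (11 * t) ^ 3 / 6 ≤ Real.exp (11 * t) := by
              have := Real.pow_div_factorial_le_exp (11 * t) hA 3
              simpa [Nat.factorial] using this
            have h4 : t ^ 3 * Real.exp (-(11 * t)) ≤ 1 / 200 := by
              rw [Real.exp_neg, ← div_eq_mul_inv, div_le_div_iff₀ (Real.exp_pos _) (by norm_num)]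
              have : 0 ≤ t ^ 3 := by positivity
              nlinarith
            calc R * (2 * Real.exp (-(11 * t))) ≤ t ^ 3 * n * (2 * Real.exp (-(11 * t))) :=
                  mul_le_mul_of_nonneg_right hR (by positivity)
              _ = 2 * n * (t ^ 3 * Real.exp (-(11 * t))) := by ring
              _ ≤ 2 * n * (1 / 200) := mul_le_mul_of_nonneg_left h4 (by positivity)
              _ = _ := by ring
    have h2 : Real.exp (n / 100) = Real.exp (3 / 100 * n) * Real.exp (-(n / 50)) := by
      rw [← Real.exp_add]; congr 1; ring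
    rw [h2] at h1
    exact le_of_mul_le_mul_right h1 (Real.exp_pos _)
  by_contra hcon
  push Not at hcon
  have hfib : ∀ b ∈ G.image β, (G.filter fun T => β T = b).card ≤ ⌊(25 / 18 : ℝ) ^ n⌋₊ := by
    intro b hb
    obtain ⟨T', -, rfl⟩ := mem_image.1 hb
    refine Nat.le_floor (hn ▸ ball_card S T' _ ((filter_subset _ _).trans (filter_subset _ _)) ?_)
    intro T hT
    by_contra h
    rw [← hn] at h
    obtain ⟨i, hi, hlt⟩ := hcon T T' (not_lt.1 h)
    have h1 : β T ⟨i, hi⟩ = β T' ⟨i, hi⟩ := congrFun (mem_filter.1 hT).2 _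
    simp only [β] at h1
    have h2 := abs_sub_round (X S T (a i) / (16 * x))
    have h3 := abs_sub_round (X S T' (a i) / (16 * x))
    rw [h1] at h2
    have h4 : |X S T (a i) / (16 * x) - X S T' (a i) / (16 * x)| ≤ 1 := by
      rw [abs_le] at h2 h3 ⊢
      constructor <;> linarith [h2.1, h2.2, h3.1, h3.2]
    rw [← sub_div, abs_div, abs_of_pos (by positivity : 0 < 16 * x), div_le_one (by positivity)]
      at h4
    linarith
  have h5 := card_le_mul_card_image G _ hfib
  have h6 : (G.card : ℝ) ≤ (25 / 18 : ℝ) ^ n * Real.exp (3 / 100 * n) := by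
    calc (G.card : ℝ) ≤ (⌊(25 / 18 : ℝ) ^ n⌋₊ : ℝ) * (G.image β).card := by exact_mod_cast h5
      _ ≤ _ := mul_le_mul (Nat.floor_le (by positivity)) him (by positivity) (by positivity)
  have h7 : Real.exp (3 / 100 * n) ≤ (26 / 25 : ℝ) ^ n := by
    rw [mul_comm, Real.exp_nat_mul]
    refine pow_le_pow_left₀ (Real.exp_pos _).le ?_ _
    have := Real.exp_bound_div_one_sub_of_interval (x := 3 / 100) (by norm_num) (by norm_num)
    refine this.trans (by norm_num)
  have h8 : (2 : ℝ) ^ n ≤ 2 * (13 / 9 : ℝ) ^ n := by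
    have : (13 / 9 : ℝ) ^ n = (25 / 18 : ℝ) ^ n * (26 / 25 : ℝ) ^ n := by
      rw [← mul_pow]; norm_num
    rw [this]
    have := mul_le_mul_of_nonneg_left h7 (by positivity : (0 : ℝ) ≤ (25 / 18 : ℝ) ^ n)
    linarith
  have h9 : (2 : ℝ) ^ n = (18 / 13 : ℝ) ^ n * (13 / 9 : ℝ) ^ n := by
    rw [← mul_pow]; norm_num
  have h10 : (18 / 13 : ℝ) ^ 3 ≤ (18 / 13 : ℝ) ^ n := pow_le_pow_right₀ (by norm_num) h3
  have h11 : (0 : ℝ) < (13 / 9 : ℝ) ^ n := by positivity
  rw [h9] at h8
  nlinarith

end Spencer

open Spencer in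
theorem spencer : SpencerStmt := by
  classical
  refine ⟨800, by norm_num, fun R S a x ha => ?_⟩
  induction hn : S.card using Nat.strong_induction_on generalizing S x with
  | _ n ih =>
    intro hSR hx hx6
    subst hn
    by_cases h3 : 3 ≤ S.card
    · obtain ⟨T, T', h1, h2⟩ := partial_colouring R S a x ha hSR hx hx6 h3
      have hD : D S T T' ⊆ S := filter_subset _ _
      have hc : (S \ D S T T').card + (D S T T').card = S.card := card_sdiff_add_card_eq_card hD
      obtain ⟨s', hs1, hs2⟩ := ih (S \ D S T T').card (by omega) (S \ D S T T') (99 / 100 * x) rfl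
        (by omega) (by positivity) (by
          have h4 : ((S \ D S T T').card : ℝ) ≤ 9 / 10 * S.card := by
            have : 10 * (S \ D S T T').card ≤ 9 * S.card := by omega
            have : (10 : ℝ) * (S \ D S T T').card ≤ 9 * S.card := by exact_mod_cast this
            linarith
          have h5 : (0 : ℝ) ≤ x ^ 6 := by positivity
          calc ((S \ D S T T').card : ℝ) * (R : ℝ) ^ 2 ≤ 9 / 10 * S.card * (R : ℝ) ^ 2 :=
                mul_le_mul_of_nonneg_right h4 (by positivity)
            _ ≤ 9 / 10 * x ^ 6 := by linarith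
            _ ≤ _ := by rw [mul_pow]; nlinarith)
      refine ⟨fun j => if j ∈ D S T T' then sg T j else s' j, fun j => ?_, fun i hi => ?_⟩
      · by_cases h : j ∈ D S T T'
        · simp only [h, if_true, sg]
          split_ifs <;> simp
        · simp only [h, if_false]
          exact hs1 j
      · rw [← sum_sdiff hD]
        have e1 : ∑ j ∈ S \ D S T T', (if j ∈ D S T T' then sg T j else s' j) * a i j =
            ∑ j ∈ S \ D S T T', s' j * a i j :=
          sum_congr rfl fun j hj => by rw [if_neg (mem_sdiff.1 hj).2]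
        have e2 : ∑ j ∈ D S T T', (if j ∈ D S T T' then sg T j else s' j) * a i j =
            (X S T (a i) - X S T' (a i)) / 2 := by
          rw [sum_congr rfl fun j hj => by rw [if_pos hj]]
          unfold X D
          rw [← sum_sub_distrib, sum_div, sum_filter]
          refine sum_congr rfl fun j _ => ?_
          unfold sg
          by_cases h4 : j ∈ T <;> by_cases h5 : j ∈ T' <;> simp [h4, h5]
          ring
        rw [e1, e2]
        refine (abs_add_le _ _).trans ?_
        have := hs2 i hi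
        have := h2 i hi
        rw [abs_div, abs_two]
        linarith
    · refine ⟨fun _ => 1, fun _ => Or.inl rfl, fun i _ => ?_⟩
      have h4 : |∑ j ∈ S, 1 * a i j| ≤ S.card := by
        refine (abs_sum_le_sum_abs _ _).trans ?_
        calc ∑ j ∈ S, |1 * a i j| ≤ ∑ _j ∈ S, (1 : ℝ) := sum_le_sum fun j _ => by simpa using ha i j
          _ = _ := by simp
      refine h4.trans ?_
      rcases Nat.eq_zero_or_pos S.card with h0 | h0
      · rw [h0]; simp; positivity
      · have h5 : (1 : ℝ) ≤ S.card := by exact_mod_cast h0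
        have h6 : (1 : ℝ) ≤ R := by exact_mod_cast h0.trans_le hSR
        have h7 : (S.card : ℝ) ≤ 2 := by exact_mod_cast (by omega : S.card ≤ 2)
        have h8 : 1 ≤ x := by
          by_contra h
          push Not at h
          have := pow_lt_one₀ hx h (n := 6) (by norm_num)
          nlinarith [one_le_pow₀ (n := 2) h6]
        linarith

end Crest.Agent.R75
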