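import Crest.Agent.R75.Defs

/-! Module I: a square wave with exact coefficient moduli and no Gibbs overshoot. -/

set_option autoImplicit false

open Finset

namespace Crest.Agent.R75

namespace Square

/-- Fourier coefficients of the square wave -/
noncomputable def sq (m : ℤ) : ℂ := if Odd m then -2 * Complex.I / (Real.pi * m) else 0

lemma ee_half_odd {m : ℤ} (h : Odd m) : ee (m * (1 / 2)) = -1 := by
  obtain ⟨k, rfl⟩ := h
  have : (((2 * k + 1 : ℤ) : ℝ) * (1 / 2)) = 1 / 2 + (k : ℝ) := by push_cast; ring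
  rw [this, ee_add_intCast, ee]
  have : (2 * Real.pi * Complex.I * ((1 / 2 : ℝ) : ℂ) : ℂ) = Real.pi * Complex.I := by
    push_cast; ring
  rw [this, Complex.exp_pi_mul_I]

lemma ee_half_even {m : ℤ} (h : Even m) : ee (m * (1 / 2)) = 1 := by
  obtain ⟨k, rfl⟩ := h
  have : (((k + k : ℤ) : ℝ) * (1 / 2)) = (k : ℝ) := by push_cast; ring
  rw [this, ee_intCast]

lemma integral_ee (m : ℤ) (hm : m ≠ 0) (a b : ℝ) :
    ∫ v in a..b, ee (m * v) = (ee (m * b) - ee (m * a)) / (2 * Real.pi * Complex.I * m) := by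
  have hc : (2 * Real.pi * Complex.I * m : ℂ) ≠ 0 :=
    mul_ne_zero Complex.two_pi_I_ne_zero (by exact_mod_cast hm)
  have : ∀ t : ℝ, ee (m * t) = Complex.exp ((2 * Real.pi * Complex.I * m) * t) := by
    intro t; simp only [ee]; congr 1; push_cast; ring
  simp only [this]
  rw [integral_exp_mul_complex hc]

lemma sq_eq (m : ℤ) :
    (∫ v in (0 : ℝ)..(1 / 2), ee ((-m : ℤ) * v)) - ∫ v in (1 / 2 : ℝ)..1, ee ((-m : ℤ) * v) =
      sq m := by
  by_cases hm : m = 0
  · subst hm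
    simp [sq]
    norm_num
  have hm' : -m ≠ 0 := neg_ne_zero.2 hm
  rw [integral_ee _ hm', integral_ee _ hm', mul_zero, mul_one, ee_zero, ee_intCast]
  have hpi : (Real.pi : ℂ) ≠ 0 := by exact_mod_cast Real.pi_ne_zero
  have hm2 : (m : ℂ) ≠ 0 := by exact_mod_cast hm
  unfold sq
  split_ifs with h
  · rw [ee_half_odd h.neg]
    push_cast
    field_simp
    rw [Complex.I_sq]; ring
  · rw [ee_half_even (Int.not_odd_iff_even.1 h).neg]
    simp

lemma sum_diff (M : ℕ) (φ : ℤ → ℂ) :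
    ∑ a ∈ Icc (0 : ℤ) M, ∑ b ∈ Icc (0 : ℤ) M, φ (a - b) =
      ∑ m ∈ Icc (-(M : ℤ)) M, (((M : ℤ) + 1 - |m| : ℤ) : ℂ) * φ m := by
  have e1 : ∀ a ∈ Icc (0 : ℤ) M, ∑ b ∈ Icc (0 : ℤ) M, φ (a - b) =
      ∑ m ∈ Icc (-(M : ℤ)) M, if a - M ≤ m ∧ m ≤ a then φ m else 0 := by
    intro a ha
    rw [mem_Icc] at ha
    rw [← sum_filter]
    refine Finset.sum_nbij' (fun b => a - b) (fun m => a - m) ?_ ?_ ?_ ?_ ?_
    · intro b hb
      simp only [mem_Icc, mem_filter] at hb ⊢
      omega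
    · intro m hm
      simp only [mem_Icc, mem_filter] at hm ⊢
      omega
    · intro b _; simp
    · intro m _; simp
    · intro b _; rfl
  rw [sum_congr rfl e1, sum_comm]
  refine sum_congr rfl fun m hm => ?_
  rw [mem_Icc] at hm
  rw [← sum_filter, sum_const, nsmul_eq_mul]
  congr 1
  have : (Icc (0 : ℤ) M).filter (fun a => a - M ≤ m ∧ m ≤ a) = Icc (max 0 m) (min M (M + m)) := by
    ext a
    simp only [mem_filter, mem_Icc, max_le_iff, le_min_iff]
    omega
  rw [this, Int.card_Icc]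
  have h2 : (((min (M : ℤ) (M + m) + 1 - max 0 m).toNat : ℕ) : ℤ) = (M : ℤ) + 1 - |m| := by
    rcases le_total 0 m with h | h
    · rw [abs_of_nonneg h]; omega
    · rw [abs_of_nonpos h]; omega
  exact_mod_cast congrArg (fun z : ℤ => (z : ℂ)) h2

lemma sum_translate (g : ℕ) (hg : 0 < g) (m : ℤ) :
    ∑ l ∈ range g, ee (m * (l / g)) = if (g : ℤ) ∣ m then (g : ℂ) else 0 := by
  rw [← sum_ee_div g hg m]
  exact sum_congr rfl fun l _ => by rw [mul_div_assoc]

/-- the Fejér mean of the part of the square wave with frequencies divisible by `g` -/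
lemma fejer_bound (M g : ℕ) (hg : Odd g) (θ : ℝ) :
    ‖∑ m ∈ (oddBox M).filter (fun m => (g : ℤ) ∣ m),
      sq m * ((1 - |(m : ℝ)| / (M + 1) : ℝ) : ℂ) * ee (m * θ)‖ ≤ 1 / g := by
  have hg0 : 0 < g := hg.pos
  have hg' : (g : ℝ) ≠ 0 := by positivity
  have hgc : (g : ℂ) ≠ 0 := by exact_mod_cast hg0.ne'
  let K : ℝ → ℝ := fun v => ∑ l ∈ range g, ‖∑ a ∈ Icc (0 : ℤ) M, ee (a * (θ - (v + l) / g))‖ ^ 2
  have hK0 : ∀ v, 0 ≤ K v := fun v => sum_nonneg fun _ _ => sq_nonneg _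
  have hKc : Continuous K := by
    simp only [K]
    fun_prop
  let c : ℤ → ℂ := fun m => ((((M : ℤ) + 1 - |m| : ℤ) : ℂ) * ee (m * θ)) *
    if (g : ℤ) ∣ m then (g : ℂ) else 0
  have hK : ∀ v, (K v : ℂ) = ∑ m ∈ Icc (-(M : ℤ)) M, c m * ee ((-(m / g) : ℤ) * v) := by
    intro v
    have e1 : ∀ w : ℝ, ((‖∑ a ∈ Icc (0 : ℤ) M, ee (a * w)‖ ^ 2 : ℝ) : ℂ) =
        ∑ m ∈ Icc (-(M : ℤ)) M, (((M : ℤ) + 1 - |m| : ℤ) : ℂ) * ee (m * w) := by
      intro w
      rw [← sum_diff M (fun m => ee (m * w)), ← Complex.normSq_eq_norm_sq, ← Complex.mul_conj,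
        map_sum, sum_mul_sum]
      refine sum_congr rfl fun a _ => sum_congr rfl fun b _ => ?_
      rw [← ee_sub]; congr 1; push_cast; ring
    simp only [K, Complex.ofReal_sum, e1]
    rw [sum_comm]
    refine sum_congr rfl fun m _ => ?_
    have e2 : ∀ l : ℕ, ee (m * (θ - (v + l) / g)) =
        ee (m * θ) * ee (-(m * v / g)) * ee ((-m : ℤ) * (l / g)) := by
      intro l
      rw [← ee_add, ← ee_add]; congr 1; push_cast; ring
    simp only [e2]
    rw [← mul_sum, ← mul_sum, sum_translate g hg0]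
    simp only [dvd_neg, c]
    split_ifs with h
    · obtain ⟨k, rfl⟩ := h
      have hk : ((g : ℤ) * k) / g = k := Int.mul_ediv_cancel_left _ (by exact_mod_cast hg0.ne')
      rw [hk]
      have : -((((g : ℤ) * k : ℤ) : ℝ) * v / g) = ((-k : ℤ) : ℝ) * v := by
        push_cast; field_simp
      rw [this]; ring
    · simp
  have hint : ∀ a b : ℝ, ((∫ v in a..b, K v : ℝ) : ℂ) =
      ∑ m ∈ Icc (-(M : ℤ)) M, c m * ∫ v in a..b, ee ((-(m / g) : ℤ) * v) := by
    intro a b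
    rw [← intervalIntegral.integral_ofReal]
    simp only [hK]
    rw [intervalIntegral.integral_finsetSum]
    · exact sum_congr rfl fun m _ => intervalIntegral.integral_const_mul _ _
    · intro m _
      exact Continuous.intervalIntegrable (by fun_prop) _ _
  have htot : ∫ v in (0 : ℝ)..1, K v = (M + 1) * g := by
    apply Complex.ofReal_injective
    rw [hint, Finset.sum_eq_single 0]
    · simp [c]
    · intro m _ hm
      rw [integral_ee_int]
      simp only [c]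
      split_ifs with h1 h2
      · exfalso
        obtain ⟨k, rfl⟩ := h1
        rw [Int.mul_ediv_cancel_left _ (by exact_mod_cast hg0.ne'), neg_eq_zero] at h2
        exact hm (by rw [h2, mul_zero])
      all_goals simp
    · intro h; exact absurd (mem_Icc.2 ⟨by omega, by omega⟩) h
  have hsplit : (∫ v in (0 : ℝ)..(1 / 2), K v) + ∫ v in (1 / 2 : ℝ)..1, K v = (M + 1) * g := by
    rw [intervalIntegral.integral_add_adjacent_intervals (hKc.intervalIntegrable _ _)
      (hKc.intervalIntegrable _ _), htot]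
  have h1 : 0 ≤ ∫ v in (0 : ℝ)..(1 / 2), K v :=
    intervalIntegral.integral_nonneg (by norm_num) fun v _ => hK0 v
  have h2 : 0 ≤ ∫ v in (1 / 2 : ℝ)..1, K v :=
    intervalIntegral.integral_nonneg (by norm_num) fun v _ => hK0 v
  have hM : (0 : ℝ) < M + 1 := by positivity
  have hMc : ((M : ℂ) + 1) ≠ 0 := by exact_mod_cast hM.ne'
  have key : ∑ m ∈ (oddBox M).filter (fun m => (g : ℤ) ∣ m),
      sq m * ((1 - |(m : ℝ)| / (M + 1) : ℝ) : ℂ) * ee (m * θ) =
      ((((∫ v in (0 : ℝ)..(1 / 2), K v) - ∫ v in (1 / 2 : ℝ)..1, K v) / ((M + 1) * g ^ 2) : ℝ) : ℂ) := by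
    rw [Complex.ofReal_div, Complex.ofReal_sub, hint, hint, ← sum_sub_distrib, sum_div, oddBox,
      filter_filter, sum_filter]
    refine sum_congr rfl fun m _ => ?_
    rw [← mul_sub, sq_eq]
    simp only [c]
    by_cases h : (g : ℤ) ∣ m
    · obtain ⟨k, rfl⟩ := h
      have hk : ((g : ℤ) * k) / g = k := Int.mul_ediv_cancel_left _ (by exact_mod_cast hg0.ne')
      have hodd : Odd ((g : ℤ) * k) ↔ Odd k := by
        rw [Int.odd_mul]; simp [hg]
      rw [hk]
      simp only [dvd_mul_right, and_true, if_true, sq, hodd]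
      split_ifs with hk2
      · have hk0 : (k : ℂ) ≠ 0 := by
          have : k ≠ 0 := by rintro rfl; simp at hk2
          exact_mod_cast this
        have hpi : (Real.pi : ℂ) ≠ 0 := by exact_mod_cast Real.pi_ne_zero
        have e3 : (((|(g : ℤ) * k| : ℤ)) : ℂ) = ((|(((g : ℤ) * k : ℤ) : ℝ)| : ℝ) : ℂ) := by
          rw [← Int.cast_abs, Complex.ofReal_intCast]
        rw [Int.cast_sub, e3]
        generalize |(((g : ℤ) * k : ℤ) : ℝ)| = y
        push_cast
        field_simp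
      · simp
    · simp [h]
  rw [key, Complex.norm_real, Real.norm_eq_abs, abs_div, abs_of_pos (by positivity : (0 : ℝ) <
    (M + 1) * g ^ 2), div_le_div_iff₀ (by positivity) (by positivity)]
  have h3 : |(∫ v in (0 : ℝ)..(1 / 2), K v) - ∫ v in (1 / 2 : ℝ)..1, K v| ≤ (M + 1) * g := by
    rw [abs_le]; constructor <;> linarith
  calc _ ≤ ((M + 1) * g) * (g : ℝ) := mul_le_mul_of_nonneg_right h3 (by positivity)
    _ = _ := by ring

lemma sum_oddBox {β : Type*} [AddCommMonoid β] (M : ℕ) (φ : ℤ → β) :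
    ∑ m ∈ oddBox M, φ m = ∑ k ∈ (range (M + 1)).filter Odd, (φ k + φ (-k)) := by
  have h1 : oddBox M = ((range (M + 1)).filter Odd).image (fun k : ℕ => (k : ℤ)) ∪
      ((range (M + 1)).filter Odd).image (fun k : ℕ => -(k : ℤ)) := by
    ext m
    simp only [oddBox, mem_filter, mem_Icc, mem_union, mem_image, mem_range]
    constructor
    · rintro ⟨⟨h1, h2⟩, h3⟩
      rcases le_total 0 m with h | h
      · refine Or.inl ⟨m.natAbs, ⟨by omega, Int.natAbs_odd.2 h3⟩, by omega⟩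
      · refine Or.inr ⟨m.natAbs, ⟨by omega, Int.natAbs_odd.2 h3⟩, by omega⟩
    · rintro (⟨k, ⟨h1, h2⟩, rfl⟩ | ⟨k, ⟨h1, h2⟩, rfl⟩)
      · exact ⟨⟨by omega, by omega⟩, by exact_mod_cast h2⟩
      · exact ⟨⟨by omega, by omega⟩, Odd.neg (by exact_mod_cast h2)⟩
  rw [h1, sum_union, sum_image, sum_image, sum_add_distrib]
  · intro a _ b _ h; simpa using h
  · intro a _ b _ h; simpa using h
  · rw [disjoint_left]
    intro m hm hm'
    obtain ⟨k, hk, rfl⟩ := mem_image.1 hm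
    obtain ⟨k', _, h⟩ := mem_image.1 hm'
    have := (mem_filter.1 hk).2.pos
    omega

lemma hasSum_odd : HasSum (fun n : ℕ => if Odd n then 1 / (n : ℝ) ^ 2 else 0) (Real.pi ^ 2 / 8) := by
  have h1 : HasSum (fun n : ℕ => if Even n then 1 / (n : ℝ) ^ 2 else 0) (Real.pi ^ 2 / 24) := by
    have hinj : Function.Injective (fun n : ℕ => 2 * n) := fun a b h => by simpa using h
    rw [← hinj.hasSum_iff]
    · have := hasSum_zeta_two.div_const 4
      have e1 : Real.pi ^ 2 / 24 = Real.pi ^ 2 / 6 / 4 := by ring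
      have e2 : ((fun n : ℕ => if Even n then 1 / (n : ℝ) ^ 2 else 0) ∘ fun n => 2 * n) =
          fun i : ℕ => 1 / (i : ℝ) ^ 2 / 4 := by
        funext n
        simp only [Function.comp, even_two_mul, if_true]
        push_cast
        ring
      rw [e1, e2]
      exact this
    · intro n hn
      rw [if_neg]
      rintro ⟨k, rfl⟩
      exact hn ⟨k, by simp [two_mul]⟩
  have := hasSum_zeta_two.sub h1
  have e1 : Real.pi ^ 2 / 8 = Real.pi ^ 2 / 6 - Real.pi ^ 2 / 24 := by ring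
  have e2 : (fun n : ℕ => if Odd n then 1 / (n : ℝ) ^ 2 else 0) =
      fun b : ℕ => 1 / (b : ℝ) ^ 2 - if Even b then 1 / (b : ℝ) ^ 2 else 0 := by
    funext n
    rcases Nat.even_or_odd n with h | h
    · simp [h, Nat.not_odd_iff_even.2 h]
    · simp [h, Nat.not_even_iff_odd.2 h]
  rw [e1, e2]
  exact this

lemma mass_eq (M : ℕ) : ∑ m ∈ oddBox M, ((2 / Real.pi) / |(m : ℝ)|) ^ 2 =
    8 / Real.pi ^ 2 * ∑ n ∈ range (M + 1), if Odd n then 1 / (n : ℝ) ^ 2 else 0 := by
  rw [sum_oddBox, ← sum_filter, mul_sum]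
  refine sum_congr rfl fun k _ => ?_
  simp only [Int.cast_neg, abs_neg, div_pow, sq_abs, Int.cast_natCast]
  ring

lemma mass_le (M : ℕ) : ∑ m ∈ oddBox M, ((2 / Real.pi) / |(m : ℝ)|) ^ 2 ≤ 1 := by
  rw [mass_eq]
  have h1 := sum_le_hasSum (range (M + 1)) (fun n _ => by split_ifs <;> positivity) hasSum_odd
  have hpi := Real.pi_pos
  calc _ ≤ 8 / Real.pi ^ 2 * (Real.pi ^ 2 / 8) := by gcongr
    _ = 1 := by field_simp

lemma mass_ge (ε : ℝ) (hε : 0 < ε) : ∃ M₀ : ℕ, ∀ M, M₀ ≤ M →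
    1 - ε ≤ ∑ m ∈ oddBox M, ((2 / Real.pi) / |(m : ℝ)|) ^ 2 := by
  have hpi := Real.pi_pos
  have h1 := (hasSum_odd.tendsto_sum_nat.const_mul (8 / Real.pi ^ 2))
  have h2 : 8 / Real.pi ^ 2 * (Real.pi ^ 2 / 8) = 1 := by field_simp
  rw [h2] at h1
  obtain ⟨N, hN⟩ := Filter.eventually_atTop.1 (h1.eventually (lt_mem_nhds (show 1 - ε < 1 by linarith)))
  exact ⟨N, fun M hM => by rw [mass_eq]; exact (hN _ (by omega)).le⟩

lemma mass_g (M g : ℕ) (hg : Odd g) :
    ∑ m ∈ (oddBox M).filter (fun m => (g : ℤ) ∣ m), ((2 / Real.pi) / |(m : ℝ)|) ^ 2 ≤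
      1 / (g : ℝ) ^ 2 := by
  have hg0 : 0 < g := hg.pos
  have hg' : (0 : ℝ) < g := by exact_mod_cast hg0
  have hsub : (oddBox M).filter (fun m => (g : ℤ) ∣ m) ⊆
      (oddBox M).image (fun k => (g : ℤ) * k) := by
    intro m hm
    obtain ⟨h1, k, rfl⟩ := mem_filter.1 hm
    refine mem_image.2 ⟨k, ?_, rfl⟩
    simp only [oddBox, mem_filter, mem_Icc] at h1 ⊢
    have h2 : |k| ≤ |(g : ℤ) * k| := by
      rw [abs_mul]
      refine le_mul_of_one_le_left (abs_nonneg _) ?_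
      rw [Nat.abs_cast]; exact_mod_cast hg0
    have h3 : |(g : ℤ) * k| ≤ M := abs_le.2 h1.1
    exact ⟨abs_le.1 (h2.trans h3), (Int.odd_mul.1 h1.2).2⟩
  refine (sum_le_sum_of_subset_of_nonneg hsub fun m _ _ => sq_nonneg _).trans ?_
  rw [sum_image (fun a _ b _ h => mul_left_cancel₀ (by exact_mod_cast hg0.ne') h)]
  have e : ∀ k : ℤ, ((2 / Real.pi) / |(((g : ℤ) * k : ℤ) : ℝ)|) ^ 2 =
      1 / (g : ℝ) ^ 2 * ((2 / Real.pi) / |(k : ℝ)|) ^ 2 := by
    intro k
    push_cast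
    rw [abs_mul, abs_of_pos hg']
    ring
  simp only [e]
  rw [← mul_sum]
  exact mul_le_of_le_one_right (by positivity) (mass_le M)

lemma proj_bound (S : Finset ℤ) (c : ℤ → ℂ) (τ : ℝ)
    (h : ∀ θ : ℝ, ‖∑ m ∈ S, c m * ee (m * θ)‖ ≤ τ) (g : ℕ) (hg : 0 < g) (θ : ℝ) :
    ‖∑ m ∈ S.filter (fun m => (g : ℤ) ∣ m), c m * ee (m * θ)‖ ≤ τ := by
  have hgc : (g : ℂ) ≠ 0 := by exact_mod_cast hg.ne'
  have hg' : (0 : ℝ) < g := by exact_mod_cast hg
  have e : ∑ m ∈ S.filter (fun m => (g : ℤ) ∣ m), c m * ee (m * θ) =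
      (∑ l ∈ range g, ∑ m ∈ S, c m * ee (m * (θ + l / g))) / g := by
    rw [sum_comm, sum_div, sum_filter]
    refine sum_congr rfl fun m _ => ?_
    simp only [mul_add, ee_add]
    rw [← mul_sum, ← mul_sum, sum_translate g hg]
    split_ifs
    · field_simp
    · simp
  rw [e, norm_div, Complex.norm_natCast, div_le_iff₀ hg']
  refine (norm_sum_le _ _).trans ((sum_le_sum fun l _ => h _).trans (le_of_eq ?_))
  simp [mul_comm]

/-- size of the correction term -/
noncomputable def cor (M : ℕ) (k : ℕ) : ℝ :=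
  (2 / Real.pi) / k * √(1 - (1 - (k : ℝ) / (M + 1)) ^ 2)

lemma cor_nonneg (M k : ℕ) : 0 ≤ cor M k := by
  have := Real.pi_pos
  unfold cor; positivity

lemma cor_le (M k : ℕ) (y : ℝ) (hy : 0 < y) (hk : 0 < k) (h : y ^ 2 ≤ k * M) : cor M k ≤ 1 / y := by
  have hpi := Real.pi_gt_three
  have hk' : (0 : ℝ) < k := by exact_mod_cast hk
  have hM : (0 : ℝ) < M + 1 := by positivity
  have h1 : cor M k ^ 2 ≤ (1 / y) ^ 2 := by
    have h2 : √(1 - (1 - (k : ℝ) / (M + 1)) ^ 2) ^ 2 ≤ 2 * (k / (M + 1)) := by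
      rw [Real.sq_sqrt']
      refine max_le ?_ (by positivity)
      nlinarith [sq_nonneg ((k : ℝ) / (M + 1))]
    have h3 : (2 / Real.pi) ^ 2 ≤ 1 / 2 := by
      rw [div_pow, div_le_div_iff₀ (by positivity) (by norm_num)]
      nlinarith
    unfold cor
    rw [mul_pow, div_pow]
    calc _ ≤ (1 / 2) / (k : ℝ) ^ 2 * (2 * (k / (M + 1))) := by gcongr
      _ = 1 / (k * (M + 1)) := by field_simp
      _ ≤ 1 / y ^ 2 := one_div_le_one_div_of_le (by positivity) (by nlinarith)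
      _ = _ := by ring
  exact (pow_le_pow_iff_left₀ (cor_nonneg _ _) (by positivity) (by norm_num)).1 h1

lemma exists_signs (h : TrigSpencerStmt) : ∃ C : ℝ, 0 < C ∧ ∀ j : ℕ, 0 < j →
    ∃ s : ℕ → ℝ, (∀ k, s k = 1 ∨ s k = -1) ∧ ∀ θ : ℝ,
      ‖∑ m ∈ oddBox (j ^ 6), ((s m.natAbs * cor (j ^ 6) m.natAbs : ℝ) : ℂ) * ee (m * θ)‖ ≤ C / j := by
  obtain ⟨C, hC, h⟩ := h
  refine ⟨2 * (1 + 2 * C), by positivity, fun j hj => ?_⟩
  have hj' : (1 : ℝ) ≤ j := by exact_mod_cast hj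
  set S := (range (j ^ 6 + 1)).filter Odd with hS
  obtain ⟨s, hs, hs2⟩ := h (j ^ 6 + 1) (S.filter fun k => ¬ k ≤ j ^ 2)
    (fun k => (cor (j ^ 6) k : ℂ)) (1 / (j : ℝ) ^ 4) (2 * (j : ℝ) ^ 3)
    ((filter_subset _ _).trans (filter_subset _ _)) (by positivity)
    (by
      intro k hk
      have h1 := not_le.1 (mem_filter.1 hk).2
      rw [Complex.norm_real, Real.norm_of_nonneg (cor_nonneg _ _)]
      refine cor_le _ _ _ (by positivity) (by omega) ?_
      have h2 : (j : ℝ) ^ 2 ≤ k := by exact_mod_cast h1.le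
      push_cast
      calc ((j : ℝ) ^ 4) ^ 2 = j ^ 2 * j ^ 6 := by ring
        _ ≤ _ := by gcongr)
    (by positivity)
    (by
      have h1 : ((S.filter fun k => ¬ k ≤ j ^ 2).card : ℝ) ≤ j ^ 6 + 1 := by
        have := card_le_card ((filter_subset (fun k => ¬ k ≤ j ^ 2) S).trans (filter_subset _ _))
        rw [card_range] at this
        exact_mod_cast this
      have h2 : (j : ℝ) ^ 6 + 1 ≤ 2 * j ^ 6 := by linarith [one_le_pow₀ (n := 6) hj']
      push_cast
      calc _ ≤ (2 * (j : ℝ) ^ 6) * (2 * j ^ 6) ^ 2 := by gcongr; exact h1.trans h2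
        _ = 8 * j ^ 18 := by ring
        _ ≤ 64 * j ^ 18 := by gcongr; norm_num
        _ = _ := by ring)
  refine ⟨s, hs, ?_⟩
  have hP : ∀ θ : ℝ, ‖∑ k ∈ S, ((s k * cor (j ^ 6) k : ℝ) : ℂ) * ee (k * θ)‖ ≤ (1 + 2 * C) / j := by
    intro θ
    rw [← sum_filter_add_sum_filter_not S (fun k => k ≤ j ^ 2)]
    refine (norm_add_le _ _).trans ?_
    have b1 : ‖∑ k ∈ S.filter (fun k => k ≤ j ^ 2),
        ((s k * cor (j ^ 6) k : ℝ) : ℂ) * ee (k * θ)‖ ≤ 1 / j := by
      refine (norm_sum_le _ _).trans ?_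
      have c1 : ∀ k ∈ S.filter (fun k => k ≤ j ^ 2),
          ‖((s k * cor (j ^ 6) k : ℝ) : ℂ) * ee (k * θ)‖ ≤ 1 / (j : ℝ) ^ 3 := by
        intro k hk
        have hk0 : 0 < k := (mem_filter.1 (mem_filter.1 hk).1).2.pos
        rw [norm_mul, norm_ee, mul_one, Complex.norm_real, Real.norm_eq_abs, abs_mul,
          abs_of_nonneg (cor_nonneg _ _)]
        have : |s k| = 1 := by rcases hs k with h | h <;> simp [h]
        rw [this, one_mul]
        refine cor_le _ _ _ (by positivity) hk0 ?_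
        have h2 : (1 : ℝ) ≤ k := by exact_mod_cast hk0
        push_cast
        calc ((j : ℝ) ^ 3) ^ 2 = 1 * j ^ 6 := by ring
          _ ≤ _ := by gcongr
      refine (sum_le_sum c1).trans ?_
      rw [sum_const, nsmul_eq_mul]
      have c2 : ((S.filter (fun k => k ≤ j ^ 2)).card : ℝ) ≤ j ^ 2 := by
        have : S.filter (fun k => k ≤ j ^ 2) ⊆ Icc 1 (j ^ 2) := by
          intro k hk
          exact mem_Icc.2 ⟨(mem_filter.1 (mem_filter.1 hk).1).2.pos, (mem_filter.1 hk).2⟩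
        have := card_le_card this
        rw [Nat.card_Icc, Nat.add_sub_cancel] at this
        exact_mod_cast this
      calc _ ≤ (j : ℝ) ^ 2 * (1 / j ^ 3) := by gcongr
        _ = _ := by field_simp
    have b2 := hs2 θ
    have b3 : C * (1 / (j : ℝ) ^ 4) * (2 * j ^ 3) = 2 * C / j := by field_simp
    rw [b3] at b2
    push_cast at b1 ⊢
    rw [add_div]
    exact add_le_add b1 b2
  intro θ
  rw [sum_oddBox, sum_add_distrib]
  refine (norm_add_le _ _).trans ?_
  have d1 := hP θ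
  have d2 := hP (-θ)
  simp only [Int.natAbs_neg, Int.natAbs_natCast, Int.cast_neg, Int.cast_natCast, neg_mul]
  simp only [mul_neg] at d2
  rw [mul_div_assoc, two_mul]
  exact add_le_add d1 d2

end Square

open Square in
theorem square_of (h : TrigSpencerStmt) : SquareStmt := by
  intro ε hε
  obtain ⟨C, hC, hsign⟩ := exists_signs h
  obtain ⟨M₀, hM₀⟩ := mass_ge ε hε
  obtain ⟨j₁, hj₁⟩ := exists_nat_ge (max (C / ε) (C ^ 12 / ε))
  set j := max (max M₀ j₁) 1 with hj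
  have hj0 : 0 < j := lt_of_lt_of_le one_pos (le_max_right _ _)
  have hj1 : (1 : ℝ) ≤ j := by exact_mod_cast hj0
  have hj2 : (j₁ : ℝ) ≤ j := by exact_mod_cast (le_max_right _ _).trans (le_max_left _ _)
  have hj3 : M₀ ≤ j ^ 6 :=
    ((le_max_left _ _).trans (le_max_left _ _)).trans (Nat.le_self_pow (by norm_num) j)
  obtain ⟨s, hs, hs2⟩ := hsign j hj0
  set M := j ^ 6 with hM
  have hpi := Real.pi_pos
  let hh : ℤ → ℂ := fun m => Square.sq m * ((1 - |(m : ℝ)| / (M + 1) : ℝ) : ℂ) +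
    ((s m.natAbs * cor M m.natAbs : ℝ) : ℂ)
  have hnorm : ∀ m ∈ oddBox M, ‖hh m‖ = (2 / Real.pi) / |(m : ℝ)| := by
    intro m hm
    simp only [oddBox, mem_filter, mem_Icc] at hm
    have hm0 : m ≠ 0 := by rintro rfl; simp at hm
    have hm1 : (m : ℝ) ≠ 0 := by exact_mod_cast hm0
    have hm2 : |(m : ℝ)| ≤ M := by
      have := abs_le.2 hm.1
      exact_mod_cast this
    set lam : ℝ := 1 - |(m : ℝ)| / (M + 1) with hlam
    have hl0 : 0 ≤ lam := by
      rw [hlam, sub_nonneg, div_le_one (by positivity)]; linarith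
    have hl1 : lam ≤ 1 := by
      have : 0 ≤ |(m : ℝ)| / (M + 1) := by positivity
      linarith
    have e1 : hh m = ((s m.natAbs * cor M m.natAbs : ℝ) : ℂ) +
        ((-2 / (Real.pi * m) * lam : ℝ) : ℂ) * Complex.I := by
      simp only [hh, Square.sq, if_pos hm.2, ← hlam]
      push_cast
      ring
    have e2 : cor M m.natAbs = (2 / Real.pi) / |(m : ℝ)| * √(1 - lam ^ 2) := by
      rw [cor, Nat.cast_natAbs, Int.cast_abs]
    have e3 : s m.natAbs ^ 2 = 1 := by rcases hs m.natAbs with h | h <;> simp [h]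
    rw [e1, Complex.norm_add_mul_I, Real.sqrt_eq_iff_mul_self_eq (by positivity) (by positivity),
      mul_pow, e3, e2, mul_pow, Real.sq_sqrt (by nlinarith), ← pow_two, div_pow, div_pow, sq_abs]
    field_simp
    ring
  refine ⟨M, C / j, 2 / Real.pi, hh, by positivity, ?_, ?_, by positivity, ?_, hnorm, ?_, ?_⟩
  · rw [div_le_iff₀ (by positivity)]
    have := ((le_max_left _ _).trans hj₁).trans hj2
    rw [div_le_iff₀ hε] at this
    linarith
  · have := ((le_max_right _ _).trans hj₁).trans hj2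
    rw [div_le_iff₀ hε] at this
    have h2 : (j : ℝ) ≤ j ^ 6 := le_self_pow₀ hj1 (by norm_num)
    rw [hM]
    push_cast
    calc (j : ℝ) ^ 6 * (C / j) ^ 12 = C ^ 12 / j ^ 6 := by field_simp
      _ ≤ ε := by
        rw [div_le_iff₀ (by positivity)]
        nlinarith
  · intro m
    simp only [hh, Square.sq, odd_neg, Int.natAbs_neg, Int.cast_neg, abs_neg, map_add, map_mul,
      Complex.conj_ofReal]
    congr 2
    split_ifs
    · simp [map_ofNat, div_neg, neg_div]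
    · simp
  · rw [sum_congr rfl fun m hm => by rw [hnorm m hm]]
    exact hM₀ M hj3
  · intro g hg
    constructor
    · rw [sum_congr rfl fun m hm => by rw [hnorm m (mem_filter.1 hm).1]]
      exact mass_g M g hg
    · intro θ
      simp only [hh, add_mul, sum_add_distrib]
      exact (norm_add_le _ _).trans (add_le_add (fejer_bound M g hg θ)
        (proj_bound _ (fun m => ((s m.natAbs * cor M m.natAbs : ℝ) : ℂ)) _ hs2 g hg.pos θ))

end Crest.Agent.R75
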