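import Crest.Agent.R75.Defs

/-!
# Row 75, module D2: the Fresnel integral and stationary phase
-/

set_option autoImplicit false

open MeasureTheory Filter Topology Set

namespace Crest.Agent.R75

namespace StatPhase

/-- The truncated Fresnel integral. -/
noncomputable def fres (R : ℝ) : ℂ := ∫ u in (-R)..R, ee (u ^ 2 / 2)

/-- The Fresnel constant. -/
noncomputable def gam : ℂ := ((Real.pi : ℂ) / ((0 : ℝ) - Real.pi * Complex.I)) ^ (1 / 2 : ℂ)

theorem norm_gam : ‖gam‖ ≤ 1 := by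
  have h : (1 / 2 : ℂ) = ((1 / 2 : ℝ) : ℂ) := by push_cast; ring
  rw [gam, h, Complex.norm_cpow_real]
  have : ‖((Real.pi : ℂ) / ((0 : ℝ) - Real.pi * Complex.I))‖ = 1 := by
    simp [abs_of_pos Real.pi_pos, Real.pi_ne_zero]
  rw [this]; simp

theorem gauss_eq (s u : ℝ) :
    ((Real.exp (-s * u ^ 2) : ℝ) : ℂ) * ee (u ^ 2 / 2) =
      Complex.exp (-((s : ℂ) - Real.pi * Complex.I) * (u : ℂ) ^ 2) := by
  rw [ee, Complex.ofReal_exp, ← Complex.exp_add]
  congr 1; push_cast; ring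

theorem tail_pos (h1 : VdC1Stmt) (s R R' : ℝ) (hs : 0 ≤ s) (hR : 0 < R) (hRR : R ≤ R') :
    ‖∫ u in R..R', ((Real.exp (-s * u ^ 2) : ℝ) : ℂ) * ee (u ^ 2 / 2)‖ ≤ 2 / R := by
  have hg : ∀ t : ℝ, HasDerivAt (fun u : ℝ => Real.exp (-s * u ^ 2))
      (Real.exp (-s * t ^ 2) * (-s * (2 * t))) t := by
    intro t
    have := ((hasDerivAt_pow 2 t).const_mul (-s)).exp
    simpa using this
  have key := h1 (fun u => u ^ 2 / 2) (fun u => u) (fun _ => 1)
    (fun u => Real.exp (-s * u ^ 2)) (fun t => Real.exp (-s * t ^ 2) * (-s * (2 * t)))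
    R R' R 1 1
    (fun t => by simpa using (hasDerivAt_pow 2 t).div_const 2)
    (fun t => hasDerivAt_id t) continuous_const hg (by fun_prop) hRR hR
    (Or.inl fun _ _ => zero_le_one)
    (fun t ht => by rw [abs_of_nonneg (hR.le.trans ht.1)]; exact ht.1)
    (fun t _ => by
      rw [abs_of_pos (Real.exp_pos _)]
      exact Real.exp_le_one_iff.2 (by nlinarith [sq_nonneg t]))
    (by
      have e1 : ∫ t in R..R', |Real.exp (-s * t ^ 2) * (-s * (2 * t))| =
          ∫ t in R..R', -(Real.exp (-s * t ^ 2) * (-s * (2 * t))) := by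
        apply intervalIntegral.integral_congr
        intro t ht
        rw [uIcc_of_le hRR] at ht
        have ht0 : 0 ≤ t := hR.le.trans ht.1
        apply abs_of_nonpos
        have := Real.exp_pos (-s * t ^ 2)
        have h2 : 0 ≤ s * t := mul_nonneg hs ht0
        nlinarith
      rw [e1, intervalIntegral.integral_neg,
        intervalIntegral.integral_eq_sub_of_hasDerivAt (fun t _ => hg t)
          (Continuous.intervalIntegrable (by fun_prop) _ _)]
      have h1 : Real.exp (-s * R ^ 2) ≤ 1 := Real.exp_le_one_iff.2 (by nlinarith [sq_nonneg R])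
      have h2 := Real.exp_pos (-s * R' ^ 2)
      linarith)
  convert key using 2
  norm_num

theorem tail_neg (h1 : VdC1Stmt) (s R R' : ℝ) (hs : 0 ≤ s) (hR : 0 < R) (hRR : R ≤ R') :
    ‖∫ u in (-R')..(-R), ((Real.exp (-s * u ^ 2) : ℝ) : ℂ) * ee (u ^ 2 / 2)‖ ≤ 2 / R := by
  have := intervalIntegral.integral_comp_neg (a := R) (b := R')
    (fun u : ℝ => ((Real.exp (-s * u ^ 2) : ℝ) : ℂ) * ee (u ^ 2 / 2))
  rw [← this]
  simpa using tail_pos h1 s R R' hs hR hRR

theorem gauss_trunc (h1 : VdC1Stmt) (s R : ℝ) (hs : 0 < s) (hR : 0 < R) :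
    ‖(∫ u in (-R)..R, ((Real.exp (-s * u ^ 2) : ℝ) : ℂ) * ee (u ^ 2 / 2)) -
      ((Real.pi : ℂ) / ((s : ℝ) - Real.pi * Complex.I)) ^ (1 / 2 : ℂ)‖ ≤ 4 / R := by
  set f : ℝ → ℂ := fun u => ((Real.exp (-s * u ^ 2) : ℝ) : ℂ) * ee (u ^ 2 / 2) with hf
  have hb : 0 < ((s : ℂ) - Real.pi * Complex.I).re := by simpa using hs
  have hint : Integrable f := by
    have := integrable_cexp_neg_mul_sq hb
    refine this.congr (Eventually.of_forall fun u => ?_)
    simp only [hf, gauss_eq]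
  have hval : ∫ u, f u = ((Real.pi : ℂ) / ((s : ℝ) - Real.pi * Complex.I)) ^ (1 / 2 : ℂ) := by
    rw [← integral_gaussian_complex hb]
    simp only [hf, gauss_eq]
  have hc : Continuous f := by simp only [hf]; fun_prop
  have hlim : Tendsto (fun R' : ℝ => ∫ u in (-R')..R', f u) atTop (𝓝 (∫ u, f u)) :=
    intervalIntegral_tendsto_integral hint tendsto_neg_atTop_atBot tendsto_id
  rw [← hval]
  have hlim2 : Tendsto (fun R' : ℝ => ‖(∫ u in (-R)..R, f u) - ∫ u in (-R')..R', f u‖) atTop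
      (𝓝 ‖(∫ u in (-R)..R, f u) - ∫ u, f u‖) := (tendsto_const_nhds.sub hlim).norm
  refine le_of_tendsto hlim2 ?_
  filter_upwards [eventually_ge_atTop R] with R' hR'
  have e1 : ∫ u in (-R')..R', f u =
      (∫ u in (-R')..(-R), f u) + (∫ u in (-R)..R, f u) + ∫ u in R..R', f u := by
    rw [intervalIntegral.integral_add_adjacent_intervals (hc.intervalIntegrable _ _)
      (hc.intervalIntegrable _ _), intervalIntegral.integral_add_adjacent_intervals
      (hc.intervalIntegrable _ _) (hc.intervalIntegrable _ _)]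
  have e2 : (∫ u in (-R)..R, f u) - ∫ u in (-R')..R', f u =
      -((∫ u in (-R')..(-R), f u) + ∫ u in R..R', f u) := by rw [e1]; ring
  rw [e2, norm_neg]
  have t1 := tail_neg h1 s R R' hs.le hR hR'
  have t2 := tail_pos h1 s R R' hs.le hR hR'
  calc _ ≤ ‖∫ u in (-R')..(-R), f u‖ + ‖∫ u in R..R', f u‖ := norm_add_le _ _
    _ ≤ 2 / R + 2 / R := add_le_add t1 t2
    _ = 4 / R := by ring

theorem fres_sub_gam (h1 : VdC1Stmt) (R : ℝ) (hR : 0 < R) : ‖fres R - gam‖ ≤ 4 / R := by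
  have c1 : Continuous fun s : ℝ =>
      ∫ u in (-R)..R, ((Real.exp (-s * u ^ 2) : ℝ) : ℂ) * ee (u ^ 2 / 2) :=
    intervalIntegral.continuous_parametric_intervalIntegral_of_continuous'
      (f := fun s u : ℝ => ((Real.exp (-s * u ^ 2) : ℝ) : ℂ) * ee (u ^ 2 / 2))
      (by unfold Function.uncurry; fun_prop) _ _
  have c2 : ContinuousAt (fun s : ℝ =>
      ((Real.pi : ℂ) / ((s : ℝ) - Real.pi * Complex.I)) ^ (1 / 2 : ℂ)) 0 := by
    have hne : (((0 : ℝ) : ℂ) - Real.pi * Complex.I) ≠ 0 := by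
      simp [Real.pi_ne_zero]
    refine ContinuousAt.cpow ?_ continuousAt_const ?_
    · exact continuousAt_const.div (by fun_prop) hne
    · have : ((Real.pi : ℂ) / (((0 : ℝ) : ℂ) - Real.pi * Complex.I)) = Complex.I := by
        have hp : (Real.pi : ℂ) ≠ 0 := by exact_mod_cast Real.pi_ne_zero
        rw [div_eq_iff hne]
        simp only [Complex.ofReal_zero]
        linear_combination (Real.pi : ℂ) * Complex.I_mul_I
      show ((Real.pi : ℂ) / (((0 : ℝ) : ℂ) - Real.pi * Complex.I)) ∈ Complex.slitPlane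
      rw [this]
      exact Or.inr (by simp)
  have c3 : Tendsto (fun s : ℝ =>
      ‖(∫ u in (-R)..R, ((Real.exp (-s * u ^ 2) : ℝ) : ℂ) * ee (u ^ 2 / 2)) -
        ((Real.pi : ℂ) / ((s : ℝ) - Real.pi * Complex.I)) ^ (1 / 2 : ℂ)‖) (𝓝[>] 0)
      (𝓝 ‖fres R - gam‖) := by
    have := ((c1.continuousAt (x := 0)).tendsto.sub c2.tendsto).norm
    simp only [neg_zero, zero_mul, Real.exp_zero, Complex.ofReal_one, one_mul] at this
    exact this.mono_left nhdsWithin_le_nhds
  refine le_of_tendsto c3 ?_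
  filter_upwards [self_mem_nhdsWithin] with s hs
  exact gauss_trunc h1 s R hs hR

theorem rescale (N k t₀ r : ℝ) (hN : 0 < N) (hk : 0 < k) :
    (√N : ℂ) * ∫ t in (t₀ - r)..(t₀ + r), ee (N * (k * (t - t₀) ^ 2 / 2)) =
      ((1 / √k : ℝ) : ℂ) * fres (√N * r * √k) := by
  have hsN : 0 < √N := Real.sqrt_pos.2 hN
  have hsk : 0 < √k := Real.sqrt_pos.2 hk
  set κ : ℝ := √N * √k with hκ
  have hκ0 : κ ≠ 0 := by positivity
  have hκ2 : κ ^ 2 = N * k := by
    rw [hκ, mul_pow, Real.sq_sqrt hN.le, Real.sq_sqrt hk.le]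
  have e1 : ∀ t : ℝ, ee (N * (k * (t - t₀) ^ 2 / 2)) =
      (fun u : ℝ => ee (u ^ 2 / 2)) (κ * t + -(κ * t₀)) := by
    intro t
    simp only
    congr 1
    have : (κ * t + -(κ * t₀)) ^ 2 = κ ^ 2 * (t - t₀) ^ 2 := by ring
    rw [this, hκ2]; ring
  simp only [e1]
  rw [intervalIntegral.integral_comp_mul_add (fun u : ℝ => ee (u ^ 2 / 2)) hκ0]
  have a1 : κ * (t₀ - r) + -(κ * t₀) = -(√N * r * √k) := by rw [hκ]; ring
  have a2 : κ * (t₀ + r) + -(κ * t₀) = √N * r * √k := by rw [hκ]; ring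
  rw [a1, a2, fres, Complex.real_smul, ← mul_assoc]
  congr 1
  rw [hκ]
  have h1 : (√N : ℂ) ≠ 0 := by exact_mod_cast hsN.ne'
  have h2 : (√k : ℂ) ≠ 0 := by exact_mod_cast hsk.ne'
  push_cast
  field_simp

theorem taylor2 (Sg σ σ' : ℝ → ℝ) (hS : ∀ t, HasDerivAt Sg (σ t) t)
    (hσ : ∀ t, HasDerivAt σ (σ' t) t) (t₀ r η : ℝ) (hr : 0 ≤ r)
    (hη : ∀ t ∈ Icc (t₀ - r) (t₀ + r), |σ' t - σ' t₀| ≤ η) :
    ∀ t ∈ Icc (t₀ - r) (t₀ + r),
      |(Sg t - σ t₀ * t) - ((Sg t₀ - σ t₀ * t₀) + σ' t₀ * (t - t₀) ^ 2 / 2)| ≤ η * r ^ 2 := by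
  have h0 : t₀ ∈ Icc (t₀ - r) (t₀ + r) := ⟨by linarith, by linarith⟩
  have hη0 : 0 ≤ η := (abs_nonneg _).trans (hη t₀ h0)
  have habs : ∀ t ∈ Icc (t₀ - r) (t₀ + r), |t - t₀| ≤ r := fun t ht =>
    abs_le.2 ⟨by linarith [ht.1], by linarith [ht.2]⟩
  have d1 : ∀ t ∈ Icc (t₀ - r) (t₀ + r), |σ t - σ t₀ - σ' t₀ * (t - t₀)| ≤ η * r := by
    intro t ht
    have := Convex.norm_image_sub_le_of_norm_hasDerivWithin_le
      (f := fun t => σ t - σ' t₀ * t) (f' := fun t => σ' t - σ' t₀) (s := Icc (t₀ - r) (t₀ + r))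
      (C := η)
      (fun x _ => by
        have h1 := ((hσ x).sub ((hasDerivAt_id x).const_mul (σ' t₀))).hasDerivWithinAt
          (s := Icc (t₀ - r) (t₀ + r))
        rw [mul_one] at h1
        exact h1)
      (fun x hx => by simpa using hη x hx) (convex_Icc _ _) h0 ht
    rw [Real.norm_eq_abs, Real.norm_eq_abs] at this
    have e : σ t - σ t₀ - σ' t₀ * (t - t₀) = σ t - σ' t₀ * t - (σ t₀ - σ' t₀ * t₀) := by ring
    rw [e]
    exact this.trans (mul_le_mul_of_nonneg_left (habs t ht) hη0)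
  intro t ht
  have := Convex.norm_image_sub_le_of_norm_hasDerivWithin_le
    (f := fun t => Sg t - σ t₀ * t - σ' t₀ * (t - t₀) ^ 2 / 2)
    (f' := fun t => σ t - σ t₀ - σ' t₀ * (t - t₀)) (s := Icc (t₀ - r) (t₀ + r))
    (C := η * r)
    (fun x _ => by
      have h1 := ((hS x).sub ((hasDerivAt_id x).const_mul (σ t₀))).sub
        (((((hasDerivAt_id x).sub_const t₀).pow 2).const_mul (σ' t₀)).div_const 2)
      refine (h1.hasDerivWithinAt.congr_deriv ?_)
      simp; ring)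
    (fun x hx => by simpa using d1 x hx) (convex_Icc _ _) h0 ht
  rw [Real.norm_eq_abs, Real.norm_eq_abs] at this
  have e : (Sg t - σ t₀ * t) - ((Sg t₀ - σ t₀ * t₀) + σ' t₀ * (t - t₀) ^ 2 / 2) =
      Sg t - σ t₀ * t - σ' t₀ * (t - t₀) ^ 2 / 2 -
        (Sg t₀ - σ t₀ * t₀ - σ' t₀ * (t₀ - t₀) ^ 2 / 2) := by ring
  rw [e]
  refine this.trans ?_
  have := mul_le_mul_of_nonneg_left (habs t ht) (mul_nonneg hη0 hr)
  nlinarith

theorem sigma_growth (σ σ' : ℝ → ℝ) (hσ : ∀ t, HasDerivAt σ (σ' t) t) (c : ℝ)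
    (hc : ∀ t, c ≤ σ' t) (x y : ℝ) (hxy : x ≤ y) : c * (y - x) ≤ σ y - σ x := by
  have hmono : Monotone (fun t => σ t - c * t) := by
    apply monotone_of_deriv_nonneg
    · intro t; exact ((hσ t).sub ((hasDerivAt_id t).const_mul c)).differentiableAt
    · intro t
      have := ((hσ t).sub ((hasDerivAt_id t).const_mul c)).deriv
      simp only [id, mul_one] at this
      have e : (fun t => σ t - c * t) = (σ - fun t => c * t) := rfl
      rw [e, this]; linarith [hc t]
  have := hmono hxy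
  simp only at this
  linarith

end StatPhase

open StatPhase in
theorem statPhase_of (h1 : VdC1Stmt) : StatPhaseStmt := by
  refine ⟨gam, norm_gam, ?_⟩
  intro Sg σ σ' g g' a b c hab hc hS hσ hσ'c hcσ hg hg'c hg0 ε hε
  have hgc : Continuous g := continuous_iff_continuousAt.2 fun t => (hg t).continuousAt
  have hSc : Continuous Sg := continuous_iff_continuousAt.2 fun t => (hS t).continuousAt
  -- global bound for `g`
  obtain ⟨G, hG0, hG⟩ : ∃ G : ℝ, 0 ≤ G ∧ ∀ t, |g t| ≤ G := by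
    obtain ⟨C, hC⟩ := isCompact_Icc.exists_bound_of_continuousOn (s := Icc a b) hgc.continuousOn
    refine ⟨max C 0, le_max_right _ _, fun t => ?_⟩
    by_cases ht : t ∈ Icc a b
    · exact (hC t ht).trans (le_max_left _ _)
    · rw [hg0 t (fun h => ht (Ioo_subset_Icc_self h))]; simp
  -- total variation of `g`
  have hg'0 : ∀ t, t ∉ Icc a b → g' t = 0 := by
    intro t ht
    have hev : g =ᶠ[𝓝 t] fun _ => 0 := by
      filter_upwards [isClosed_Icc.isOpen_compl.mem_nhds ht] with x hx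
      exact hg0 x (fun h => hx (Ioo_subset_Icc_self h))
    have := ((hasDerivAt_const t (0 : ℝ)).congr_of_eventuallyEq hev)
    exact (hg t).unique this
  have hg'i : Integrable (fun t => |g' t|) := by
    apply Continuous.integrable_of_hasCompactSupport hg'c.abs
    apply HasCompactSupport.intro (isCompact_Icc (a := a) (b := b))
    intro t ht; rw [hg'0 t ht, abs_zero]
  set G' : ℝ := ∫ t, |g' t| with hG'
  have hG'0 : 0 ≤ G' := integral_nonneg fun t => abs_nonneg _
  have hG'le : ∀ x y : ℝ, x ≤ y → (∫ t in x..y, |g' t|) ≤ G' := by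
    intro x y hxy
    rw [intervalIntegral.integral_of_le hxy]
    exact setIntegral_le_integral hg'i (Eventually.of_forall fun t => abs_nonneg _)
  -- parameters
  set R : ℝ := (12 * G + 4 * G' + 1) / (c * ε) with hR
  have hR0 : 0 < R := by positivity
  set η : ℝ := ε / (4 * R * (1 + 2 * Real.pi * G * R ^ 2)) with hη
  have hpi := Real.pi_pos
  have hη0 : 0 < η := by positivity
  obtain ⟨δ₁, hδ₁, hu₁⟩ := Metric.uniformContinuousOn_iff.1
    ((isCompact_Icc (a := a - 2) (b := b + 2)).uniformContinuousOn_of_continuous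
      hgc.continuousOn) η hη0
  obtain ⟨δ₂, hδ₂, hu₂⟩ := Metric.uniformContinuousOn_iff.1
    ((isCompact_Icc (a := a - 2) (b := b + 2)).uniformContinuousOn_of_continuous
      hσ'c.continuousOn) η hη0
  set δ : ℝ := min (min δ₁ δ₂ / 2) 1 with hδ
  have hδ0 : 0 < δ := lt_min (by positivity) one_pos
  refine ⟨(R / δ) ^ 2, fun N hN t₀ => ?_⟩
  have hN0 : 0 < N := lt_of_lt_of_le (by positivity) hN
  have hsN : 0 < √N := Real.sqrt_pos.2 hN0
  have hsN2 : √N * √N = N := Real.mul_self_sqrt hN0.le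
  set r : ℝ := R / √N with hr
  have hr0 : 0 < r := by positivity
  have hrR : √N * r = R := by rw [hr]; field_simp
  have hrδ : r ≤ δ := by
    have : R / δ ≤ √N := Real.le_sqrt_of_sq_le hN
    rw [hr, div_le_iff₀ hsN]
    rw [div_le_iff₀ hδ0] at this
    linarith
  have hr1 : r ≤ 1 := hrδ.trans (min_le_right _ _)
  have hrδ₁ : r < δ₁ := by
    have h2 : δ ≤ min δ₁ δ₂ / 2 := min_le_left _ _
    have h3 : min δ₁ δ₂ ≤ δ₁ := min_le_left _ _
    linarith
  have hrδ₂ : r < δ₂ := by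
    have h2 : δ ≤ min δ₁ δ₂ / 2 := min_le_left _ _
    have h3 : min δ₁ δ₂ ≤ δ₂ := min_le_right _ _
    linarith
  set φ : ℝ → ℝ := fun t => N * (Sg t - σ t₀ * t) with hφ
  set f : ℝ → ℂ := fun t => (g t : ℂ) * ee (φ t) with hf
  have hfc : Continuous f := by simp only [hf, hφ]; fun_prop
  have hf0 : ∀ t, t ∉ Ioo a b → f t = 0 := fun t ht => by simp [hf, hg0 t ht]
  set A : ℝ := min a (t₀ - r) with hA
  set B : ℝ := max b (t₀ + r) with hB
  have hsplit : ∫ t in a..b, f t = (∫ t in A..(t₀ - r), f t) +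
      (∫ t in (t₀ - r)..(t₀ + r), f t) + ∫ t in (t₀ + r)..B, f t := by
    rw [intervalIntegral.integral_add_adjacent_intervals (hfc.intervalIntegrable _ _)
      (hfc.intervalIntegrable _ _), intervalIntegral.integral_add_adjacent_intervals
      (hfc.intervalIntegrable _ _) (hfc.intervalIntegrable _ _)]
    have z1 : ∫ t in A..a, f t = 0 := by
      rw [intervalIntegral.integral_congr (g := fun _ => 0)]
      · simp
      · intro t ht
        rw [uIcc_of_le (min_le_left _ _)] at ht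
        exact hf0 t (fun h => absurd h.1 (not_lt.2 ht.2))
    have z2 : ∫ t in b..B, f t = 0 := by
      rw [intervalIntegral.integral_congr (g := fun _ => 0)]
      · simp
      · intro t ht
        rw [uIcc_of_le (le_max_left _ _)] at ht
        exact hf0 t (fun h => absurd h.2 (not_lt.2 ht.1))
    rw [← intervalIntegral.integral_add_adjacent_intervals (a := A) (b := a) (c := B)
      (hfc.intervalIntegrable _ _) (hfc.intervalIntegrable _ _),
      ← intervalIntegral.integral_add_adjacent_intervals (a := a) (b := b) (c := B)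
      (hfc.intervalIntegrable _ _) (hfc.intervalIntegrable _ _), z1, z2]
    simp
  -- tails
  have hφd : ∀ t, HasDerivAt φ (N * (σ t - σ t₀)) t := fun t => by
    simpa using ((hS t).sub ((hasDerivAt_id t).const_mul (σ t₀))).const_mul N
  have hpd : ∀ t, HasDerivAt (fun t => N * (σ t - σ t₀)) (N * σ' t) t := fun t =>
    ((hσ t).sub_const (σ t₀)).const_mul N
  have hlam : 0 < N * (c * r) := by positivity
  have tailL : ‖∫ t in A..(t₀ - r), f t‖ ≤ (G + G') / (N * (c * r)) := by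
    refine h1 φ _ _ g g' A (t₀ - r) _ G G' hφd hpd (by fun_prop) hg hg'c (min_le_right _ _) hlam
      (Or.inl fun t _ => mul_nonneg hN0.le (hc.le.trans (hcσ t))) (fun t ht => ?_)
      (fun t _ => hG t) (hG'le _ _ (min_le_right _ _))
    have := sigma_growth σ σ' hσ c hcσ t t₀ (by linarith [ht.2])
    have h2 : c * r ≤ c * (t₀ - t) := mul_le_mul_of_nonneg_left (by linarith [ht.2]) hc.le
    rw [abs_mul, abs_of_pos hN0]
    refine mul_le_mul_of_nonneg_left ?_ hN0.le
    rw [abs_sub_comm]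
    exact (h2.trans this).trans (le_abs_self _)
  have tailR : ‖∫ t in (t₀ + r)..B, f t‖ ≤ (G + G') / (N * (c * r)) := by
    refine h1 φ _ _ g g' (t₀ + r) B _ G G' hφd hpd (by fun_prop) hg hg'c (le_max_right _ _) hlam
      (Or.inl fun t _ => mul_nonneg hN0.le (hc.le.trans (hcσ t))) (fun t ht => ?_)
      (fun t _ => hG t) (hG'le _ _ (le_max_right _ _))
    have := sigma_growth σ σ' hσ c hcσ t₀ t (by linarith [ht.1])
    have h2 : c * r ≤ c * (t - t₀) := mul_le_mul_of_nonneg_left (by linarith [ht.1]) hc.le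
    rw [abs_mul, abs_of_pos hN0]
    refine mul_le_mul_of_nonneg_left ?_ hN0.le
    exact (h2.trans this).trans (le_abs_self _)
  have htail : √N * ((G + G') / (N * (c * r))) = (G + G') / (c * R) := by
    rw [← hrR]
    have : N * (c * r) = √N * (c * (√N * r)) := by
      conv_lhs => rw [← hsN2]
      ring
    rw [this]; field_simp
  -- middle
  set k : ℝ := σ' t₀ with hk
  have hk0 : 0 < k := hc.trans_le (hcσ t₀)
  set q : ℝ → ℂ := fun t => (g t₀ : ℂ) * ee (φ t₀) * ee (N * (k * (t - t₀) ^ 2 / 2)) with hq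
  have hqc : Continuous q := by simp only [hq]; fun_prop
  have hpt : ∀ t ∈ Icc (t₀ - r) (t₀ + r), ‖f t - q t‖ ≤ η * (1 + 2 * Real.pi * G * R ^ 2) := by
    intro t ht
    by_cases ht₀ : t₀ ∈ Icc (a - 1) (b + 1)
    · have hin : ∀ x ∈ Icc (t₀ - r) (t₀ + r), x ∈ Icc (a - 2) (b + 2) := fun x hx =>
        ⟨by linarith [hx.1, ht₀.1], by linarith [hx.2, ht₀.2]⟩
      have h0 : t₀ ∈ Icc (t₀ - r) (t₀ + r) := ⟨by linarith, by linarith⟩
      have hd : ∀ x ∈ Icc (t₀ - r) (t₀ + r), dist x t₀ ≤ r := fun x hx => by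
        rw [Real.dist_eq]; exact abs_le.2 ⟨by linarith [hx.1], by linarith [hx.2]⟩
      have b1 : |g t - g t₀| ≤ η := by
        have := hu₁ t (hin t ht) t₀ (hin t₀ h0) ((hd t ht).trans_lt hrδ₁)
        rw [Real.dist_eq] at this; exact this.le
      have b2 := taylor2 Sg σ σ' hS hσ t₀ r η hr0.le (fun x hx => by
        have := hu₂ x (hin x hx) t₀ (hin t₀ h0) ((hd x hx).trans_lt hrδ₂)
        rw [Real.dist_eq] at this; exact this.le) t ht
      have e1 : f t - q t = ((g t - g t₀ : ℝ) : ℂ) * ee (φ t) +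
          (g t₀ : ℂ) * (ee (φ t) - ee (φ t₀ + N * (k * (t - t₀) ^ 2 / 2))) := by
        simp only [hf, hq, ee_add]; push_cast; ring
      have b3 : ‖ee (φ t) - ee (φ t₀ + N * (k * (t - t₀) ^ 2 / 2))‖ ≤
          2 * Real.pi * (η * R ^ 2) := by
        refine (norm_ee_sub_ee_le _ _).trans (mul_le_mul_of_nonneg_left ?_ (by positivity))
        have e2 : φ t - (φ t₀ + N * (k * (t - t₀) ^ 2 / 2)) =
            N * ((Sg t - σ t₀ * t) - ((Sg t₀ - σ t₀ * t₀) + σ' t₀ * (t - t₀) ^ 2 / 2)) := by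
          simp only [hφ, hk]; ring
        rw [e2, abs_mul, abs_of_pos hN0]
        have e3 : η * R ^ 2 = N * (η * r ^ 2) := by
          rw [← hrR, mul_pow, Real.sq_sqrt hN0.le]; ring
        rw [e3]
        exact mul_le_mul_of_nonneg_left b2 hN0.le
      rw [e1]
      refine (norm_add_le _ _).trans ?_
      rw [norm_mul, norm_mul, norm_ee, mul_one, Complex.norm_real, Complex.norm_real,
        Real.norm_eq_abs, Real.norm_eq_abs]
      have b4 : |g t₀| * ‖ee (φ t) - ee (φ t₀ + N * (k * (t - t₀) ^ 2 / 2))‖ ≤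
          G * (2 * Real.pi * (η * R ^ 2)) := mul_le_mul (hG t₀) b3 (norm_nonneg _) hG0
      nlinarith
    · have z1 : g t₀ = 0 := hg0 t₀ fun h => ht₀ ⟨by linarith [h.1], by linarith [h.2]⟩
      have z2 : g t = 0 := hg0 t fun h => ht₀ ⟨by linarith [h.1, ht.2], by linarith [h.2, ht.1]⟩
      simp only [hf, hq, z1, z2]
      simp only [Complex.ofReal_zero, zero_mul, sub_self, norm_zero]
      positivity
  have hmid : ‖(∫ t in (t₀ - r)..(t₀ + r), f t) - ∫ t in (t₀ - r)..(t₀ + r), q t‖ ≤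
      η * (1 + 2 * Real.pi * G * R ^ 2) * (2 * r) := by
    rw [← intervalIntegral.integral_sub (hfc.intervalIntegrable _ _) (hqc.intervalIntegrable _ _)]
    have := intervalIntegral.norm_integral_le_of_norm_le_const (a := t₀ - r) (b := t₀ + r)
      (f := fun t => f t - q t) (C := η * (1 + 2 * Real.pi * G * R ^ 2)) (fun t ht => by
        rw [uIoc_of_le (by linarith)] at ht
        exact hpt t (Ioc_subset_Icc_self ht))
    have e : |t₀ + r - (t₀ - r)| = 2 * r := by
      rw [abs_of_pos (by linarith)]; ring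
    rwa [e] at this
  have hqint : (√N : ℂ) * ∫ t in (t₀ - r)..(t₀ + r), q t =
      ((g t₀ / √k : ℝ) : ℂ) * ee (φ t₀) * fres (R * √k) := by
    simp only [hq]
    rw [intervalIntegral.integral_const_mul]
    have := rescale N k t₀ r hN0 hk0
    rw [hrR] at this
    calc _ = (g t₀ : ℂ) * ee (φ t₀) *
          ((√N : ℂ) * ∫ t in (t₀ - r)..(t₀ + r), ee (N * (k * (t - t₀) ^ 2 / 2))) := by ring
      _ = _ := by rw [this]; push_cast; ring
  have hsk : 0 < √k := Real.sqrt_pos.2 hk0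
  have hfr : ‖((g t₀ / √k : ℝ) : ℂ) * ee (φ t₀) * (fres (R * √k) - gam)‖ ≤ 4 * G / (c * R) := by
    rw [norm_mul, norm_mul, norm_ee, mul_one, Complex.norm_real, Real.norm_eq_abs, abs_div,
      abs_of_pos hsk]
    have b1 := fres_sub_gam h1 (R * √k) (by positivity)
    calc |g t₀| / √k * ‖fres (R * √k) - gam‖ ≤ G / √k * (4 / (R * √k)) :=
          mul_le_mul (div_le_div_of_nonneg_right (hG t₀) hsk.le) b1 (norm_nonneg _)
            (by positivity)
      _ = 4 * G / (k * R) := by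
          have hkk : √k * √k = k := Real.mul_self_sqrt hk0.le
          conv_rhs => rw [← hkk]
          field_simp
      _ ≤ 4 * G / (c * R) := by
          apply div_le_div_of_nonneg_left (by positivity) (by positivity)
          exact mul_le_mul_of_nonneg_right (hcσ t₀) hR0.le
  have efin : (√N : ℂ) * (∫ t in a..b, f t) - gam * ((g t₀ / √k : ℝ) : ℂ) * ee (φ t₀) =
      (√N : ℂ) * (∫ t in A..(t₀ - r), f t) + (√N : ℂ) * (∫ t in (t₀ + r)..B, f t) +
      (√N : ℂ) * ((∫ t in (t₀ - r)..(t₀ + r), f t) - ∫ t in (t₀ - r)..(t₀ + r), q t) +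
      ((g t₀ / √k : ℝ) : ℂ) * ee (φ t₀) * (fres (R * √k) - gam) := by
    rw [hsplit, mul_sub (√N : ℂ), hqint]; ring
  have hn : ∀ z : ℂ, ‖(√N : ℂ) * z‖ = √N * ‖z‖ := fun z => by
    rw [norm_mul, Complex.norm_real, Real.norm_eq_abs, abs_of_pos hsN]
  show ‖(√N : ℂ) * (∫ t in a..b, f t) - gam * ((g t₀ / √k : ℝ) : ℂ) * ee (φ t₀)‖ ≤ ε
  rw [efin]
  have n1 : ‖(√N : ℂ) * (∫ t in A..(t₀ - r), f t)‖ ≤ (G + G') / (c * R) := by
    rw [hn, ← htail]; exact mul_le_mul_of_nonneg_left tailL hsN.le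
  have n2 : ‖(√N : ℂ) * (∫ t in (t₀ + r)..B, f t)‖ ≤ (G + G') / (c * R) := by
    rw [hn, ← htail]; exact mul_le_mul_of_nonneg_left tailR hsN.le
  have n3 : ‖(√N : ℂ) * ((∫ t in (t₀ - r)..(t₀ + r), f t) -
      ∫ t in (t₀ - r)..(t₀ + r), q t)‖ ≤ ε / 2 := by
    rw [hn]
    refine (mul_le_mul_of_nonneg_left hmid hsN.le).trans (le_of_eq ?_)
    have : √N * (η * (1 + 2 * Real.pi * G * R ^ 2) * (2 * r)) =
        η * (1 + 2 * Real.pi * G * R ^ 2) * 2 * (√N * r) := by ring
    rw [this, hrR, hη]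
    field_simp
    ring
  have n4 : (G + G') / (c * R) + (G + G') / (c * R) + 4 * G / (c * R) ≤ ε / 2 := by
    have e : (G + G') / (c * R) + (G + G') / (c * R) + 4 * G / (c * R) =
        (6 * G + 2 * G') / (c * R) := by ring
    have e2 : c * R = (12 * G + 4 * G' + 1) / ε := by rw [hR]; field_simp
    rw [e, e2, div_div_eq_mul_div, div_le_iff₀ (by positivity)]
    nlinarith
  calc _ ≤ ‖(√N : ℂ) * (∫ t in A..(t₀ - r), f t)‖ + ‖(√N : ℂ) * (∫ t in (t₀ + r)..B, f t)‖ +
      ‖(√N : ℂ) * ((∫ t in (t₀ - r)..(t₀ + r), f t) - ∫ t in (t₀ - r)..(t₀ + r), q t)‖ +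
      ‖((g t₀ / √k : ℝ) : ℂ) * ee (φ t₀) * (fres (R * √k) - gam)‖ := norm_add₄_le
    _ ≤ ε := by linarith

end Crest.Agent.R75
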