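import Crest.Agent.R75.Defs

/-!
Row 75, module M, part 2: folding an arc without half integers into `(0, 1/2)`.
-/

set_option autoImplicit false

open Finset

namespace Crest.Agent.R75.Tile

open Crest.Agent.R75

theorem exists_fold {t0 len : ℝ} (hlen : 0 < len)
    (h : ∀ u ∈ Set.Icc t0 (t0 + len), ∀ l : ℤ, 2 * u ≠ l) :
    ∃ (ℓ : ℤ) (x : ℝ), 0 < x ∧ x + len < 1 / 2 ∧ (x = t0 - ℓ ∨ x = -(t0 + len) - ℓ) := by
  set l := ⌊2 * t0⌋ with hl
  have h1 : (l : ℝ) < 2 * t0 :=
    lt_of_le_of_ne (Int.floor_le _) (h t0 ⟨le_rfl, by linarith⟩ l).symm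
  have h2 : 2 * t0 < l + 1 := Int.lt_floor_add_one _
  have h3 : 2 * (t0 + len) < l + 1 := by
    by_contra hc
    push Not at hc
    refine h ((l + 1) / 2) ⟨by linarith, by linarith⟩ (l + 1) ?_
    push_cast; ring
  rcases Int.even_or_odd' l with ⟨j, hj | hj⟩
  · have : (l : ℝ) = 2 * j := by exact_mod_cast hj
    exact ⟨j, t0 - j, by linarith, by linarith, Or.inl rfl⟩
  · have : (l : ℝ) = 2 * j + 1 := by exact_mod_cast hj
    refine ⟨-(j + 1), -(t0 + len) - (-(j + 1) : ℤ), ?_, ?_, Or.inr rfl⟩ <;> push_cast <;> linarith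

theorem exists_arc {t0 η L : ℝ} (m : ℕ) (hm : 1 ≤ m) (hη : 0 < η) (hL : 0 ≤ L) {Sg σ : ℝ → ℝ}
    (hSg : ∀ t, HasDerivAt Sg (σ t) t) (hlip : ∀ t u, |σ t - σ u| ≤ L * |t - u|)
    (h : ∀ τ ∈ Set.Icc 0 η, ∀ l : ℤ, 2 * (t0 + m * τ) ≠ l) :
    ∃ (x y sg : ℝ) (P p : ℝ → ℝ), (0 < x ∧ x < y ∧ y < 1 / 2) ∧ y - x = m * η ∧
      (∀ u ∈ Set.Icc x y, ∃ τ ∈ Set.Icc 0 η, ∃ (s : ℤˣ) (ℓ : ℤ),
        u = ((s : ℤ) : ℝ) * (t0 + m * τ) - ℓ ∧ p u = σ τ) ∧
      (∀ u, HasDerivAt P (p u) u) ∧ (∀ u v, |p u - p v| ≤ L * |u - v|) ∧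
      ∀ (N k : ℕ) (C : ℝ), (∫ u in x..y, ee (N * P u + sg * C - k * u)).re =
        (ee (C - k * t0) * (m * ∫ τ in (0 : ℝ)..η, ee (m * (N * Sg τ - k * τ)))).re := by
  have hm1 : (1 : ℝ) ≤ m := by exact_mod_cast hm
  have hm0 : (0 : ℝ) < m := by linarith
  have hlen : 0 < (m : ℝ) * η := by positivity
  obtain ⟨ℓ, x, hx0, hx1, hx⟩ := exists_fold (t0 := t0) hlen (by
    intro u hu l
    have := h ((u - t0) / m) ⟨div_nonneg (by linarith [hu.1]) hm0.le,
      (div_le_iff₀ hm0).2 (by linarith [hu.2])⟩ l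
    rwa [mul_div_cancel₀ _ hm0.ne', add_sub_cancel] at this)
  have hdiv : ∀ u v : ℝ, L * |(u - v) / m| ≤ L * |u - v| := fun u v => by
    refine mul_le_mul_of_nonneg_left ?_ hL
    rw [abs_div, abs_of_pos hm0]
    exact div_le_self (abs_nonneg _) hm1
  rcases hx with hx | hx
  · refine ⟨x, x + m * η, 1, fun u => m * Sg ((u - x) / m), fun u => σ ((u - x) / m),
      ⟨hx0, by linarith, hx1⟩, by ring, fun u hu => ?_, fun u => ?_, fun u v => ?_,
      fun N k C => ?_⟩
    · refine ⟨(u - x) / m, ⟨div_nonneg (by linarith [hu.1]) hm0.le,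
        (div_le_iff₀ hm0).2 (by linarith [hu.2])⟩, 1, ℓ, ?_, rfl⟩
      rw [mul_div_cancel₀ _ hm0.ne', hx]; simp; ring
    · have := ((hSg ((u - x) / m)).comp u (((hasDerivAt_id u).sub_const x).div_const m)).const_mul
        (m : ℝ)
      rw [show (m : ℝ) * (σ ((u - x) / m) * (1 / m)) = σ ((u - x) / m) by field_simp] at this
      exact this
    · refine (hlip _ _).trans ?_
      rw [show (u - x) / m - (v - x) / m = (u - v) / m by ring]
      exact hdiv u v
    · have := intervalIntegral.smul_integral_comp_mul_add (a := 0) (b := η)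
        (fun u => ee (N * (m * Sg ((u - x) / m)) + 1 * C - k * u)) (m : ℝ) x
      rw [mul_zero, zero_add, add_comm (m * η) x] at this
      rw [← this, Complex.real_smul, mul_left_comm,
        ← intervalIntegral.integral_const_mul (ee (C - k * t0))]
      congr 3
      funext τ
      rw [← ee_add, ← ee_add_intCast _ (-(k * ℓ))]
      congr 1
      rw [add_sub_cancel_right, mul_div_cancel_left₀ _ hm0.ne', hx]
      push_cast; ring
  · refine ⟨x, x + m * η, -1, fun u => -(m * Sg ((x + m * η - u) / m)),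
      fun u => σ ((x + m * η - u) / m),
      ⟨hx0, by linarith, hx1⟩, by ring, fun u hu => ?_, fun u => ?_, fun u v => ?_,
      fun N k C => ?_⟩
    · refine ⟨(x + m * η - u) / m, ⟨div_nonneg (by linarith [hu.2]) hm0.le,
        (div_le_iff₀ hm0).2 (by linarith [hu.1])⟩, -1, ℓ, ?_, rfl⟩
      rw [mul_div_cancel₀ _ hm0.ne', hx]; simp; ring
    · have := (((hSg ((x + m * η - u) / m)).comp u
        (((hasDerivAt_id u).const_sub (x + m * η)).div_const m)).const_mul (m : ℝ)).neg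
      rw [show -((m : ℝ) * (σ ((x + m * η - u) / m) * (-1 / m))) = σ ((x + m * η - u) / m) by
        field_simp] at this
      exact this
    · refine (hlip _ _).trans ?_
      rw [show (x + m * η - u) / m - (x + m * η - v) / m = (v - u) / m by ring, abs_sub_comm u v]
      exact hdiv v u
    · have := intervalIntegral.smul_integral_comp_sub_mul (a := 0) (b := η)
        (fun u => ee (N * -(m * Sg ((x + m * η - u) / m)) + -1 * C - k * u)) (m : ℝ) (x + m * η)
      rw [mul_zero, sub_zero, add_sub_cancel_right] at this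
      rw [← this, Complex.real_smul, mul_left_comm,
        ← intervalIntegral.integral_const_mul (ee (C - k * t0)),
        ← Complex.conj_re, map_mul, Complex.conj_ofReal, ← intervalIntegral.intervalIntegral_conj]
      congr 3
      funext τ
      rw [← ee_neg, ← ee_add, ← ee_add_intCast _ (k * ℓ)]
      congr 1
      rw [sub_sub_cancel, mul_div_cancel_left₀ _ hm0.ne', hx]
      push_cast; ring

theorem sum_len_le {ι : Type*} [Fintype ι] (x y : ι → ℝ)
    (h : ∀ j, 0 < x j ∧ x j < y j ∧ y j < 1 / 2) (hd : ∀ i j, i ≠ j → y i < x j ∨ y j < x i) :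
    ∑ j, (y j - x j) ≤ 1 / 2 := by
  have h1 : MeasureTheory.volume (⋃ j ∈ (univ : Finset ι), Set.Icc (x j) (y j)) =
      ∑ j, MeasureTheory.volume (Set.Icc (x j) (y j)) := by
    refine MeasureTheory.measure_biUnion_finset (fun i _ j _ hij => ?_)
      fun _ _ => measurableSet_Icc
    rw [Function.onFun, Set.disjoint_left]
    intro u hu hu'
    rcases hd i j hij with h | h
    · linarith [hu.2, hu'.1]
    · linarith [hu.1, hu'.2]
  have h2 : MeasureTheory.volume (⋃ j ∈ (univ : Finset ι), Set.Icc (x j) (y j)) ≤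
      MeasureTheory.volume (Set.Icc (0 : ℝ) (1 / 2)) := by
    refine MeasureTheory.measure_mono (Set.iUnion₂_subset fun j _ => ?_)
    exact Set.Icc_subset_Icc (h j).1.le (h j).2.2.le
  rw [h1] at h2
  simp only [Real.volume_Icc, sub_zero] at h2
  rw [← ENNReal.ofReal_sum_of_nonneg fun j _ => by linarith [(h j).2.1]] at h2
  exact (ENNReal.ofReal_le_ofReal_iff (by norm_num)).1 h2

theorem exists_phase {γ c : ℂ} {R : ℝ} (hR : 0 < R) (hc : ‖c‖ = R) :
    ∃ C : ℝ, γ * ee C * R = ‖γ‖ * c := by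
  by_cases hγ : γ = 0
  · exact ⟨0, by simp [hγ]⟩
  have hγ' : (‖γ‖ : ℂ) ≠ 0 := by exact_mod_cast (norm_pos_iff.2 hγ).ne'
  have hR' : (R : ℂ) ≠ 0 := by exact_mod_cast hR.ne'
  set w : ℂ := ‖γ‖ * c / (γ * R) with hw
  have hw1 : ‖w‖ = 1 := by
    rw [hw, norm_div, norm_mul, norm_mul, hc]
    simp only [Complex.norm_real, Real.norm_eq_abs, abs_norm, abs_of_pos hR]
    exact div_self (mul_pos (norm_pos_iff.2 hγ) hR).ne'
  refine ⟨w.arg / (2 * Real.pi), ?_⟩
  have : ee (w.arg / (2 * Real.pi)) = w := by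
    have h1 := Complex.norm_mul_exp_arg_mul_I w
    rw [hw1, Complex.ofReal_one, one_mul] at h1
    rw [ee]
    refine Eq.trans ?_ h1
    congr 1
    have : (Real.pi : ℂ) ≠ 0 := by exact_mod_cast Real.pi_ne_zero
    push_cast; field_simp
  rw [this, hw]; field_simp

theorem sum_le_one_of_pairwise {ι : Type*} [Fintype ι] (g : ι → ℝ) (h1 : ∀ i, g i ≤ 1)
    (h : ∀ i j, i ≠ j → g i = 0 ∨ g j = 0) : ∑ i, g i ≤ 1 := by
  by_cases hex : ∃ i, g i ≠ 0
  · obtain ⟨i, hi⟩ := hex
    rw [Finset.sum_eq_single i (fun j _ hj => (h j i hj).resolve_right hi) (by simp)]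
    exact h1 i
  · push Not at hex
    simp [hex]

end Crest.Agent.R75.Tile
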