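import Crest.Agent.R75.TileBlock
import Crest.Agent.R75.TileArc

/-!
Row 75, module M: from the key polynomial, the packing and the gluing to ultraflat polynomials
with real coefficients bounded by `1 + ε`.
-/

set_option autoImplicit false

open Finset

namespace Crest.Agent.R75

open Tile

theorem flatReal_of (h1 : StatPhaseStmt) (h2 : VdC2Stmt) (h3 : KeyStmt) (h4 : PackStmt)
    (h5 : GlueStmt) : FlatRealStmt := by
  classical
  intro ε hε
  set e : ℝ := min (ε / 12) (1 / 20) with he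
  have he0 : 0 < e := lt_min (by positivity) (by norm_num)
  have he1 : e ≤ 1 / 20 := min_le_right _ _
  have heε : 12 * e ≤ ε := by have := min_le_left (ε / 12) (1 / 20); linarith
  obtain ⟨γ, hγ1, hγ⟩ := h1
  obtain ⟨ε₁, hε₁, hglue⟩ := h5 e e he0 (by linarith) he0
  obtain ⟨ι, _, m, ζ, c, κ, hκ, hm, hζ, hc, hW, hF⟩ := h3 e he0
  have hne : Nonempty ι := by
    by_contra hι
    rw [not_nonempty_iff] at hι
    simp at hW
    linarith
  obtain ⟨I, a, b, η, hη, hH, hdisj⟩ := h4 ι m ζ hm hζ (min (2 * ε₁) (1 / 2))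
    (lt_min (by positivity) (by norm_num))
  set W : ℝ := 2 * ∑ n, (m n : ℝ) with hWdef
  set H : ℝ := ∑ i, η i with hHdef
  have hW0 : 0 ≤ W := by positivity
  have hWH1 : 1 - 2 * ε₁ ≤ W * H := by have := min_le_left (2 * ε₁) (1 / 2); linarith
  have hWH2 : 1 / 2 ≤ W * H := by have := min_le_right (2 * ε₁) (1 / 2); linarith
  have hH0 : 0 < H := by
    by_contra hn
    push Not at hn
    nlinarith
  set s0 : ℝ := (1 - 4 * e) / ((1 + e) * H) with hs0def
  have hs0 : 0 < s0 := div_pos (by linarith) (by positivity)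
  have hs0H : (1 + e) * s0 * H = 1 - 4 * e := by rw [hs0def]; field_simp
  set M : ℝ := ∑ _i : Fin I, ∑ n, √(m n : ℝ) with hM
  have hM0 : 0 ≤ M := by positivity
  set Q : ℝ := 96 * (M + 1) / e with hQ
  have hQ0 : 0 < Q := by positivity
  set A : ℝ := 1 + Q ^ 2 / s0 with hAdef
  have hA : 1 ≤ A := by have : 0 ≤ Q ^ 2 / s0 := by positivity
                        linarith
  have hQA : Q ≤ √(s0 * (1 + A)) := by
    refine Real.le_sqrt_of_sq_le ?_
    have : s0 * (1 + A) = 2 * s0 + Q ^ 2 := by rw [hAdef]; field_simp; ring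
    linarith
  set ε₄ : ℝ := e / (4 * (M + 1)) with hε₄
  have hε₄0 : 0 < ε₄ := by positivity
  have herr : 2 * (M * (ε₄ + 24 / √(s0 * (1 + A)))) ≤ e := by
    have h1 : 24 / √(s0 * (1 + A)) ≤ 24 / Q := div_le_div_of_nonneg_left (by norm_num) hQ0 hQA
    have h2 : 24 / Q = ε₄ := by rw [hQ, hε₄]; field_simp; norm_num
    have h3 : M * (ε₄ + 24 / √(s0 * (1 + A))) ≤ (M + 1) * (2 * ε₄) :=
      mul_le_mul (by linarith) (by linarith) (by positivity) (by positivity)
    have h4 : (M + 1) * (2 * ε₄) = e / 2 := by rw [hε₄]; field_simp; norm_num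
    linarith
  set s : Fin I → ℝ := fun i => 3 * e + (1 + e) * s0 * ∑ i' ∈ univ.filter (· < i), η i' with hs
  have hstep : ∀ (i : Fin I) (T : Finset (Fin I)), (∀ j, j ≤ i → j ∈ T) →
      s i + (1 + e) * s0 * η i ≤ 3 * e + (1 + e) * s0 * ∑ i' ∈ T, η i' := by
    intro i T hT
    have h1 : ∑ i' ∈ insert i (univ.filter (· < i)), η i' ≤ ∑ i' ∈ T, η i' := by
      refine Finset.sum_le_sum_of_subset_of_nonneg (fun j hj => hT j ?_) fun j _ _ => (hη j).le
      simp only [mem_insert, mem_filter, mem_univ, true_and] at hj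
      rcases hj with rfl | hj
      · exact le_rfl
      · exact hj.le
    rw [Finset.sum_insert (by simp)] at h1
    have := mul_le_mul_of_nonneg_left h1 (by positivity : 0 ≤ (1 + e) * s0)
    simp only [hs]; linarith
  have hs3 : ∀ i, 3 * e ≤ s i := fun i => by
    have : 0 ≤ (1 + e) * s0 * ∑ i' ∈ univ.filter (· < i), η i' :=
      mul_nonneg (by positivity) (Finset.sum_nonneg fun j _ => (hη j).le)
    simp only [hs]; linarith
  have B : ∀ i, Block (η i) (s i) s0 A e := fun i =>
    (exists_block (hη i) hs0 hA he0 (by linarith)).some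
  have harc := fun j : Fin I × ι => exists_arc (t0 := m j.2 * a j.1 + ζ j.2 * b j.1)
    (L := s0 * (1 + 2 * A)) (m j.2) (hm j.2) (hη j.1) (by positivity) (B j.1).hSg
    ((B j.1).lip hs0) (fun τ hτ l hl => by
      have := (hdisj j.1 j.1 j.2 j.2 1 (-1) τ τ l hτ hτ (by
        rw [← hl]; simp; ring)).2.2
      exact absurd this (by decide))
  choose x y sg P p hxy hlen hmem hP hpl hre using harc
  have hd : ∀ i j, i ≠ j → y i < x j ∨ y j < x i := by
    intro i j hij
    by_contra hn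
    push Not at hn
    obtain ⟨τ, hτ, s1, ℓ, e1, -⟩ := hmem i (max (x i) (x j))
      ⟨le_max_left _ _, max_le (hxy i).2.1.le hn.1⟩
    obtain ⟨τ', hτ', s2, ℓ', e2, -⟩ := hmem j (max (x i) (x j))
      ⟨le_max_right _ _, max_le hn.2 (hxy j).2.1.le⟩
    have := hdisj i.1 j.1 i.2 j.2 s1 s2 τ τ' (ℓ - ℓ') hτ hτ' (by
      push_cast; linarith)
    exact hij (Prod.ext this.1 this.2.1)
  have htot : ∑ j, (y j - x j) = W * H / 2 := by
    simp only [hlen, hWdef, hHdef, Fintype.sum_prod_type]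
    rw [mul_assoc, Finset.sum_mul_sum, Finset.sum_comm]
    ring
  have hWH : W * H ≤ 1 := by have := sum_len_le x y hxy hd; linarith
  obtain ⟨N₀, hN₀⟩ := hglue (Fin I × ι) x y P p (s0 * (1 + 2 * A)) hxy hd (by linarith) hP hpl
    (fun j t ht => by
      obtain ⟨τ, hτ, -, -, -, e1⟩ := hmem j t ht
      rw [e1]
      have m1 := ((B j.1).strictMono hs0).monotone hτ.1
      have m2 := ((B j.1).strictMono hs0).monotone hτ.2
      have m3 := hstep j.1 univ fun _ _ => mem_univ _
      have := (B j.1).σ0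
      have := (B j.1).ση
      have := hs3 j.1
      constructor <;> linarith)
  have hest := fun j : Fin I × ι => (B j.1).estimate hs0 hA h2 hγ (m j.2) (hm j.2) hε₄0
  choose N₁ hN₁ using hest
  have hph : ∀ n, ∃ C : ℝ, γ * ee C * (√(κ * m n) : ℝ) = ‖γ‖ * c n := fun n => by
    have hm1 : (0 : ℝ) < m n := by exact_mod_cast hm n
    refine exists_phase (Real.sqrt_pos.2 (by positivity)) ?_
    rw [← hc n, Real.sqrt_sq (norm_nonneg _)]
  choose C hC using hph
  refine ⟨max N₀ (univ.sup N₁), fun N hN => ?_⟩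
  obtain ⟨a', hflat, hcoef⟩ := hN₀ N ((le_max_left _ _).trans hN) (fun j => sg j * C j.2)
  refine ⟨a', fun k => (hcoef k).trans ?_, fun t => (hflat t).trans
    (mul_le_mul_of_nonneg_right (by linarith) (Real.sqrt_nonneg _))⟩
  choose τ hτ using fun i => (B i).surj hs0 ((k : ℝ) / N)
  -- main term and error term
  set main : Fin I × ι → ℂ := fun j => (√(m j.2 : ℝ) : ℂ) *
    (γ * (((B j.1).g (τ j.1) / √((B j.1).σ' (τ j.1)) : ℝ) : ℂ) *
      ee (m j.2 * (N * (B j.1).Sg (τ j.1) - k * τ j.1))) with hmain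
  set full : Fin I × ι → ℂ := fun j => (√(N : ℝ) : ℂ) *
    (m j.2 * ∫ t in (0 : ℝ)..η j.1, ee (m j.2 * (N * (B j.1).Sg t - k * t))) with hfull
  set ph : Fin I × ι → ℂ := fun j => ee (C j.2 - k * (m j.2 * a j.1 + ζ j.2 * b j.1)) with hph
  have hdiff : ∀ j, ‖full j - main j‖ ≤ √(m j.2 : ℝ) * (ε₄ + 24 / √(s0 * (1 + A))) := fun j =>
    hN₁ j N ((Finset.le_sup (mem_univ j)).trans ((le_max_right _ _).trans hN)) k (τ j.1) (hτ j.1)
  have e1 : ((√(N : ℝ) : ℂ) * ∑ j, ∫ t in x j..y j, ee (N * P j t + sg j * C j.2 - k * t)).re =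
      ∑ j, (ph j * main j).re + ∑ j, (ph j * (full j - main j)).re := by
    rw [Complex.re_ofReal_mul, Complex.re_sum, Finset.mul_sum, ← Finset.sum_add_distrib]
    refine Finset.sum_congr rfl fun j _ => ?_
    rw [hre j N k (C j.2), ← Complex.add_re, ← mul_add, add_sub_cancel, ← Complex.re_ofReal_mul]
    simp only [hph, hfull]
    congr 1; ring
  have e2 : |∑ j, (ph j * (full j - main j)).re| ≤ M * (ε₄ + 24 / √(s0 * (1 + A))) := by
    refine (Finset.abs_sum_le_sum_abs _ _).trans ?_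
    rw [hM, ← Fintype.sum_prod_type (f := fun j : Fin I × ι => √(m j.2 : ℝ)), Finset.sum_mul]
    refine Finset.sum_le_sum fun j _ => (Complex.abs_re_le_norm _).trans ?_
    rw [norm_mul, hph, norm_ee, one_mul]
    exact hdiff j
  set X : ℝ := 1 / √(κ * s0) with hX
  have hκs : 0 < √(κ * s0) := Real.sqrt_pos.2 (by positivity)
  have e3 : ∀ i, |∑ n, 2 * (ph (i, n) * main (i, n)).re| ≤ (B i).g (τ i) * (X * (1 + e)) := by
    intro i
    have hσ' : 0 < (B i).σ' (τ i) := hs0.trans_le ((B i).lo _)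
    have hκ' : 0 < √κ := Real.sqrt_pos.2 hκ
    set R : ℝ := ‖γ‖ * ((B i).g (τ i) / √((B i).σ' (τ i)) / √κ) with hR
    have hterm : ∀ n, ph (i, n) * main (i, n) = (R : ℂ) * (c n *
        ee (m n * (N * (B i).Sg (τ i) - k * τ i - k * a i) + ζ n * (-(k * b i)))) := by
      intro n
      have hCn := hC n
      rw [Real.sqrt_mul hκ.le] at hCn
      have hκc : (√κ : ℂ) ≠ 0 := by exact_mod_cast hκ'.ne'
      have q1 : ee (C n - k * (m n * a i + ζ n * b i)) *
          ee (m n * (N * (B i).Sg (τ i) - k * τ i)) = ee (C n) *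
          ee (m n * (N * (B i).Sg (τ i) - k * τ i - k * a i) + ζ n * (-(k * b i))) := by
        rw [← ee_add, ← ee_add]; congr 1; ring
      have q2 : γ * ee (C n) * (√(m n : ℝ) : ℂ) = ‖γ‖ * c n / (√κ : ℂ) := by
        rw [← hCn]; push_cast; field_simp
      simp only [hph, hmain, hR]
      calc _ = (γ * (√(m n : ℝ) : ℂ) * (((B i).g (τ i) / √((B i).σ' (τ i)) : ℝ) : ℂ)) *
            (ee (C n - k * (m n * a i + ζ n * b i)) *
              ee (m n * (N * (B i).Sg (τ i) - k * τ i))) := by ring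
        _ = (γ * ee (C n) * (√(m n : ℝ) : ℂ)) * (((B i).g (τ i) / √((B i).σ' (τ i)) : ℝ) : ℂ) *
            ee (m n * (N * (B i).Sg (τ i) - k * τ i - k * a i) + ζ n * (-(k * b i))) := by
            rw [q1]; ring
        _ = _ := by rw [q2]; push_cast; ring
    have hR0 : 0 ≤ R := by have := (B i).g0 (τ i); positivity
    have hR1 : R ≤ (B i).g (τ i) * X := by
      have g0 := (B i).g0 (τ i)
      have q : √(κ * s0) ≤ √((B i).σ' (τ i)) * √κ := by
        rw [← Real.sqrt_mul hσ'.le]
        exact Real.sqrt_le_sqrt (by have := (B i).lo (τ i); nlinarith)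
      calc R ≤ 1 * ((B i).g (τ i) / √((B i).σ' (τ i)) / √κ) :=
            mul_le_mul_of_nonneg_right hγ1 (by positivity)
        _ = (B i).g (τ i) / (√((B i).σ' (τ i)) * √κ) := by rw [one_mul, div_div]
        _ ≤ (B i).g (τ i) / √(κ * s0) := div_le_div_of_nonneg_left g0 hκs q
        _ = _ := by rw [hX]; ring
    simp only [hterm, Complex.re_ofReal_mul]
    have := hF (N * (B i).Sg (τ i) - k * τ i - k * a i) (-(k * b i))
    rw [Finset.sum_congr rfl (fun n _ => mul_left_comm 2 R _), ← Finset.mul_sum, abs_mul,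
      abs_of_nonneg hR0, ← mul_assoc]
    exact mul_le_mul hR1 this (abs_nonneg _) (hR0.trans hR1)
  have e4 : ∑ i, (B i).g (τ i) ≤ 1 := by
    have key : ∀ i j, i < j → (B i).g (τ i) = 0 ∨ (B j).g (τ j) = 0 := by
      intro i j hij
      by_contra hn
      push Not at hn
      have q1 : τ i ∈ Set.Ioo 0 (η i) := by_contra fun h => hn.1 ((B i).gout _ h)
      have q2 : τ j ∈ Set.Ioo 0 (η j) := by_contra fun h => hn.2 ((B j).gout _ h)
      have m1 := (B i).strictMono hs0 q1.2
      have m2 := (B j).strictMono hs0 q2.1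
      have m3 := hstep i (univ.filter (· < j)) fun l hl => by simpa using hl.trans_lt hij
      have := (B j).σ0
      have := (B i).ση
      have := hτ i
      have := hτ j
      simp only [hs] at *
      linarith
    refine sum_le_one_of_pairwise _ (fun i => (B i).g1 _) fun i j hij => ?_
    rcases lt_or_gt_of_ne hij with h | h
    · exact key i j h
    · exact (key j i h).symm
  have hX0 : 0 ≤ X := by positivity
  have e5 : |2 * ∑ j, (ph j * main j).re| ≤ X * (1 + e) := by
    rw [Finset.mul_sum, Fintype.sum_prod_type]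
    refine (Finset.abs_sum_le_sum_abs _ _).trans ((Finset.sum_le_sum fun i _ => e3 i).trans ?_)
    rw [← Finset.sum_mul]
    exact mul_le_of_le_one_left (by positivity) e4
  have e6 : X * (1 + e) ≤ 1 + 10 * e := by
    have q1 : (1 - 4 * e) ^ 2 ≤ κ * s0 := by
      have r1 : κ * W * ((1 - 4 * e) / (1 + e)) ≤ κ * s0 := by
        rw [mul_assoc]
        refine mul_le_mul_of_nonneg_left ?_ hκ.le
        have : (1 - 4 * e) / (1 + e) = s0 * H := by rw [← hs0H]; field_simp
        rw [this]; nlinarith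
      have r2 : (1 - e) * ((1 - 4 * e) / (1 + e)) ≤ κ * W * ((1 - 4 * e) / (1 + e)) :=
        mul_le_mul_of_nonneg_right hW (div_nonneg (by linarith) (by linarith))
      have r3 : (1 - 4 * e) ^ 2 ≤ (1 - e) * ((1 - 4 * e) / (1 + e)) := by
        rw [← mul_div_assoc, le_div_iff₀ (by linarith)]
        nlinarith [mul_pos he0 he0, mul_pos (mul_pos he0 he0) he0]
      linarith
    have q2 : 1 - 4 * e ≤ √(κ * s0) := Real.le_sqrt_of_sq_le q1
    rw [hX, div_mul_eq_mul_div, one_mul, div_le_iff₀ hκs]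
    nlinarith
  rw [e1, mul_add]
  have := abs_add_le (2 * ∑ j, (ph j * main j).re) (2 * ∑ j, (ph j * (full j - main j)).re)
  rw [abs_mul 2 (∑ j, (ph j * (full j - main j)).re), abs_two] at this
  linarith

end Crest.Agent.R75
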