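import Crest.Agent.R75.Defs

/-!
Row 75, module M, part 1: one block (frequency profile, cut-off) and its oscillatory integral.
-/

set_option autoImplicit false

open Finset

namespace Crest.Agent.R75.Tile

open Crest.Agent.R75

/-- The data attached to one block of length `η`. -/
structure Block (η s s0 A e : ℝ) where
  Sg : ℝ → ℝ
  σ : ℝ → ℝ
  σ' : ℝ → ℝ
  g : ℝ → ℝ
  g' : ℝ → ℝ
  r : ℝ
  hSg : ∀ t, HasDerivAt Sg (σ t) t
  hσ : ∀ t, HasDerivAt σ (σ' t) t
  cσ' : Continuous σ'
  lo : ∀ t, s0 ≤ σ' t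
  hi : ∀ t, σ' t ≤ s0 * (1 + 2 * A)
  σ0 : σ 0 = s
  ση : σ η ≤ s + (1 + e) * s0 * η
  hg : ∀ t, HasDerivAt g (g' t) t
  cg' : Continuous g'
  g0 : ∀ t, 0 ≤ g t
  g1 : ∀ t, g t ≤ 1
  gout : ∀ t, t ∉ Set.Ioo 0 η → g t = 0
  r0 : 0 < r
  r4 : 4 * r ≤ η
  gmid : ∀ t ∈ Set.Icc (2 * r) (η - 2 * r), g t = 1
  fastL : ∀ t ∈ Set.Icc 0 (2 * r), s0 * (1 + A) ≤ σ' t
  fastR : ∀ t ∈ Set.Icc (η - 2 * r) η, s0 * (1 + A) ≤ σ' t
  var : ∀ a b, a ≤ b → (∫ t in a..b, |g' t|) ≤ 2

theorem exists_block {η s s0 A e : ℝ} (hη : 0 < η) (hs0 : 0 < s0) (hA : 1 ≤ A) (he : 0 < e)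
    (he1 : e ≤ 1) : Nonempty (Block η s s0 A e) := by
  set S := Real.smoothTransition with hS
  have hSc : Continuous S := Real.smoothTransition.continuous
  have hSd : ∀ t, HasDerivAt S (deriv S t) t := fun t =>
    ((Real.smoothTransition.contDiff (n := 1)).differentiable (by simp) t).hasDerivAt
  have hS'c : Continuous (deriv S) :=
    (Real.smoothTransition.contDiff (n := 1)).continuous_deriv (by simp)
  have hS'0 : ∀ t, 0 ≤ deriv S t := fun t => Real.smoothTransition.monotone.deriv_nonneg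
  have S0 : ∀ t, 0 ≤ S t := Real.smoothTransition.nonneg
  have S1 : ∀ t, S t ≤ 1 := Real.smoothTransition.le_one
  set r : ℝ := e * η / (6 * A) with hr
  have hr0 : 0 < r := by positivity
  have hrA : 6 * A * r = e * η := by rw [hr]; field_simp
  have hr6 : 6 * r ≤ η := by nlinarith
  set h : ℝ → ℝ := fun t => S ((3 * r - t) / r) + S ((t - η + 3 * r) / r) with hh
  have hc : Continuous h := by fun_prop
  have h0 : ∀ t, 0 ≤ h t := fun t => add_nonneg (S0 _) (S0 _)
  have h2 : ∀ t, h t ≤ 2 := fun t => by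
    have := S1 ((3 * r - t) / r); have := S1 ((t - η + 3 * r) / r); simp only [hh]; linarith
  set σ' : ℝ → ℝ := fun t => s0 * (1 + A * h t) with hσ'
  have cσ' : Continuous σ' := by fun_prop
  set σ : ℝ → ℝ := fun t => s + ∫ u in (0 : ℝ)..t, σ' u with hσdef
  have hσ : ∀ t, HasDerivAt σ (σ' t) t := fun t =>
    (intervalIntegral.integral_hasDerivAt_right (cσ'.intervalIntegrable _ _)
      (cσ'.stronglyMeasurableAtFilter _ _) cσ'.continuousAt).const_add s
  have cσ : Continuous σ := continuous_iff_continuousAt.2 fun t => (hσ t).continuousAt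
  have hint : ∫ u in (0 : ℝ)..η, h u ≤ 6 * r := by
    have c1 : Continuous fun t => S ((3 * r - t) / r) := by fun_prop
    have c2 : Continuous fun t => S ((t - η + 3 * r) / r) := by fun_prop
    simp only [hh]
    rw [intervalIntegral.integral_add (c1.intervalIntegrable _ _) (c2.intervalIntegrable _ _),
      ← intervalIntegral.integral_add_adjacent_intervals (b := 3 * r) (c1.intervalIntegrable _ _)
        (c1.intervalIntegrable _ _),
      ← intervalIntegral.integral_add_adjacent_intervals (b := η - 3 * r)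
        (c2.intervalIntegrable _ _) (c2.intervalIntegrable _ _)]
    have a1 : ∫ t in (0 : ℝ)..3 * r, S ((3 * r - t) / r) ≤ ∫ t in (0 : ℝ)..3 * r, (1 : ℝ) :=
      intervalIntegral.integral_mono_on (by linarith) (c1.intervalIntegrable _ _) (by simp)
        fun t _ => S1 _
    have a2 : ∫ t in 3 * r..η, S ((3 * r - t) / r) ≤ ∫ t in 3 * r..η, (0 : ℝ) :=
      intervalIntegral.integral_mono_on (by linarith) (c1.intervalIntegrable _ _) (by simp)
        fun t ht => (Real.smoothTransition.zero_of_nonpos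
          (div_nonpos_of_nonpos_of_nonneg (by linarith [ht.1]) hr0.le)).le
    have a3 : ∫ t in (0 : ℝ)..η - 3 * r, S ((t - η + 3 * r) / r) ≤
        ∫ t in (0 : ℝ)..η - 3 * r, (0 : ℝ) :=
      intervalIntegral.integral_mono_on (by linarith) (c2.intervalIntegrable _ _) (by simp)
        fun t ht => (Real.smoothTransition.zero_of_nonpos
          (div_nonpos_of_nonpos_of_nonneg (by linarith [ht.2]) hr0.le)).le
    have a4 : ∫ t in η - 3 * r..η, S ((t - η + 3 * r) / r) ≤ ∫ t in η - 3 * r..η, (1 : ℝ) :=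
      intervalIntegral.integral_mono_on (by linarith) (c2.intervalIntegrable _ _) (by simp)
        fun t _ => S1 _
    simp at a1 a2 a3 a4
    linarith
  have d1 : ∀ t, HasDerivAt (fun t => S ((t - r) / r)) (deriv S ((t - r) / r) / r) t := fun t => by
    have := (hSd ((t - r) / r)).comp t (((hasDerivAt_id t).sub_const r).div_const r)
    rw [show deriv S ((t - r) / r) / r = deriv S ((t - r) / r) * (1 / r) by ring]
    exact this
  have d2 : ∀ t, HasDerivAt (fun t => S ((η - r - t) / r)) (-(deriv S ((η - r - t) / r) / r)) t :=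
    fun t => by
    have := (hSd ((η - r - t) / r)).comp t (((hasDerivAt_id t).const_sub (η - r)).div_const r)
    rw [show -(deriv S ((η - r - t) / r) / r) = deriv S ((η - r - t) / r) * (-1 / r) by ring]
    exact this
  refine ⟨{
    Sg := fun t => ∫ u in (0 : ℝ)..t, σ u
    σ := σ
    σ' := σ'
    g := fun t => S ((t - r) / r) * S ((η - r - t) / r)
    g' := fun t => deriv S ((t - r) / r) / r * S ((η - r - t) / r) +
      S ((t - r) / r) * -(deriv S ((η - r - t) / r) / r)
    r := r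
    hSg := fun t => intervalIntegral.integral_hasDerivAt_right (cσ.intervalIntegrable _ _)
      (cσ.stronglyMeasurableAtFilter _ _) cσ.continuousAt
    hσ := hσ
    cσ' := cσ'
    lo := fun t => ?_
    hi := fun t => ?_
    σ0 := by simp [hσdef]
    ση := ?_
    hg := fun t => (d1 t).mul (d2 t)
    cg' := by fun_prop
    g0 := fun t => mul_nonneg (S0 _) (S0 _)
    g1 := fun t => mul_le_one₀ (S1 _) (S0 _) (S1 _)
    gout := fun t ht => ?_
    r0 := hr0
    r4 := by linarith
    gmid := fun t ht => ?_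
    fastL := fun t ht => ?_
    fastR := fun t ht => ?_
    var := fun a b hab => ?_ }⟩
  · have := mul_nonneg (by linarith : 0 ≤ A) (h0 t)
    simp only [hσ']; nlinarith
  · have := mul_le_mul_of_nonneg_left (h2 t) (by linarith : 0 ≤ A)
    simp only [hσ']; nlinarith
  · simp only [hσdef, hσ']
    rw [intervalIntegral.integral_const_mul, intervalIntegral.integral_add (by simp)
      ((hc.const_mul A).intervalIntegrable _ _), intervalIntegral.integral_const_mul]
    simp only [intervalIntegral.integral_const, sub_zero, smul_eq_mul, mul_one]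
    have := mul_le_mul_of_nonneg_left hint (by linarith : 0 ≤ A)
    nlinarith
  · rw [Set.mem_Ioo, not_and_or] at ht
    rcases ht with ht | ht
    · rw [hS, Real.smoothTransition.zero_of_nonpos
        (div_nonpos_of_nonpos_of_nonneg (by linarith) hr0.le), zero_mul]
    · rw [hS, Real.smoothTransition.zero_of_nonpos (x := (η - r - t) / r)
        (div_nonpos_of_nonpos_of_nonneg (by linarith) hr0.le), mul_zero]
  · rw [hS, Real.smoothTransition.one_of_one_le ((one_le_div hr0).2 (by linarith [ht.1])),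
      Real.smoothTransition.one_of_one_le ((one_le_div hr0).2 (by linarith [ht.2])), mul_one]
  · have e1 : S ((3 * r - t) / r) = 1 :=
      Real.smoothTransition.one_of_one_le ((one_le_div hr0).2 (by linarith [ht.2]))
    have : 1 ≤ h t := by have := S0 ((t - η + 3 * r) / r); simp only [hh]; linarith
    have := mul_le_mul_of_nonneg_left this (by linarith : 0 ≤ A)
    simp only [hσ']; nlinarith
  · have e1 : S ((t - η + 3 * r) / r) = 1 :=
      Real.smoothTransition.one_of_one_le ((one_le_div hr0).2 (by linarith [ht.1]))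
    have : 1 ≤ h t := by have := S0 ((3 * r - t) / r); simp only [hh]; linarith
    have := mul_le_mul_of_nonneg_left this (by linarith : 0 ≤ A)
    simp only [hσ']; nlinarith
  · have c1 : Continuous fun t => deriv S ((t - r) / r) / r := by fun_prop
    have c2 : Continuous fun t => -(deriv S ((η - r - t) / r) / r) := by fun_prop
    have i1 := intervalIntegral.integral_eq_sub_of_hasDerivAt (a := a) (b := b)
      (fun t _ => d1 t) (c1.intervalIntegrable _ _)
    have i2 := intervalIntegral.integral_eq_sub_of_hasDerivAt (a := a) (b := b)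
      (fun t _ => d2 t) (c2.intervalIntegrable _ _)
    have : (∫ t in a..b, |deriv S ((t - r) / r) / r * S ((η - r - t) / r) +
        S ((t - r) / r) * -(deriv S ((η - r - t) / r) / r)|) ≤
        ∫ t in a..b, (deriv S ((t - r) / r) / r - -(deriv S ((η - r - t) / r) / r)) := by
      refine intervalIntegral.integral_mono_on hab (Continuous.intervalIntegrable (by fun_prop) _ _)
        ((c1.sub c2).intervalIntegrable _ _) fun t _ => ?_
      have p1 : 0 ≤ deriv S ((t - r) / r) / r := div_nonneg (hS'0 _) hr0.le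
      have p2 : 0 ≤ deriv S ((η - r - t) / r) / r := div_nonneg (hS'0 _) hr0.le
      have q1 := mul_le_mul_of_nonneg_left (S1 ((η - r - t) / r)) p1
      have q2 := mul_le_mul_of_nonneg_left (S1 ((t - r) / r)) p2
      have q3 := mul_nonneg p1 (S0 ((η - r - t) / r))
      have q4 := mul_nonneg p2 (S0 ((t - r) / r))
      rw [abs_le]; constructor <;> nlinarith
    rw [intervalIntegral.integral_sub (c1.intervalIntegrable _ _) (c2.intervalIntegrable _ _),
      i1, i2] at this
    have := S0 ((a - r) / r)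
    have := S1 ((b - r) / r)
    have := S0 ((η - r - b) / r)
    have := S1 ((η - r - a) / r)
    linarith

namespace Block

variable {η s s0 A e : ℝ} (B : Block η s s0 A e)

theorem strictMono (hs0 : 0 < s0) : StrictMono B.σ :=
  strictMono_of_deriv_pos fun t => by rw [(B.hσ t).deriv]; exact hs0.trans_le (B.lo t)

theorem lip (hs0 : 0 < s0) (t u : ℝ) : |B.σ t - B.σ u| ≤ s0 * (1 + 2 * A) * |t - u| := by
  have := Convex.norm_image_sub_le_of_norm_hasDerivWithin_le (f := B.σ) (f' := B.σ')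
    (s := Set.univ) (C := s0 * (1 + 2 * A)) (fun x _ => (B.hσ x).hasDerivWithinAt)
    (fun x _ => by
      rw [Real.norm_eq_abs, abs_of_pos (hs0.trans_le (B.lo x))]; exact B.hi x)
    convex_univ (Set.mem_univ u) (Set.mem_univ t)
  simpa [Real.norm_eq_abs] using this

theorem surj (hs0 : 0 < s0) (v : ℝ) : ∃ τ, B.σ τ = v := by
  have cσ : Continuous B.σ := continuous_iff_continuousAt.2 fun t => (B.hσ t).continuousAt
  have hd : ∀ t, HasDerivAt (fun t => B.σ t - s0 * t) (B.σ' t - s0 * 1) t := fun t =>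
    (B.hσ t).sub ((hasDerivAt_id t).const_mul s0)
  have hmono : Monotone fun t => B.σ t - s0 * t :=
    monotone_of_deriv_nonneg (fun t => (hd t).differentiableAt) fun t => by
      rw [(hd t).deriv]
      have := B.lo t; linarith
  set T := |v - B.σ 0| / s0 with hT
  have hT0 : 0 ≤ T := by positivity
  have hTs : s0 * T = |v - B.σ 0| := by rw [hT]; field_simp
  have h1 := hmono hT0
  have h2 := hmono (neg_nonpos.2 hT0)
  simp only [mul_zero, sub_zero, mul_neg] at h1 h2
  have := intermediate_value_Icc (a := -T) (b := T) (by linarith) cσ.continuousOn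
  obtain ⟨τ, -, hτ⟩ := this (a := v)
    ⟨by linarith [neg_abs_le (v - B.σ 0)], by linarith [le_abs_self (v - B.σ 0)]⟩
  exact ⟨τ, hτ⟩

theorem estimate (hs0 : 0 < s0) (hA : 1 ≤ A) (h2 : VdC2Stmt) {γ : ℂ}
    (hγ : ∀ (Sg σ σ' g g' : ℝ → ℝ) (a b c : ℝ), a ≤ b → 0 < c →
      (∀ t, HasDerivAt Sg (σ t) t) → (∀ t, HasDerivAt σ (σ' t) t) → Continuous σ' →
      (∀ t, c ≤ σ' t) → (∀ t, HasDerivAt g (g' t) t) → Continuous g' →
      (∀ t, t ∉ Set.Ioo a b → g t = 0) →
      ∀ ε : ℝ, 0 < ε → ∃ N₀ : ℝ, ∀ N : ℝ, N₀ ≤ N → ∀ t₀ : ℝ,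
        ‖(√N : ℂ) * (∫ t in a..b, (g t : ℂ) * ee (N * (Sg t - σ t₀ * t))) -
          γ * ((g t₀ / √(σ' t₀) : ℝ) : ℂ) * ee (N * (Sg t₀ - σ t₀ * t₀))‖ ≤ ε)
    (m : ℕ) (hm : 1 ≤ m) {ε : ℝ} (hε : 0 < ε) :
    ∃ N₀ : ℕ, ∀ N : ℕ, N₀ ≤ N → ∀ (k τ : ℝ), B.σ τ = k / N →
      ‖(√(N : ℝ) : ℂ) * (m * ∫ t in (0 : ℝ)..η, ee (m * (N * B.Sg t - k * t))) -
        (√(m : ℝ) : ℂ) * (γ * ((B.g τ / √(B.σ' τ) : ℝ) : ℂ) * ee (m * (N * B.Sg τ - k * τ)))‖ ≤
        √(m : ℝ) * (ε + 24 / √(s0 * (1 + A))) := by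
  have hη : 0 ≤ η := by have := B.r0; have := B.r4; linarith
  obtain ⟨N₁, hN₁⟩ := hγ B.Sg B.σ B.σ' B.g B.g' 0 η s0 hη hs0 B.hSg B.hσ B.cσ' B.lo B.hg B.cg'
    B.gout ε hε
  refine ⟨max 1 ⌈N₁⌉₊, fun N hN k τ hτ => ?_⟩
  have hN1 : (1 : ℝ) ≤ N := by exact_mod_cast (le_max_left _ _).trans hN
  have hm1 : (1 : ℝ) ≤ m := by exact_mod_cast hm
  have hNN : N₁ ≤ (m : ℝ) * N := by
    have h1 : N₁ ≤ N := (Nat.le_ceil N₁).trans (by exact_mod_cast (le_max_right _ _).trans hN)
    nlinarith
  have hmain := hN₁ (m * N) hNN τ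
  have hph : ∀ t : ℝ, (m : ℝ) * N * (B.Sg t - B.σ τ * t) = m * (N * B.Sg t - k * t) := by
    intro t; rw [hτ]; field_simp
  simp only [hph] at hmain
  set ψ : ℝ → ℝ := fun t => m * (N * B.Sg t - k * t) with hψ
  have cSg : Continuous B.Sg := continuous_iff_continuousAt.2 fun t => (B.hSg t).continuousAt
  have cg : Continuous B.g := continuous_iff_continuousAt.2 fun t => (B.hg t).continuousAt
  have cψ : Continuous ψ := by fun_prop
  have hμ : 0 < (m : ℝ) * N * (s0 * (1 + A)) := by positivity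
  have hv : ∀ a b, a ≤ b → (∀ t ∈ Set.Icc a b, s0 * (1 + A) ≤ B.σ' t) →
      ‖∫ t in a..b, ((1 - B.g t : ℝ) : ℂ) * ee (ψ t)‖ ≤
        4 * (1 + 2) / √((m : ℝ) * N * (s0 * (1 + A))) := by
    intro a b hab hf
    refine h2 ψ (fun t => m * (N * B.σ t - k)) (fun t => m * (N * B.σ' t)) (fun t => 1 - B.g t)
      (fun t => -B.g' t) a b _ 1 2 (fun t => ?_) (fun t => ?_) (by have := B.cσ'; fun_prop)
      (fun t => (B.hg t).const_sub 1) B.cg'.neg hab hμ (Or.inl fun t ht => ?_) (fun t _ => ?_) ?_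
    · have := (((B.hSg t).const_mul (N : ℝ)).sub ((hasDerivAt_id t).const_mul k)).const_mul (m : ℝ)
      simpa using this
    · exact (((B.hσ t).const_mul (N : ℝ)).sub_const k).const_mul (m : ℝ)
    · rw [mul_assoc]
      exact mul_le_mul_of_nonneg_left (mul_le_mul_of_nonneg_left (hf t ht) (by linarith))
        (by linarith)
    · have := B.g0 t; have := B.g1 t
      rw [abs_le]; constructor <;> linarith
    · simpa using B.var a b hab
  have c1 : Continuous fun t => ((1 - B.g t : ℝ) : ℂ) * ee (ψ t) := by fun_prop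
  have c2 : Continuous fun t => ((B.g t : ℝ) : ℂ) * ee (ψ t) := by fun_prop
  have hr := B.r0
  have hr4 := B.r4
  have hrest : ‖∫ t in (0 : ℝ)..η, ((1 - B.g t : ℝ) : ℂ) * ee (ψ t)‖ ≤
      24 / √((m : ℝ) * N * (s0 * (1 + A))) := by
    rw [← intervalIntegral.integral_add_adjacent_intervals (b := 2 * B.r)
        (c1.intervalIntegrable _ _) (c1.intervalIntegrable _ _),
      ← intervalIntegral.integral_add_adjacent_intervals (a := 2 * B.r) (b := η - 2 * B.r)
        (c1.intervalIntegrable _ _) (c1.intervalIntegrable _ _)]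
    have hz : ∫ t in 2 * B.r..η - 2 * B.r, ((1 - B.g t : ℝ) : ℂ) * ee (ψ t) = 0 := by
      rw [intervalIntegral.integral_congr (g := fun _ => 0)]
      · simp
      · intro t ht
        rw [Set.uIcc_of_le (by linarith)] at ht
        simp [B.gmid t ht]
    rw [hz, zero_add]
    refine (norm_add_le _ _).trans ?_
    have a1 := hv 0 (2 * B.r) (by linarith) B.fastL
    have a2 := hv (η - 2 * B.r) η (by linarith) B.fastR
    have : (24 : ℝ) / √((m : ℝ) * N * (s0 * (1 + A))) =
        4 * (1 + 2) / √((m : ℝ) * N * (s0 * (1 + A))) +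
          4 * (1 + 2) / √((m : ℝ) * N * (s0 * (1 + A))) := by ring
    linarith
  have hsplit : ∫ t in (0 : ℝ)..η, ee (ψ t) = (∫ t in (0 : ℝ)..η, (B.g t : ℂ) * ee (ψ t)) +
      ∫ t in (0 : ℝ)..η, ((1 - B.g t : ℝ) : ℂ) * ee (ψ t) := by
    rw [← intervalIntegral.integral_add (c2.intervalIntegrable _ _) (c1.intervalIntegrable _ _)]
    congr 1; funext t; push_cast; ring
  have hsq : (√(N : ℝ) : ℂ) * m = (√(m : ℝ) : ℂ) * (√((m : ℝ) * N) : ℂ) := by
    have : √(N : ℝ) * m = √(m : ℝ) * √((m : ℝ) * N) := by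
      rw [Real.sqrt_mul (by linarith), ← mul_assoc, Real.mul_self_sqrt (by linarith), mul_comm]
    exact_mod_cast this
  change ‖(√(N : ℝ) : ℂ) * (m * ∫ t in (0 : ℝ)..η, ee (ψ t)) - (√(m : ℝ) : ℂ) *
    (γ * ((B.g τ / √(B.σ' τ) : ℝ) : ℂ) * ee (ψ τ))‖ ≤ _
  rw [hsplit, ← mul_assoc, hsq, mul_assoc, ← mul_sub, norm_mul, Complex.norm_real,
    Real.norm_eq_abs, abs_of_nonneg (Real.sqrt_nonneg _)]
  refine mul_le_mul_of_nonneg_left ?_ (Real.sqrt_nonneg _)
  rw [mul_add, add_sub_right_comm]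
  refine (norm_add_le _ _).trans (add_le_add hmain ?_)
  rw [norm_mul, Complex.norm_real, Real.norm_eq_abs, abs_of_nonneg (Real.sqrt_nonneg _)]
  refine (mul_le_mul_of_nonneg_left hrest (Real.sqrt_nonneg _)).trans (le_of_eq ?_)
  rw [Real.sqrt_mul (by positivity : (0 : ℝ) ≤ m * N)]
  have : 0 < √((m : ℝ) * N) := Real.sqrt_pos.2 (by positivity)
  field_simp

end Block

end Crest.Agent.R75.Tile
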