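import Crest.Agent.R75.Defs

/-!
# Row 75: the van der Corput first and second derivative tests
-/

set_option autoImplicit false

open Set MeasureTheory intervalIntegral

namespace Crest.Agent.R75

namespace VdC

theorem int_abs_div_sq (p p' : ℝ → ℝ) (a b lam : ℝ) (hp : ∀ t, HasDerivAt p (p' t) t)
    (hp'c : Continuous p') (hab : a ≤ b) (hlam : 0 < lam)
    (hs : (∀ t ∈ Icc a b, 0 ≤ p' t) ∨ (∀ t ∈ Icc a b, p' t ≤ 0))
    (hl : ∀ t ∈ Icc a b, lam ≤ |p t|) :
    ∫ t in a..b, |p' t| / (p t) ^ 2 ≤ 2 / lam := by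
  have hpc : Continuous p := continuous_iff_continuousAt.2 fun t => (hp t).continuousAt
  have hne : ∀ t ∈ Icc a b, p t ≠ 0 := fun t ht h0 => by
    have := hl t ht; rw [h0, abs_zero] at this; linarith
  have hint : IntervalIntegrable (fun t => p' t / (p t) ^ 2) volume a b := by
    apply ContinuousOn.intervalIntegrable
    rw [uIcc_of_le hab]
    exact hp'c.continuousOn.div (hpc.continuousOn.pow 2) fun t ht => pow_ne_zero _ (hne t ht)
  have hftc : ∫ t in a..b, p' t / (p t) ^ 2 = (-(p b)⁻¹) - (-(p a)⁻¹) := by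
    apply integral_eq_sub_of_hasDerivAt (f := fun t => -(p t)⁻¹) _ hint
    intro t ht
    rw [uIcc_of_le hab] at ht
    have := ((hp t).inv (hne t ht)).neg
    have e : p' t / p t ^ 2 = -(-p' t / p t ^ 2) := by ring
    rw [e]
    exact this
  have ha : |(p a)⁻¹| ≤ 1 / lam := by
    rw [abs_inv, one_div]
    exact inv_anti₀ hlam (hl a ⟨le_rfl, hab⟩)
  have hb : |(p b)⁻¹| ≤ 1 / lam := by
    rw [abs_inv, one_div]
    exact inv_anti₀ hlam (hl b ⟨hab, le_rfl⟩)
  have h2 : 2 / lam = 1 / lam + 1 / lam := by ring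
  rcases hs with hs | hs
  · have : ∫ t in a..b, |p' t| / (p t) ^ 2 = ∫ t in a..b, p' t / (p t) ^ 2 := by
      apply integral_congr
      intro t ht
      rw [uIcc_of_le hab] at ht
      simp only [abs_of_nonneg (hs t ht)]
    rw [this, hftc, h2]
    have h3 := neg_abs_le (p b)⁻¹
    have h4 := le_abs_self (p a)⁻¹
    linarith
  · have : ∫ t in a..b, |p' t| / (p t) ^ 2 = ∫ t in a..b, -(p' t / (p t) ^ 2) := by
      apply integral_congr
      intro t ht
      rw [uIcc_of_le hab] at ht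
      simp only [abs_of_nonpos (hs t ht), neg_div]
    rw [this, intervalIntegral.integral_neg, hftc, h2]
    have h3 := le_abs_self (p b)⁻¹
    have h4 := neg_abs_le (p a)⁻¹
    linarith

theorem split_level (p : ℝ → ℝ) (a b l : ℝ) (hab : a ≤ b) (hc : Continuous p)
    (hm : MonotoneOn p (Icc a b)) :
    ∃ c ∈ Icc a b, (c = a ∨ ∀ t ∈ Icc a c, p t ≤ l) ∧ (c = b ∨ ∀ t ∈ Icc c b, l ≤ p t) := by
  by_cases h1 : l ≤ p a
  · refine ⟨a, ⟨le_rfl, hab⟩, Or.inl rfl, Or.inr fun t ht => ?_⟩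
    exact h1.trans (hm ⟨le_rfl, hab⟩ ht ht.1)
  by_cases h2 : p b ≤ l
  · refine ⟨b, ⟨hab, le_rfl⟩, Or.inr fun t ht => ?_, Or.inl rfl⟩
    exact (hm ht ⟨hab, le_rfl⟩ ht.2).trans h2
  push Not at h1 h2
  obtain ⟨c, hc1, hc2⟩ := intermediate_value_Icc hab hc.continuousOn ⟨h1.le, h2.le⟩
  refine ⟨c, hc1, Or.inr fun t ht => ?_, Or.inr fun t ht => ?_⟩
  · rw [← hc2]; exact hm ⟨ht.1, ht.2.trans hc1.2⟩ hc1 ht.2
  · rw [← hc2]; exact hm hc1 ⟨hc1.1.trans ht.1, ht.2⟩ ht.1

end VdC

open VdC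

theorem vdc1 : VdC1Stmt := by
  intro ψ p p' g g' a b lam G G' hψ hp hp'c hg hg'c hab hlam hs hl hG hG'
  have hpc : Continuous p := continuous_iff_continuousAt.2 fun t => (hp t).continuousAt
  have hgc : Continuous g := continuous_iff_continuousAt.2 fun t => (hg t).continuousAt
  have hψc : Continuous ψ := continuous_iff_continuousAt.2 fun t => (hψ t).continuousAt
  have hne : ∀ t ∈ Icc a b, p t ≠ 0 := fun t ht h0 => by
    have := hl t ht; rw [h0, abs_zero] at this; linarith
  have hG0 : 0 ≤ G := (abs_nonneg _).trans (hG a ⟨le_rfl, hab⟩)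
  have hG'0 : 0 ≤ G' :=
    (intervalIntegral.integral_nonneg hab fun t _ => abs_nonneg (g' t)).trans hG'
  set c : ℂ := 2 * Real.pi * Complex.I with hc
  have hc0 : c ≠ 0 := Complex.two_pi_I_ne_zero
  have hcn : ‖c‖ = 2 * Real.pi := by
    simp [hc, abs_of_pos Real.pi_pos]
  -- `u = g / p`, with derivative `u'`
  set u : ℝ → ℝ := fun t => g t / p t with hu
  set u' : ℝ → ℝ := fun t => (g' t * p t - g t * p' t) / (p t) ^ 2 with hu'
  have hud : ∀ t ∈ Icc a b, HasDerivAt u (u' t) t := fun t ht => (hg t).div (hp t) (hne t ht)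
  have hu'c : ContinuousOn u' (Icc a b) :=
    ((hg'c.mul hpc).sub (hgc.mul hp'c)).continuousOn.div (hpc.continuousOn.pow 2)
      fun t ht => pow_ne_zero _ (hne t ht)
  have hF : ∀ t ∈ uIcc a b, HasDerivAt (fun t => (u t : ℂ) * ee (ψ t))
      ((u' t : ℂ) * ee (ψ t) + c * ((g t : ℂ) * ee (ψ t))) t := by
    intro t ht
    rw [uIcc_of_le hab] at ht
    have h1 : HasDerivAt (fun t => ee (ψ t)) ((p t : ℝ) • (c * ee (ψ t))) t :=
      (hasDerivAt_ee (ψ t)).scomp t (hψ t)
    have h2 : HasDerivAt (fun t => (u t : ℂ)) (u' t : ℂ) t := (hud t ht).ofReal_comp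
    have h3 : (p t : ℂ) ≠ 0 := by exact_mod_cast hne t ht
    have e : (u' t : ℂ) * ee (ψ t) + c * ((g t : ℂ) * ee (ψ t)) =
        (u' t : ℂ) * ee (ψ t) + (u t : ℂ) * ((p t : ℝ) • (c * ee (ψ t))) := by
      simp only [hu, Complex.real_smul]
      push_cast
      field_simp
    rw [e]
    exact h2.mul h1
  have hi1 : IntervalIntegrable (fun t => (u' t : ℂ) * ee (ψ t)) volume a b := by
    apply ContinuousOn.intervalIntegrable
    rw [uIcc_of_le hab]
    exact (Complex.continuous_ofReal.comp_continuousOn hu'c).mul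
      (continuous_ee.comp hψc).continuousOn
  have hi2 : IntervalIntegrable (fun t => c * ((g t : ℂ) * ee (ψ t))) volume a b := by
    apply Continuous.intervalIntegrable
    exact continuous_const.mul ((Complex.continuous_ofReal.comp hgc).mul (continuous_ee.comp hψc))
  have hftc := integral_eq_sub_of_hasDerivAt hF (hi1.add hi2)
  rw [intervalIntegral.integral_add hi1 hi2, intervalIntegral.integral_const_mul] at hftc
  have hub : ∀ t ∈ Icc a b, |u t| ≤ G / lam := by
    intro t ht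
    simp only [hu, abs_div]
    exact div_le_div₀ hG0 (hG t ht) hlam (hl t ht)
  have hint : ‖∫ t in a..b, (u' t : ℂ) * ee (ψ t)‖ ≤ G' / lam + G * (2 / lam) := by
    have h1 : ‖∫ t in a..b, (u' t : ℂ) * ee (ψ t)‖ ≤
        ∫ t in a..b, (|g' t| / lam + G * (|p' t| / (p t) ^ 2)) := by
      apply intervalIntegral.norm_integral_le_of_norm_le hab
      · refine Filter.Eventually.of_forall fun t ht => ?_
        have ht' : t ∈ Icc a b := Ioc_subset_Icc_self ht
        rw [norm_mul, norm_ee, mul_one, Complex.norm_real, Real.norm_eq_abs]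
        have hpt := hne t ht'
        have e : u' t = g' t / p t - g t * (p' t / (p t) ^ 2) := by
          simp only [hu']; field_simp
        rw [e]
        refine (abs_sub _ _).trans (add_le_add ?_ ?_)
        · rw [abs_div]
          exact div_le_div_of_nonneg_left (abs_nonneg _) hlam (hl t ht')
        · rw [abs_mul, abs_div, abs_of_nonneg (sq_nonneg (p t))]
          exact mul_le_mul_of_nonneg_right (hG t ht') (by positivity)
      · apply ContinuousOn.intervalIntegrable
        rw [uIcc_of_le hab]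
        refine (hg'c.abs.div_const _).continuousOn.add (continuousOn_const.mul ?_)
        exact hp'c.abs.continuousOn.div (hpc.continuousOn.pow 2)
          fun t ht => pow_ne_zero _ (hne t ht)
    refine h1.trans ?_
    rw [intervalIntegral.integral_add, intervalIntegral.integral_div,
      intervalIntegral.integral_const_mul]
    · refine add_le_add (div_le_div_of_nonneg_right hG' hlam.le) ?_
      exact mul_le_mul_of_nonneg_left (int_abs_div_sq p p' a b lam hp hp'c hab hlam hs hl) hG0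
    · exact (hg'c.abs.div_const _).intervalIntegrable _ _
    · apply ContinuousOn.intervalIntegrable
      rw [uIcc_of_le hab]
      exact continuousOn_const.mul (hp'c.abs.continuousOn.div (hpc.continuousOn.pow 2)
          fun t ht => pow_ne_zero _ (hne t ht))
  have hkey : c * ∫ t in a..b, (g t : ℂ) * ee (ψ t) =
      (u b : ℂ) * ee (ψ b) - (u a : ℂ) * ee (ψ a) - ∫ t in a..b, (u' t : ℂ) * ee (ψ t) := by
    rw [← hftc]; ring
  have hn : 2 * Real.pi * ‖∫ t in a..b, (g t : ℂ) * ee (ψ t)‖ ≤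
      G / lam + G / lam + (G' / lam + G * (2 / lam)) := by
    rw [← hcn, ← norm_mul, hkey]
    refine (norm_sub_le _ _).trans (add_le_add ((norm_sub_le _ _).trans (add_le_add ?_ ?_)) hint)
    · rw [norm_mul, norm_ee, mul_one, Complex.norm_real, Real.norm_eq_abs]
      exact hub b ⟨hab, le_rfl⟩
    · rw [norm_mul, norm_ee, mul_one, Complex.norm_real, Real.norm_eq_abs]
      exact hub a ⟨le_rfl, hab⟩
  have hpi : 3 < Real.pi := Real.pi_gt_three
  have hX : 0 ≤ ‖∫ t in a..b, (g t : ℂ) * ee (ψ t)‖ := norm_nonneg _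
  have e1 : G / lam + G / lam + (G' / lam + G * (2 / lam)) = 4 * (G / lam) + G' / lam := by ring
  have e2 : (G + G') / lam = G / lam + G' / lam := by ring
  have h1 : 0 ≤ G / lam := by positivity
  have h2 : 0 ≤ G' / lam := by positivity
  rw [e2]
  nlinarith

namespace VdC

theorem vdc2_pos (ψ p p' g g' : ℝ → ℝ) (a b μ G G' : ℝ)
    (hψ : ∀ t, HasDerivAt ψ (p t) t) (hp : ∀ t, HasDerivAt p (p' t) t) (hp'c : Continuous p')
    (hg : ∀ t, HasDerivAt g (g' t) t) (hg'c : Continuous g') (hab : a ≤ b) (hμ : 0 < μ)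
    (hs : ∀ t ∈ Icc a b, μ ≤ p' t)
    (hG : ∀ t ∈ Icc a b, |g t| ≤ G) (hG' : (∫ t in a..b, |g' t|) ≤ G') :
    ‖∫ t in a..b, (g t : ℂ) * ee (ψ t)‖ ≤ 4 * (G + G') / √μ := by
  have hpc : Continuous p := continuous_iff_continuousAt.2 fun t => (hp t).continuousAt
  have hgc : Continuous g := continuous_iff_continuousAt.2 fun t => (hg t).continuousAt
  have hψc : Continuous ψ := continuous_iff_continuousAt.2 fun t => (hψ t).continuousAt
  have hG0 : 0 ≤ G := (abs_nonneg _).trans (hG a ⟨le_rfl, hab⟩)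
  have hG'0 : 0 ≤ G' :=
    (intervalIntegral.integral_nonneg hab fun t _ => abs_nonneg (g' t)).trans hG'
  have hl : 0 < √μ := Real.sqrt_pos.2 hμ
  have hll : √μ * √μ = μ := Real.mul_self_sqrt hμ.le
  -- growth of `p`
  have hgrow : ∀ s ∈ Icc a b, ∀ t ∈ Icc a b, s ≤ t → μ * (t - s) ≤ p t - p s := by
    intro s hs' t ht hst
    have := (convex_Icc a b).mul_sub_le_image_sub_of_le_deriv (f := p) hpc.continuousOn
      (fun x _ => (hp x).differentiableAt.differentiableWithinAt) (C := μ)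
      (fun x hx => by rw [(hp x).deriv]; exact hs x (interior_subset hx)) s hs' t ht hst
    exact this
  have hmono : MonotoneOn p (Icc a b) := by
    intro s hs' t ht hst
    have := hgrow s hs' t ht hst
    have : 0 ≤ μ * (t - s) := mul_nonneg hμ.le (sub_nonneg.2 hst)
    linarith
  obtain ⟨c₁, hc₁, h1a, h1b⟩ := split_level p a b (-√μ) hab hpc hmono
  obtain ⟨c₂, hc₂, h2a, h2b⟩ := split_level p c₁ b (√μ) hc₁.2 hpc
    (hmono.mono (Icc_subset_Icc hc₁.1 le_rfl))
  have hcont : Continuous fun t => (g t : ℂ) * ee (ψ t) :=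
    (Complex.continuous_ofReal.comp hgc).mul (continuous_ee.comp hψc)
  have hsub : ∀ s t, a ≤ s → s ≤ t → t ≤ b → (∫ x in s..t, |g' x|) ≤ G' := by
    intro s t h1 h2 h3
    refine le_trans ?_ hG'
    exact intervalIntegral.integral_mono_interval h1 h2 h3
      (Filter.Eventually.of_forall fun x => abs_nonneg _) (hg'c.abs.intervalIntegrable _ _)
  have hnn : 0 ≤ (G + G') / √μ := by positivity
  have hI1 : ‖∫ t in a..c₁, (g t : ℂ) * ee (ψ t)‖ ≤ (G + G') / √μ := by
    rcases h1a with h | h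
    · rw [h]; simpa using hnn
    · refine vdc1 ψ p p' g g' a c₁ _ G G' hψ hp hp'c hg hg'c hc₁.1 hl
        (Or.inl fun t ht => hμ.le.trans (hs t ⟨ht.1, ht.2.trans hc₁.2⟩)) (fun t ht => ?_)
        (fun t ht => hG t ⟨ht.1, ht.2.trans hc₁.2⟩) (hsub _ _ le_rfl hc₁.1 hc₁.2)
      have := h t ht
      have := neg_le_abs (p t)
      linarith
  have hI3 : ‖∫ t in c₂..b, (g t : ℂ) * ee (ψ t)‖ ≤ (G + G') / √μ := by
    have hac : a ≤ c₂ := hc₁.1.trans hc₂.1
    rcases h2b with h | h
    · rw [h]; simpa using hnn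
    · refine vdc1 ψ p p' g g' c₂ b _ G G' hψ hp hp'c hg hg'c hc₂.2 hl
        (Or.inl fun t ht => hμ.le.trans (hs t ⟨hac.trans ht.1, ht.2⟩)) (fun t ht => ?_)
        (fun t ht => hG t ⟨hac.trans ht.1, ht.2⟩) (hsub _ _ hac hc₂.2 le_rfl)
      exact (h t ht).trans (le_abs_self _)
  have hlen : c₂ - c₁ ≤ 2 / √μ := by
    rcases h2a with h | h
    · rw [h, sub_self]; positivity
    rcases h1b with h' | h'
    · have : c₂ = c₁ := le_antisymm (h' ▸ hc₂.2) hc₂.1
      rw [this, sub_self]; positivity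
    have e1 := h c₂ ⟨hc₂.1, le_rfl⟩
    have e2 := h' c₁ ⟨le_rfl, hc₁.2⟩
    have e3 := hgrow c₁ hc₁ c₂ ⟨hc₁.1.trans hc₂.1, hc₂.2⟩ hc₂.1
    rw [le_div_iff₀ hl]
    have e4 : √μ * ((c₂ - c₁) * √μ) ≤ √μ * 2 := by nlinarith
    exact le_of_mul_le_mul_left e4 hl
  have hI2 : ‖∫ t in c₁..c₂, (g t : ℂ) * ee (ψ t)‖ ≤ G * (2 / √μ) := by
    have := intervalIntegral.norm_integral_le_of_norm_le_const (a := c₁) (b := c₂) (C := G)
      (f := fun t => (g t : ℂ) * ee (ψ t)) (by
        intro t ht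
        rw [uIoc_of_le hc₂.1] at ht
        rw [norm_mul, norm_ee, mul_one, Complex.norm_real, Real.norm_eq_abs]
        exact hG t ⟨hc₁.1.trans ht.1.le, ht.2.trans hc₂.2⟩)
    refine this.trans ?_
    rw [abs_of_nonneg (sub_nonneg.2 hc₂.1)]
    exact mul_le_mul_of_nonneg_left hlen hG0
  have hsplit : ∫ t in a..b, (g t : ℂ) * ee (ψ t) = (∫ t in a..c₁, (g t : ℂ) * ee (ψ t)) +
      (∫ t in c₁..c₂, (g t : ℂ) * ee (ψ t)) + ∫ t in c₂..b, (g t : ℂ) * ee (ψ t) := by
    rw [integral_add_adjacent_intervals (hcont.intervalIntegrable _ _)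
      (hcont.intervalIntegrable _ _), integral_add_adjacent_intervals
      (hcont.intervalIntegrable _ _) (hcont.intervalIntegrable _ _)]
  rw [hsplit]
  refine (norm_add₃_le).trans ?_
  have e : 4 * (G + G') / √μ = (G + G') / √μ + G * (2 / √μ) + (G + G') / √μ + 2 * (G' / √μ) := by
    ring
  have : 0 ≤ G' / √μ := by positivity
  rw [e]
  linarith

end VdC

theorem vdc2 : VdC2Stmt := by
  intro ψ p p' g g' a b μ G G' hψ hp hp'c hg hg'c hab hμ hs hG hG'
  rcases hs with hs | hs
  · exact vdc2_pos ψ p p' g g' a b μ G G' hψ hp hp'c hg hg'c hab hμ hs hG hG'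
  · have h := vdc2_pos (fun t => -ψ t) (fun t => -p t) (fun t => -p' t) g g' a b μ G G'
      (fun t => (hψ t).neg) (fun t => (hp t).neg) hp'c.neg hg hg'c hab hμ
      (fun t ht => by have := hs t ht; linarith) hG hG'
    have e : ∫ t in a..b, (g t : ℂ) * ee (-ψ t) =
        (starRingEnd ℂ) (∫ t in a..b, (g t : ℂ) * ee (ψ t)) := by
      rw [intervalIntegral.integral_of_le hab, intervalIntegral.integral_of_le hab,
        ← integral_conj]
      refine integral_congr_ae (Filter.Eventually.of_forall fun t => ?_)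
      simp only [map_mul, Complex.conj_ofReal, ee_neg]
    rw [e, Complex.norm_conj] at h
    exact h

end Crest.Agent.R75
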